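import Vale.Agent.P253W.D.Spec

/-!
# P253W, block D: the limit of the translations is an action of `ℂ`
-/

open scoped Manifold ContDiff Bundle Topology
open Bundle IsManifold MeasureTheory Set Metric Filter Vale.Agent.P253.Mfd Vale.Agent.P253Z
open Vale.Agent.P272.K (Cm Chart)

noncomputable section

namespace Vale.Agent.P253W.D

variable {n : ℕ} {M : Type} [MetricSpace M] [ChartedSpace (Cm n) M]
  [RiemannianBundle fun x : M => TangentSpace 𝓘(ℝ, Cm n) x] [MeasurableSpace M] {μ : Measure M}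
  {F : Flow n M} {T : F.TA μ}

namespace Ac

theorem ule : uf ≤ atTop := Nat.hyperfilter_le_atTop

theorem ulim {Z : Type} [TopologicalSpace Z] {K : Set Z} (hK : IsCompact K) {f : ℕ → Z}
    (h : ∀ᶠ k in uf, f k ∈ K) : ∃ x ∈ K, Tendsto f uf (𝓝 x) :=
  hK.ultrafilter_le_nhds' ((hyperfilter ℕ).map f) h

variable {X : Ex T} {v : ℕ → Cm n} {W : Set M}

theorem v0 (t : Tools T) (d : X.Dir v W) : Tendsto v atTop (𝓝 0) := by
  obtain ⟨c, hc, h⟩ := d.small
  refine squeeze_zero_norm' (h.mono fun k hk => hk.2) (Real.tendsto_exp_neg_atTop_nhds_zero.comp ?_)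
  exact (t.uh X.p).2.1.const_mul_atTop hc

theorem sm (t : Tools T) (d : X.Dir v W) (R : ℝ) {δ : ℝ} (hδ : 0 < δ) :
    ∀ᶠ k in atTop, ∀ σ ∈ ball (0 : ℂ) R, ‖σ • v k‖ ≤ δ := by
  have h := ((v0 t d).norm.const_mul |R|).eventually (gt_mem_nhds (by simpa using hδ))
  refine h.mono fun k hk σ hσ => ?_
  rw [norm_smul]
  exact (mul_le_mul_of_nonneg_right ((mem_ball_zero_iff.1 hσ).le.trans (le_abs_self R))
    (norm_nonneg _)).trans hk.le

/-- the translated points stay in the chart -/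
theorem base (t : Tools T) (d : X.Dir v W) (R : ℝ) : ∀ᶠ k in uf,
    MDifferentiableOn 𝓘(ℂ, Cm n) 𝓘(ℂ, Cm n) (X.s k) (ball X.p R) ∧ ∀ x ∈ ball X.p R,
      X.Ψ k (X.s k x) = x ∧ ∀ σ ∈ ball (0 : ℂ) R, X.s k x + σ • v k ∈ ball (0 : Cm n) 1 := by
  refine Eventually.filter_mono ule ?_
  filter_upwards [X.sec R (1 / 4) (by norm_num), sm t d R (show (0 : ℝ) < 1 / 4 by norm_num)]
    with k h1 h2
  refine ⟨h1.2.1, fun x hx => ⟨(h1.2.2 x hx).1, fun σ hσ => mem_ball_zero_iff.2 ?_⟩⟩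
  linarith [norm_add_le (X.s k x) (σ • v k), (h1.2.2 x hx).2, h2 σ hσ]

theorem pt (c : X.Cpt v) (σ : ℂ) (x : M) : ∃ y, Tendsto (fun k => X.tr v k σ x) uf (𝓝 y) := by
  obtain ⟨K, hK, h⟩ := c (‖σ‖ + dist x X.p + 1)
  obtain ⟨y, -, hy⟩ := ulim hK (h.mono fun k hk => hk x
    (mem_ball.2 (by linarith [norm_nonneg σ])) σ
    (mem_ball_zero_iff.2 (by linarith [dist_nonneg (x := x) (y := X.p)])))
  exact ⟨y, hy⟩

/-- the limit in a chart -/
theorem loc (t : Tools T) (d : X.Dir v W) (c : X.Cpt v) (R : ℝ) {e : Chart n M} (he : Hc e) :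
    ∃ g : ℂ × Cm n → M, MDifferentiableOn 𝓘(ℂ, ℂ × Cm n) 𝓘(ℂ, Cm n) g
      (ball 0 R ×ˢ (e.target ∩ e.symm ⁻¹' ball X.p R)) ∧
      TendstoLocallyUniformlyOn (fun k (q : ℂ × Cm n) => X.tr v k q.1 (e.symm q.2)) g uf
        (ball 0 R ×ˢ (e.target ∩ e.symm ⁻¹' ball X.p R)) := by
  obtain ⟨K, hK, h⟩ := c R
  refine t.nf (ℂ × Cm n) (hyperfilter ℕ) _ _ K
    (isOpen_ball.prod (e.symm.isOpen_inter_preimage isOpen_ball)) hK ?_
  filter_upwards [h, base t d R] with k h1 h2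
  refine ⟨?_, fun q hq => h1 _ hq.2.2 _ hq.1⟩
  have h3 : DifferentiableOn ℂ (X.s k ∘ e.symm) (e.target ∩ e.symm ⁻¹' ball X.p R) :=
    mdifferentiableOn_iff_differentiableOn.1
      (h2.1.comp ((t.df.symm e he).1.mono inter_subset_left) inter_subset_right)
  exact (X.ch.hol k).comp (f := fun q : ℂ × Cm n => X.s k (e.symm q.2) + q.1 • v k)
    (mdifferentiableOn_iff_differentiableOn.2
      ((h3.comp differentiableOn_snd fun q hq => hq.2).add
        (differentiableOn_fst.smul_const (v k)))) fun q hq => (h2.2 _ hq.2.2).2 _ hq.1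

/-- the sections along the translations -/
theorem key (t : Tools T) (d : X.Dir v W) (c : X.Cpt v) (σ : ℂ) (x : M) :
    ∀ᶠ k in uf, X.s k (X.tr v k σ x) = X.s k x + σ • v k := by
  obtain ⟨R, h1, h2, h3⟩ : ∃ R, σ ∈ ball (0 : ℂ) R ∧ x ∈ ball X.p R ∧ 0 < R :=
    ⟨‖σ‖ + dist x X.p + 1, mem_ball_zero_iff.2 (by linarith [dist_nonneg (x := x) (y := X.p)]),
      mem_ball.2 (by linarith [norm_nonneg σ]), by positivity⟩
  obtain ⟨K, hK, h⟩ := c R
  obtain ⟨R', h4, h5⟩ := hK.isBounded.subset_ball_lt 0 X.p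
  filter_upwards [h, base t d R, base t d R'] with k a b b'
  have e1 : MapsTo (fun τ : ℂ => X.s k x + τ • v k) (ball 0 R) (ball 0 1) := (b.2 x h2).2
  have e2 : ContinuousOn (fun τ : ℂ => X.s k x + τ • v k) (ball 0 R) := by fun_prop
  have e3 : MapsTo (fun τ => X.tr v k τ x) (ball 0 R) (ball X.p R') := fun τ hτ => h5 (a x h2 τ hτ)
  refine t.df.unq (X.Ψ k) _ isOpen_ball (X.ch.hol k)
    (fun y hy => t.mt.et _ X.l _ _ X.ch.l_pos fun w => (X.ch.met k y hy w).1) ℂ (ball 0 R)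
    (fun τ => X.s k (X.tr v k τ x)) _ (convex_ball 0 R).isPreconnected
    (b'.1.continuousOn.comp ((X.ch.hol k).continuousOn.comp e2 e1) e3) e2
    (fun τ hτ => by simpa using (b'.2 _ (e3 hτ)).2 0 (mem_ball_self h4)) e1
    (fun τ hτ => (b'.2 _ (e3 hτ)).1) 0 (mem_ball_self h3) ?_ h1
  simp [Ex.tr, (b.2 x h2).1]

variable {Φ : ℂ → M → M}

theorem tend (l : X.Lim v Φ) (σ : ℂ) {x : ℕ → M} {y : M} (h : Tendsto x uf (𝓝 y)) :
    Tendsto (fun k => X.tr v k σ (x k)) uf (𝓝 (Φ σ y)) :=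
  l.lim.tendsto_comp (x := (σ, y)) l.hol.continuous.continuousAt (tendsto_const_nhds.prodMk_nhds h)

theorem ev_md (t : Tools T) (R : Polynomial (Pz n)) {f : M → ℂ}
    (hf : MDifferentiable 𝓘(ℂ, Cm n) 𝓘(ℂ, ℂ) f) :
    MDifferentiable 𝓘(ℂ, Cm n) 𝓘(ℂ, ℂ) fun x => ev R (zv T.z x) (f x) := by
  induction R using Polynomial.induction_on' with
  | add P Q hP hQ => simpa [ev, Pi.add_def] using hP.add hQ
  | monomial j a =>
    simpa [ev, Pi.mul_def, Pi.pow_def] using (t.zc.sec _ (t.zc.mem a)).2.mul (hf.pow j)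

theorem alg (t : Tools T) (r : X.Rel) (d : X.Dir v W) (l : X.Lim v Φ) (i : Fin n) (σ : ℂ) :
    Alg T fun x => T.z i (Φ σ x) := by
  have z := t.zc.sec _ (T.z_mem i)
  have r0 := X.ch.r_pos
  obtain ⟨C, hC⟩ := X.bnd _ (T.z_mem i)
  obtain ⟨R, R0, hR⟩ := r (fun k y => T.z i (X.Ψ k (y + σ • v k))) ⟨X.r / 32, C, by positivity, by
    refine Eventually.filter_mono ule ?_
    filter_upwards [hC, sm t d (‖σ‖ + 1) (show 0 < X.r / 32 by positivity)] with k h1 h2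
    have h3 : MapsTo (fun y => y + σ • v k) (ball 0 (X.r / 32)) (ball 0 (X.r / 16)) :=
      fun y hy => mem_ball_zero_iff.2 (by
        linarith [norm_add_le y (σ • v k), mem_ball_zero_iff.1 hy, h2 σ (by simp)])
    exact ⟨(t.map.holn _ _ _ z.1 (X.ch.hol k)).comp (by fun_prop)
      (h3.mono_right (ball_subset_ball (by linarith [X.ch.r_le]))), fun y hy => h1 _ (h3 hy)⟩⟩ 1
  refine ⟨R, R0, congrFun (t.all.a.ident 0 _ ((t.all.a.sec_zero _).2 (ev_md t R (z.2.comp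
    (l.hol.comp (mdifferentiable_const.prodMk mdifferentiable_id))))) X.p ?_)⟩
  filter_upwards [ball_mem_nhds X.p one_pos] with x hx
  have h1 := (z.2.continuous.tendsto _).comp (tend l σ (tendsto_const_nhds (x := x)))
  have h2 := (((R.map (MvPolynomial.eval (zv T.z x))).continuous.tendsto _).comp h1).norm
  refine norm_le_zero_iff.1 (le_of_forall_pos_le_add fun ε hε => le_of_tendsto h2 ?_)
  filter_upwards [hR (‖T.z i (Φ σ x)‖ + 1) ε hε, h1.norm.eventually (gt_mem_nhds (lt_add_one _))]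
    with k a b
  exact (a x hx b.le).trans_eq (zero_add ε).symm

end Ac

open Ac

/-- **LIM** -/
theorem lim (t : Tools T) : LIM T := fun X v W d c => by
  choose Φ hΦ using pt c
  have key : ∀ q : ℂ × M, ∃ V ∈ 𝓝 q,
      MDifferentiableOn (𝓘(ℂ, ℂ).prod 𝓘(ℂ, Cm n)) 𝓘(ℂ, Cm n) (fun q : ℂ × M => Φ q.1 q.2) V ∧
      TendstoLocallyUniformlyOn (fun k (q : ℂ × M) => X.tr v k q.1 q.2) (fun q => Φ q.1 q.2) uf V :=
    fun q => by
      obtain ⟨R, h1, h2⟩ : ∃ R, q.1 ∈ ball (0 : ℂ) R ∧ q.2 ∈ ball X.p R :=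
        ⟨‖q.1‖ + dist q.2 X.p + 1,
          mem_ball_zero_iff.2 (by linarith [dist_nonneg (x := q.2) (y := X.p)]),
          mem_ball.2 (by linarith [norm_nonneg q.1])⟩
      have he := t.all.a.chart q.2
      obtain ⟨g, g1, g2⟩ := loc t d c R he
      generalize he' : chartAt (Cm n) q.2 = e at *
      have m : MapsTo (fun q : ℂ × M => (q.1, e q.2)) (ball 0 R ×ˢ (e.source ∩ ball X.p R))
          (ball 0 R ×ˢ (e.target ∩ e.symm ⁻¹' ball X.p R)) := fun q hq =>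
        ⟨hq.1, e.map_source hq.2.1, by simpa [e.left_inv hq.2.1] using hq.2.2⟩
      have md : MDifferentiableOn (𝓘(ℂ, ℂ).prod 𝓘(ℂ, Cm n)) 𝓘(ℂ, ℂ × Cm n)
          (fun q : ℂ × M => (q.1, e q.2)) (ball 0 R ×ˢ (e.source ∩ ball X.p R)) :=
        mdifferentiableOn_fst.prodMk_space
          ((t.df.symm e he).2.1.comp mdifferentiableOn_snd fun q hq => hq.2.1)
      have g3 := (g2.comp _ m md.continuousOn).congr (G := fun k q => X.tr v k q.1 q.2)
        fun k q hq => by simp [e.left_inv hq.2.1]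
      have g4 : EqOn _ (fun q : ℂ × M => Φ q.1 q.2) _ := fun q hq =>
        tendsto_nhds_unique (g3.tendsto_at hq) (hΦ q.1 q.2)
      exact ⟨_, (isOpen_ball.prod (e.open_source.inter isOpen_ball)).mem_nhds
        ⟨h1, he' ▸ mem_chart_source _ _, h2⟩, (g1.comp md m).congr fun q hq => (g4 hq).symm,
        g3.congr_right g4⟩
  refine ⟨Φ, fun q => ?_, fun u hu q => ?_⟩
  · obtain ⟨V, h1, h2, -⟩ := key q
    exact h2.mdifferentiableAt h1
  · obtain ⟨V, h1, -, h2⟩ := key q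
    simpa only [nhdsWithin_eq_nhds.2 h1] using h2 u hu q (mem_of_mem_nhds h1)

/-- **ACT** -/
theorem act (t : Tools T) : ACT T := fun X v W Φ r d ⟨N, g⟩ c l => by
  have p := fun σ x => tend l σ (tendsto_const_nhds (x := x))
  refine ⟨N, l.hol, fun x => tendsto_nhds_unique (p 0 x) (tendsto_const_nhds.congr' ?_),
    fun σ σ' x => tendsto_nhds_unique (p _ x) ((tend l σ (p σ' x)).congr' ?_), ?_, fun x => ?_,
    alg t r d l⟩
  · filter_upwards [base t d (dist x X.p + 1)] with k h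
    simp [Ex.tr, (h.2 x (mem_ball.2 (lt_add_one _))).1]
  · filter_upwards [key t d c σ' x] with k h
    rw [Ex.tr, h, Ex.tr, add_smul, add_assoc, add_comm (σ' • v k)]
  · obtain ⟨K, δ, hK, hδ, h⟩ := d.move
    obtain ⟨x, hx⟩ := (h.filter_mono ule).choice
    obtain ⟨y, -, hy⟩ := ulim hK (hx.mono fun k a => a.1)
    refine ⟨1, y, dist_pos.1 (hδ.trans_le (ge_of_tendsto ((tend l 1 hy).dist hy) ?_))⟩
    exact hx.mono fun k a => a.2
  · obtain ⟨B, h⟩ := g (dist x X.p + 1)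
    have z : Continuous (zv T.z) := continuous_pi fun i => (t.zc.sec _ (T.z_mem i)).2.continuous
    exact ⟨B, fun σ => le_of_tendsto ((z.tendsto _).comp (p σ x)).norm
      ((h (‖σ‖ + 1)).mono fun k a => a x (mem_ball.2 (lt_add_one _)) σ (by simp))⟩

end Vale.Agent.P253W.D
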