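import Vale.Agent.P253W.D.Spec

/-!
# P253W, row D.BAI: a base point near which the decay of the differential is uniform
-/

open scoped Manifold ContDiff Bundle Topology Matrix
open Bundle IsManifold MeasureTheory Set Metric Filter Vale.Agent.P253.Mfd Vale.Agent.P253Z
open Vale.Agent.P272.K (Cm Chart)
open Vale.Agent.P253W.C (ex)

noncomputable section

namespace Vale.Agent.P253W.D

/-- the theorem of Baire for a countable cover of an open set -/
theorem bai_baire {X ι : Type*} [TopologicalSpace X] [BaireSpace X] [Countable ι] {U : Set X}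
    (hU : IsOpen U) (hne : U.Nonempty) (S : ι → Set X) (hS : ∀ w ∈ U, ∃ i, w ∈ S i) :
    ∃ (i : ι) (V : Set X), IsOpen V ∧ V ⊆ U ∧ V ⊆ closure (S i) ∧ ∃ p ∈ V, p ∈ S i := by
  have hc : ⋃ i, closure (S i) ∪ Uᶜ = univ := by
    obtain ⟨w₀, h₀⟩ := hne
    refine eq_univ_of_forall fun w => mem_iUnion.2 ?_
    by_cases hw : w ∈ U
    · obtain ⟨i, hi⟩ := hS w hw
      exact ⟨i, .inl (subset_closure hi)⟩
    · obtain ⟨i, -⟩ := hS w₀ h₀
      exact ⟨i, .inr hw⟩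
  obtain ⟨w, hw, hi⟩ := (dense_iUnion_interior_of_closed
    (fun i => isClosed_closure.union hU.isClosed_compl) hc).inter_open_nonempty U hU hne
  obtain ⟨i, hi⟩ := mem_iUnion.1 hi
  have hV : IsOpen (U ∩ interior (closure (S i) ∪ Uᶜ)) := hU.inter isOpen_interior
  have hs : U ∩ interior (closure (S i) ∪ Uᶜ) ⊆ closure (S i) := fun y hy =>
    (interior_subset hy.2).resolve_right fun h => h hy.1
  exact ⟨i, _, hV, inter_subset_left, hs, mem_closure_iff.1 (hs ⟨hw, hi⟩) _ hV ⟨hw, hi⟩⟩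

variable {n : ℕ} {M : Type} [MetricSpace M] [ChartedSpace (Cm n) M]
  [RiemannianBundle fun x : M => TangentSpace 𝓘(ℝ, Cm n) x] [MeasurableSpace M] {μ : Measure M}
  {F : Flow n M} {T : F.TA μ}

omit [RiemannianBundle fun x : M => TangentSpace 𝓘(ℝ, Cm n) x] [MeasurableSpace M] in
theorem bai_hp (df : DF n M) {Φ : ℂ → M → M}
    (h : MDifferentiable (𝓘(ℂ, ℂ).prod 𝓘(ℂ, Cm n)) 𝓘(ℂ, Cm n) fun q : ℂ × M => Φ q.1 q.2)
    {e : Chart n M} (he : Hc e) : HP (orb Φ e) (univ ×ˢ e.target) := by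
  have h1 : Differentiable ℂ fun q : ℂ × Cm n => q.1 := differentiable_fst
  have h2 : Differentiable ℂ fun q : ℂ × Cm n => q.2 := differentiable_snd
  have h3 : MDifferentiableOn 𝓘(ℂ, ℂ × Cm n) 𝓘(ℂ, Cm n) (fun q : ℂ × Cm n => e.symm q.2)
      (univ ×ˢ e.target) :=
    (df.symm e he).1.comp h2.mdifferentiable.mdifferentiableOn fun q hq => hq.2
  exact h.comp_mdifferentiableOn (h1.mdifferentiable.mdifferentiableOn.prodMk h3)

omit [MeasurableSpace M] in
theorem bai_cont (df : DF n M) (cv : CONV F) {Φ : ℂ → M → M}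
    (h : MDifferentiable (𝓘(ℂ, ℂ).prod 𝓘(ℂ, Cm n)) 𝓘(ℂ, Cm n) fun q : ℂ × M => Φ q.1 q.2)
    {e : Chart n M} (he : Hc e) (σ : ℂ) (v : Cm n) {w : Cm n} (hw : w ∈ e.target) :
    ContinuousAt (fun w => F.nv 1 (orb Φ e σ w) (dn (orb Φ e σ) w v)) w := by
  have hp := bai_hp df h he
  have h1 := cv 1 zero_le_one (Cm n) (𝓝 w) (fun _ => orb Φ e) (orb Φ e) (univ ×ˢ e.target)
    (fun y => (σ, y)) (σ, w) (isOpen_univ.prod e.open_target) (.of_forall fun _ => hp) hp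
    (fun u hu x _ => ⟨_, self_mem_nhdsWithin, .of_forall fun _ _ _ => refl_mem_uniformity hu⟩)
    ⟨trivial, hw⟩ (Continuous.prodMk_right σ).continuousAt
  have h2 : Continuous fun A : Mx n => qf A v := by
    unfold qf
    fun_prop
  simp only [← F.qf_pull]
  exact h2.continuousAt.tendsto.comp h1

/-- **BAI** -/
theorem bai (t : Tools T) (g : GEN T) (h : THB T) (d : DM T) : BAI T := by
  intro Φ N W act e1 hW hne tb
  obtain ⟨O, hO, ⟨x₀, hx₀⟩, hOW, hg⟩ := (g Φ N act).1 W hW hne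
  obtain ⟨z, e, -, he, hx, -⟩ := t.zc.ex x₀
  obtain ⟨⟨m, κ⟩, V, hV, hVU, hVc, p, hp, ν, B, hB, -⟩ := bai_baire
    (e.isOpen_inter_preimage_symm hO) ⟨e x₀, e.map_source hx, by simpa [e.left_inv hx] using hx₀⟩
    (fun i : ℕ × ℚ => {w | ∃ (ν : ℝ) (B : T.Tube (fun σ => Φ σ (e.symm w)) ν), B.ε < i.2 ∧
      Dc F Φ e w i.2 i.1}) (fun w hw => by
      obtain ⟨ν, -, ⟨B⟩⟩ := tb _ ((g Φ N act).2 _ (hg _ hw.2))
      obtain ⟨κ₀, ρ, h0, h1, -⟩ := (h Φ N act _ ν B).big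
      obtain ⟨κ, k1, k2⟩ := exists_rat_btwn (lt_add_of_pos_right B.ε h0)
      obtain ⟨m, hm⟩ := (d Φ N W act e1 _ (hOW hw.2) (hg _ hw.2) e he (e.map_target hw.1) ν B
        (h Φ N act _ ν B)).2 κ fun i => by linarith [h1 i]
      rw [e.right_inv hw.1] at hm
      exact ⟨(m, κ), ν, B, k1, hm⟩)
  obtain ⟨r, hr, hs⟩ := nhds_basis_closedBall.mem_iff.1 (hV.mem_nhds hp)
  have ep : e (e.symm p) = p := e.right_inv (hVU hp).1
  refine ⟨⟨Φ, N, e.symm p, e, r, ν, B, κ, m, act, hg _ (hVU hp).2, he, e.map_target (hVU hp).1, hr,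
    ?_, hB, ?_, (d Φ N W act e1 _ (hOW (hVU hp).2) (hg _ (hVU hp).2) e he
      (e.map_target (hVU hp).1) ν B (h Φ N act _ ν B)).1, h Φ N act _ ν B⟩⟩
  · rw [ep]
    exact fun w hw => (hVU (hs hw)).1
  · rw [ep]
    intro w hw σ hσ v
    have hw' := hs (ball_subset_closedBall hw)
    exact ContinuousWithinAt.closure_le (hVc hw')
      (bai_cont t.df t.conv act.hol he σ v (hVU hw').1).continuousWithinAt
      continuousWithinAt_const fun y hy => by
        obtain ⟨_, _, -, hy⟩ := hy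
        exact hy σ hσ v

end Vale.Agent.P253W.D
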