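import Vale.Agent.P253W.D.Ee

/-!
# P253W, block D: the theorem of Baire
-/

open scoped Manifold ContDiff Bundle Topology Matrix
open Bundle IsManifold MeasureTheory Set Metric Filter Vale.Agent.P253.Mfd Vale.Agent.P253Z
open Vale.Agent.P272.K (Cm Chart)

noncomputable section

namespace Vale.Agent.P253W.D

variable {n : ℕ} {M : Type} [MetricSpace M] [ChartedSpace (Cm n) M]
  [RiemannianBundle fun x : M => TangentSpace 𝓘(ℝ, Cm n) x] [MeasurableSpace M]
  {μ : Measure M} {F : Flow n M} {T : F.TA μ}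

theorem Bai2.cl (t : Tools T) {Φ : ℂ → M → M} {N : ℕ} (a : Act0 T Φ N) {e : Chart n M} (he : Hc e)
    {κ m : ℝ} {S : Set (Cm n)} (hS : ∀ w ∈ S, Dc F Φ e w κ m) {w : Cm n} (hw : w ∈ e.target)
    (hc : w ∈ closure S) : Dc F Φ e w κ m := by
  intro σ hσ v
  have := mem_closure_iff_nhdsWithin_neBot.1 hc
  have h1 := t.conv 1 zero_le_one (Cm n) (𝓝[S] w) (fun _ => orb Φ e) (orb Φ e) (univ ×ˢ e.target)
    (fun y => (σ, y)) (σ, w) (isOpen_univ.prod e.open_target)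
    (Eventually.of_forall fun _ => Ee.hp_orb t.df a.hol he) (Ee.hp_orb t.df a.hol he)
    (fun u hu x _ => ⟨univ, univ_mem, Eventually.of_forall fun _ _ _ => refl_mem_uniformity hu⟩)
    ⟨trivial, hw⟩ (tendsto_const_nhds.prodMk_nhds (tendsto_id.mono_left nhdsWithin_le_nhds))
  have h2 : Continuous fun P : Mx n => qf P v := by unfold qf; fun_prop
  rw [← F.qf_pull]
  refine le_of_tendsto ((h2.tendsto _).comp h1) ?_
  filter_upwards [self_mem_nhdsWithin] with y hy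
  exact (F.qf_pull _ _ _ _).trans_le (hS y hy σ hσ v)

theorem bai2 (t : Tools T) (g : GEN T) (h : THB T) (d : DM T) : BAI T := by
  intro Φ N W a e1 hW hne tb
  obtain ⟨g1, g2⟩ := g Φ N a
  obtain ⟨O, o1, ⟨x₀, o2⟩, o3, o4⟩ := g1 W hW hne
  set e := pc n x₀
  have he : Hc e := t.all.a.chart x₀
  set Z := e.target ∩ e.symm ⁻¹' O
  have hZ : IsOpen Z := e.symm.isOpen_inter_preimage o1
  set X : ℕ × ℚ → Set (Cm n) := fun i => {w | w ∈ Z ∧ Dc F Φ e w i.2 i.1 ∧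
    ∃ (ν : ℝ) (B : T.Tube (fun σ => Φ σ (e.symm w)) ν), B.ε < i.2 ∧ Dm Φ B e}
  have h1 : ⋃ i : Option (ℕ × ℚ), i.elim Zᶜ (fun i => closure (X i)) = univ := by
    refine eq_univ_of_forall fun w => mem_iUnion.2 ?_
    by_cases hw : w ∈ Z
    · obtain ⟨ν, -, ⟨B⟩⟩ := tb _ (g2 _ (o4 _ hw.2))
      obtain ⟨d1, d2⟩ := d Φ N W a e1 _ (o3 hw.2) (o4 _ hw.2) e he (e.map_target hw.1) ν B
        (h Φ N a _ _ B)
      obtain ⟨b, h2, h3⟩ := ((eventually_all.2 fun i => eventually_lt_nhds (B.ε_lt i)).filter_mono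
        nhdsWithin_le_nhds |>.and (self_mem_nhdsWithin (s := Ioi B.ε))).exists.imp fun _ h => h.symm
      obtain ⟨κ, h4, h5⟩ := exists_rat_btwn (show B.ε < b from h2)
      obtain ⟨m, hm⟩ := d2 κ fun i => h5.trans (h3 i)
      rw [e.right_inv hw.1] at hm
      exact ⟨some (m, κ), subset_closure ⟨hw, hm, ν, B, h4, d1⟩⟩
    · exact ⟨none, hw⟩
  obtain ⟨w, hw, h2⟩ := (dense_iUnion_interior_of_closed (fun i => by
    cases i; exacts [hZ.isClosed_compl, isClosed_closure]) h1).inter_open_nonempty Z hZ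
    ⟨e x₀, mem_chart_target _ _, by rwa [mem_preimage, e.left_inv (mem_chart_source _ _)]⟩
  obtain ⟨_ | i, h3⟩ := mem_iUnion.1 h2
  · exact (interior_subset h3 hw).elim
  obtain ⟨w', ⟨h4, h5⟩, -, -, ν, B, h6, h7⟩ := mem_closure_iff.1 (interior_subset h3) _
    (hZ.inter isOpen_interior) ⟨hw, h3⟩
  obtain ⟨r, hr, h8⟩ := nhds_basis_closedBall.mem_iff.1
    ((hZ.inter isOpen_interior).mem_nhds ⟨h4, h5⟩)
  rw [← e.right_inv h4.1] at h8
  exact ⟨⟨Φ, N, e.symm w', e, r, ν, B, i.2, i.1, a, o4 _ h4.2, he, e.map_target h4.1, hr,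
    fun _ h => (h8 h).1.1, h6, fun y hy => Bai2.cl t a he (fun _ h => h.2.1)
      (h8 (ball_subset_closedBall hy)).1.1 (interior_subset (h8 (ball_subset_closedBall hy)).2),
    h7, h Φ N a _ _ B⟩⟩

end Vale.Agent.P253W.D
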