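import Vale.Agent.P253W.D.Pure
import Vale.Agent.P253Z.T2.Liou.Poly

/-!
# P253W, block D: functions of growth less than one, interpolation
-/

open scoped Topology Matrix
open Set Metric Filter
open Vale.Agent.P272.K (Cm)
open Vale.Agent.P253W.C (ex)

noncomputable section

namespace Vale.Agent.P253W.D

namespace Bdd

theorem one (h : ℂ → ℂ) (ρ C a : ℝ) (hρ : 0 < ρ) (ha : a < 1) (hd : DifferentiableOn ℂ h (ex ρ))
    (hb : ∀ τ ∈ ex ρ, ‖h τ‖ ≤ C * ‖τ‖ ^ a) : ∃ l : ℂ, ∀ τ ∈ ex (2 * ρ),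
      ‖h τ‖ ≤ C * (2 * ρ) ^ a ∧ ‖h τ - l‖ * ‖τ‖ ≤ 4 * ρ * (C * (2 * ρ) ^ a) := by
  have m : ∀ u ∈ ball (0 : ℂ) ρ⁻¹ \ {0}, u⁻¹ ∈ ex ρ := fun u hu => by
    have h0 : 0 < ‖u‖ := norm_pos_iff.2 hu.2
    rw [ex, mem_ofPred_eq, norm_inv, lt_inv_comm₀ hρ h0]
    exact mem_ball_zero_iff.1 hu.1
  have nb : ball (0 : ℂ) ρ⁻¹ ∈ 𝓝 (0 : ℂ) := ball_mem_nhds _ (inv_pos.2 hρ)
  have d := Complex.differentiableOn_update_limUnder_of_isLittleO (f := fun u => h u⁻¹) nb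
    (hd.comp (differentiableOn_inv.mono fun u hu => hu.2) m) (by
      refine Asymptotics.isLittleO_of_tendsto' (eventually_mem_nhdsWithin.mono fun u hu k =>
        absurd (inv_eq_zero.1 k) (sub_ne_zero.2 hu)) ?_
      have t1 : Tendsto (fun u : ℂ => C * ‖u‖ ^ (1 - a) + ‖h 0⁻¹‖ * ‖u‖) (𝓝 0) (𝓝 0) := by
        have : Continuous fun u : ℂ => C * ‖u‖ ^ (1 - a) + ‖h 0⁻¹‖ * ‖u‖ :=
          (continuous_const.mul (continuous_norm.rpow_const fun _ => .inr (by linarith))).add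
            (continuous_const.mul continuous_norm)
        simpa [Real.zero_rpow (sub_pos.2 ha).ne'] using this.tendsto 0
      refine squeeze_zero_norm' ?_ (t1.mono_left nhdsWithin_le_nhds)
      filter_upwards [mem_nhdsWithin_of_mem_nhds nb, self_mem_nhdsWithin] with u h1 h2
      have h0 : 0 < ‖u‖ := norm_pos_iff.2 h2
      have h3 := hb _ (m u ⟨h1, h2⟩)
      rw [sub_zero, div_inv_eq_mul, norm_mul, Real.rpow_sub h0, Real.rpow_one]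
      rw [norm_inv, Real.inv_rpow h0.le] at h3
      calc _ ≤ (C * (‖u‖ ^ a)⁻¹ + ‖h 0⁻¹‖) * ‖u‖ := by
            gcongr
            exact (norm_sub_le _ _).trans (by gcongr)
        _ = _ := by ring)
  set G := Function.update (fun u : ℂ => h u⁻¹) 0 (limUnder (𝓝[≠] 0) fun u : ℂ => h u⁻¹)
  have r0 : 0 < (2 * ρ)⁻¹ := by positivity
  have s : closedBall (0 : ℂ) (2 * ρ)⁻¹ ⊆ ball 0 ρ⁻¹ :=
    closedBall_subset_ball (inv_strictAnti₀ hρ (by linarith))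
  have e : ∀ u, u ≠ 0 → G u = h u⁻¹ := fun u hu => Function.update_of_ne hu _ _
  have b : ∀ u ∈ ball (0 : ℂ) (2 * ρ)⁻¹, ‖G u‖ ≤ C * (2 * ρ) ^ a := fun u hu =>
    Complex.norm_le_of_forall_mem_frontier_norm_le isBounded_ball
      (d.mono (closure_ball_subset_closedBall.trans s)).diffContOnCl (fun z hz => by
        rw [frontier_ball _ r0.ne'] at hz
        have h1 := mem_sphere_zero_iff_norm.1 hz
        have h2 : z ≠ 0 := norm_pos_iff.1 (h1 ▸ r0)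
        have h3 := hb _ (m z ⟨s (sphere_subset_closedBall hz), h2⟩)
        rwa [norm_inv, h1, inv_inv, ← e z h2] at h3) (subset_closure hu)
  refine ⟨G 0, fun τ hτ => ?_⟩
  have h1 : 2 * ρ < ‖τ‖ := hτ
  have h0 : 0 < ‖τ‖ := by linarith
  have h2 : τ⁻¹ ∈ ball (0 : ℂ) (2 * ρ)⁻¹ := by
    rw [mem_ball_zero_iff, norm_inv]
    exact inv_strictAnti₀ (by linarith) h1
  have h3 : G τ⁻¹ = h τ := by rw [e _ (inv_ne_zero (norm_pos_iff.1 h0)), inv_inv]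
  have h4 := Complex.dist_le_div_mul_dist_of_mapsTo_ball (R₂ := 2 * (C * (2 * ρ) ^ a))
    (d.mono (ball_subset_closedBall.trans s)) (fun u hu => mem_closedBall_iff_norm.2
      ((norm_sub_le _ _).trans (by linarith [b u hu, b 0 (mem_ball_self r0)]))) h2
  rw [h3, dist_eq_norm, dist_zero_right, norm_inv, ← div_eq_mul_inv, le_div_iff₀ h0] at h4
  exact ⟨h3 ▸ b _ h2, h4.trans_eq (by rw [div_inv_eq_mul]; ring)⟩

theorem mv_le {n : ℕ} {A : Mx n} {b : ℝ} (hb : 0 ≤ b) (h : ∀ i j, ‖A i j‖ ≤ b) (v : Cm n) :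
    ‖A *ᵥ v‖ ≤ n * b * ‖v‖ := (pi_norm_le_iff_of_nonneg (by positivity)).2 fun i => by
  have : ∑ j, ‖A i j * v j‖ ≤ ∑ _j : Fin n, b * ‖v‖ := Finset.sum_le_sum fun j _ =>
    (norm_mul_le _ _).trans (mul_le_mul (h i j) (norm_le_pi_norm v j) (norm_nonneg _) hb)
  exact (norm_sum_le _ _).trans (this.trans_eq (by simp [mul_assoc]))

theorem mat (n : ℕ) (D : ℂ → Mx n) (ρ C a : ℝ) (hρ : 0 < ρ) (ha : a < 1)
    (h : ∀ i j, DifferentiableOn ℂ (fun τ => D τ i j) (ex ρ) ∧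
      ∀ τ ∈ ex ρ, ‖D τ i j‖ ≤ C * ‖τ‖ ^ a)
    (hα : ∀ α : Cm n, α ≠ 0 → ¬∃ C' ρ' : ℝ, ∀ τ ∈ ex ρ', ‖α ᵥ* D τ‖ * ‖τ‖ ≤ C') :
    ∃ c ρ' : ℝ, 0 < c ∧ ∀ τ ∈ ex ρ', ∀ v, c * ‖v‖ ≤ ‖D τ *ᵥ v‖ ∧ c * ‖D τ *ᵥ v‖ ≤ ‖v‖ := by
  choose l hl using fun i j => one _ ρ C a hρ ha (h i j).1 (h i j).2
  set B := |C * (2 * ρ) ^ a|
  have B0 : 0 ≤ B := abs_nonneg _
  have p : ∀ τ ∈ ex (2 * ρ), 0 < ‖τ‖ := fun τ hτ => lt_trans (by positivity) hτ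
  have k : ∀ τ ∈ ex (2 * ρ), ∀ i j, ‖(D τ - Matrix.of l) i j‖ ≤ 4 * ρ * B / ‖τ‖ :=
    fun τ hτ i j =>
      (le_div_iff₀ (p τ hτ)).2 ((hl i j τ hτ).2.trans (by gcongr; exact le_abs_self _))
  have k0 : ∀ τ ∈ ex (2 * ρ), 0 ≤ 4 * ρ * B / ‖τ‖ := fun τ _ => by positivity
  have dt : (Matrix.of l).det ≠ 0 := fun z => by
    obtain ⟨α, h0, h1⟩ := Matrix.exists_vecMul_eq_zero_iff.2 z
    refine hα α h0 ⟨n * (4 * ρ * B) * ‖α‖, 2 * ρ, fun τ hτ => ?_⟩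
    have := mv_le (A := (D τ - Matrix.of l)ᵀ) (k0 τ hτ) (fun i j => k τ hτ j i) α
    rw [Matrix.mulVec_transpose, Matrix.vecMul_sub, h1, sub_zero] at this
    rw [← le_div_iff₀ (p τ hτ)]
    exact this.trans_eq (by ring)
  obtain ⟨b, b0, hb⟩ : ∃ b : ℝ, 0 ≤ b ∧ ∀ i j, ‖(Matrix.of l)⁻¹ i j‖ ≤ b :=
    ⟨‖fun i j => (Matrix.of l)⁻¹ i j‖, norm_nonneg _, fun i j =>
      (norm_le_pi_norm _ j).trans (norm_le_pi_norm (fun i j => (Matrix.of l)⁻¹ i j) i)⟩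
  have E0 : 0 < 1 + 2 * (n * b) + n * B := by positivity
  refine ⟨(1 + 2 * (n * b) + n * B)⁻¹, max (2 * ρ) (2 * (n * b) * (n * (4 * ρ * B))),
    inv_pos.2 E0, fun τ hτ v => ?_⟩
  obtain ⟨h1, h2⟩ := max_lt_iff.1 (show _ < ‖τ‖ from hτ)
  have a1 := mv_le b0 hb (Matrix.of l *ᵥ v)
  rw [Matrix.mulVec_mulVec, Matrix.nonsing_inv_mul _ (Ne.isUnit dt), Matrix.one_mulVec] at a1
  have a2 := mv_le (k0 τ h1) (k τ h1) v
  rw [Matrix.sub_mulVec] at a2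
  have a3 : ‖Matrix.of l *ᵥ v‖ ≤ ‖D τ *ᵥ v‖ + n * (4 * ρ * B / ‖τ‖) * ‖v‖ := by
    linarith [norm_sub_norm_le (Matrix.of l *ᵥ v) (D τ *ᵥ v),
      norm_sub_rev (Matrix.of l *ᵥ v) (D τ *ᵥ v)]
  have a4 : n * b * (n * (4 * ρ * B / ‖τ‖)) ≤ 1 / 2 := by
    rw [show n * b * (n * (4 * ρ * B / ‖τ‖)) = n * b * (n * (4 * ρ * B)) / ‖τ‖ by ring,
      div_le_iff₀ (p τ h1)]
    linarith
  have a5 := mv_le B0 (fun i j => (hl i j τ h1).1.trans (le_abs_self _)) v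
  have a6 := mul_le_mul_of_nonneg_left a3 (by positivity : 0 ≤ n * b)
  have a7 := mul_le_mul_of_nonneg_right a4 (norm_nonneg v)
  have a8 : 0 ≤ n * B * ‖D τ *ᵥ v‖ := by positivity
  have a9 : 0 ≤ n * b * ‖v‖ := by positivity
  rw [inv_mul_le_iff₀ E0, inv_mul_le_iff₀ E0]
  constructor <;> nlinarith [norm_nonneg v, norm_nonneg (D τ *ᵥ v)]

theorem ev_le {q : Polynomial ℂ} {N : ℕ} (h : q.natDegree ≤ N) (τ : ℂ) :
    ‖q.eval τ‖ ≤ (∑ i ∈ Finset.range (N + 1), ‖q.coeff i‖) * (1 + ‖τ‖) ^ N := by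
  rw [Polynomial.eval_eq_sum_range' (Nat.lt_succ_of_le h), Finset.sum_mul]
  refine (norm_sum_le _ _).trans (Finset.sum_le_sum fun i hi => ?_)
  rw [norm_mul, norm_pow]
  gcongr
  exact (pow_le_pow_left₀ (norm_nonneg _) (by linarith) i).trans
    (pow_le_pow_right₀ (by linarith [norm_nonneg τ]) (Nat.lt_succ_iff.1 (Finset.mem_range.1 hi)))

theorem lag (N : ℕ) : ∃ C : ℝ, 0 ≤ C ∧ ∀ h : ℂ → ℂ, Differentiable ℂ h →
    (∃ C' : ℝ, ∀ τ, ‖h τ‖ ≤ C' * (1 + ‖τ‖) ^ N) →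
    ∀ τ, ‖h τ‖ ≤ C * (1 + ‖τ‖) ^ N * ∑ l ∈ Finset.range (N + 1), ‖h l‖ := by
  have inj : InjOn (fun l : ℕ => (l : ℂ)) (Finset.range (N + 1)) := Nat.cast_injective.injOn
  set c : ℕ → ℝ := fun l => ∑ i ∈ Finset.range (N + 1),
    ‖(Lagrange.basis (Finset.range (N + 1)) (fun l : ℕ => (l : ℂ)) l).coeff i‖
  have c0 : ∀ l, 0 ≤ c l := fun l => Finset.sum_nonneg fun _ _ => norm_nonneg _
  refine ⟨∑ l ∈ Finset.range (N + 1), c l, Finset.sum_nonneg fun l _ => c0 l,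
    fun h hd ⟨C', hb⟩ τ => ?_⟩
  obtain ⟨p, h1, h2⟩ := P253Z.T2.Liou.one N h C' hd hb
  have e := Lagrange.eq_interpolate (f := p) inj (by
    rw [Finset.card_range]
    exact Polynomial.degree_le_natDegree.trans_lt (by exact_mod_cast Nat.lt_succ_of_le h1))
  rw [h2 τ, e, Lagrange.interpolate_apply, Polynomial.eval_finsetSum, Finset.mul_sum]
  refine (norm_sum_le _ _).trans (Finset.sum_le_sum fun l hl => ?_)
  rw [Polynomial.eval_mul, Polynomial.eval_C, ← h2, norm_mul, mul_comm]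
  gcongr
  refine (ev_le (N := N) (by rw [Lagrange.natDegree_basis inj hl]; simp) τ).trans ?_
  exact mul_le_mul_of_nonneg_right (Finset.single_le_sum (fun l _ => c0 l) hl) (by positivity)

end Bdd

theorem bdd : BDD := ⟨Bdd.one, Bdd.mat, Bdd.lag⟩

end Vale.Agent.P253W.D
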