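import Vale.Agent.P253W.D.Spec

/-!
# P253W, row D.BND: tame functions in the charts
-/

open scoped Manifold ContDiff Bundle ENNReal Topology Matrix ComplexOrder
open Bundle IsManifold MeasureTheory Set Metric Filter Vale.Agent.P253.Mfd Vale.Agent.P253Z
open Vale.Agent.P272.K (Cm)
open Vale.Agent.P253W.C (jo)

noncomputable section

namespace Vale.Agent.P253W.D

namespace BndP

theorem absorb (K : ℝ) : ∃ C : ℝ, 0 ≤ C ∧ ∀ U : ℝ, 1 ≤ U → K ≤ Real.exp (C * U) :=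
  ⟨|K|, abs_nonneg K, fun U hU => by
    have h1 := Real.add_one_le_exp (|K| * U)
    nlinarith [le_abs_self K, abs_nonneg K]⟩

/-- a root of a homogeneous relation along a line -/
theorem one (jb : C.JB) {ι : Type} [Fintype ι] {d D : ℕ} {B : Fin (d + 1) → MvPolynomial ι ℂ}
    (hB : ∀ l, (B l).IsHomogeneous D) : ∃ K : ℝ, 0 ≤ K ∧ ∀ (G : ℂ → ι → ℂ) (a : ℂ → ℂ) (E : ℝ),
      0 ≤ E → DifferentiableOn ℂ G (ball 0 (9 / 2)) →
      (∀ τ ∈ ball (0 : ℂ) (9 / 2), (∀ i, ‖G τ i‖ ≤ Real.exp E) ∧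
        ∑ l, MvPolynomial.eval (G τ) (B l) * a τ ^ (l : ℕ) = 0) →
      Real.exp (-E) ≤ ‖MvPolynomial.eval (G 0) (B (Fin.last d))‖ →
      ContinuousOn (fun τ => Real.log (max ‖a τ‖ 1)) (ball 0 (9 / 2)) →
      (∀ (c : ℂ) (r : ℝ), 0 < r → closedBall c r ⊆ ball 0 (9 / 2) → Real.log (max ‖a c‖ 1) ≤
        Real.circleAverage (fun τ => Real.log (max ‖a τ‖ 1)) c r) →
      ‖a 1‖ ≤ Real.exp (40 * (K + D * E + E)) := by
  choose C h0 hC using fun l => (jb.hom ι (B l) D (hB l)).2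
  obtain ⟨K, k0, hK⟩ := absorb ((d + 1) * ∑ l, C l)
  replace hK := hK 1 le_rfl
  rw [mul_one] at hK
  have s0 : 0 ≤ ∑ l, C l := Finset.sum_nonneg fun l _ => h0 l
  refine ⟨K, k0, fun G a E hE hG h1 h2 h3 h4 => ?_⟩
  have hD : 0 ≤ D * E := by positivity
  have h5 : ∀ τ ∈ ball (0 : ℂ) (9 / 2), ∀ l,
      ‖MvPolynomial.eval (G τ) (B l)‖ ≤ (∑ l, C l) * Real.exp E ^ D := fun τ hτ l =>
    (hC l _ _ (Real.exp_pos E).le (h1 τ hτ).1).trans (mul_le_mul_of_nonneg_right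
      (Finset.single_le_sum (fun l _ => h0 l) (Finset.mem_univ l)) (by positivity))
  have h6 : (d + 1) * ((∑ l, C l) * Real.exp E ^ D) ≤ Real.exp (K + D * E + E) := by
    rw [← mul_assoc, ← Real.exp_nat_mul]
    refine (mul_le_mul_of_nonneg_right hK (Real.exp_pos _).le).trans ?_
    rw [← Real.exp_add]
    exact Real.exp_le_exp.2 (by linarith)
  have h7 : ∀ τ ∈ ball (0 : ℂ) (9 / 2),
      ‖MvPolynomial.eval (G τ) (B (Fin.last d))‖ ≤ Real.exp (K + D * E + E) := fun τ hτ =>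
    (h5 τ hτ _).trans (le_trans (le_mul_of_one_le_left (by positivity)
      (by linarith [(Nat.cast_nonneg d : (0 : ℝ) ≤ d)])) h6)
  have h8 := jb.jen _ (fun τ => MvPolynomial.eval (G τ) (B (Fin.last d))) (9 / 2) (K + D * E + E) 1
    (by norm_num) (by positivity) zero_le_one h3 h4
    ((AnalyticOnNhd.eval_mvPolynomial (B (Fin.last d))).differentiableOn.comp hG (mapsTo_univ _ _))
    h7 ((Real.exp_le_exp.2 (by linarith)).trans h2) (fun τ hτ hq => by
      have q0 := norm_pos_iff.2 hq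
      rw [one_mul, le_sub_iff_add_le, ← Real.log_mul (by positivity) q0.ne',
        Real.log_le_iff_le_exp (by positivity), max_mul_of_nonneg _ _ q0.le, one_mul]
      exact max_le ((jb.root d _ _ _ (h1 τ hτ).2 (h5 τ hτ)).trans h6) (h7 τ hτ))
    1 (by rw [mem_ball_zero_iff, norm_one]; norm_num)
  rw [Real.log_le_iff_le_exp (by positivity)] at h8
  exact ((le_max_left _ _).trans h8).trans_eq (by norm_num)

variable {n : ℕ}

theorem sq_le (v : Cm n) : ‖v‖ ^ 2 ≤ ∑ i, ‖v i‖ ^ 2 := by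
  have h0 : 0 ≤ ∑ i, ‖v i‖ ^ 2 := Finset.sum_nonneg fun i _ => by positivity
  rw [← Real.le_sqrt (norm_nonneg v) h0, pi_norm_le_iff_of_nonneg (Real.sqrt_nonneg _)]
  exact fun i => Real.le_sqrt_of_sq_le (Finset.single_le_sum (f := fun i => ‖v i‖ ^ 2)
    (fun i _ => by positivity) (Finset.mem_univ i))

theorem le_sq (v : Cm n) : ∑ i, ‖v i‖ ^ 2 ≤ (n + 1) * ‖v‖ ^ 2 := by
  have h := Finset.sum_le_sum (s := Finset.univ) fun i _ =>
    pow_le_pow_left₀ (norm_nonneg (v i)) (norm_le_pi_norm v i) 2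
  rw [Finset.sum_const, Finset.card_univ, Fintype.card_fin, nsmul_eq_mul] at h
  nlinarith [sq_nonneg ‖v‖]

variable {M : Type} [MetricSpace M] [ChartedSpace (Cm n) M]
  [RiemannianBundle fun x : M => TangentSpace 𝓘(ℝ, Cm n) x] [MeasurableSpace M]
  {μ : Measure M} {F : Flow n M} {T : F.TA μ} {p : M} {Ψ : ℕ → Cm n → M} {l L r : ℝ}

theorem tk_nonneg (k : ℕ) : 0 ≤ tk k := by unfold tk; positivity

/-- the size of the Jacobian -/
theorem jo_bd (t : Tools T) (h : Ch F μ p Ψ l L r) (k : ℕ) {y : Cm n} (hy : y ∈ ball 0 1) :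
    Real.exp (F.u (tk k) (Ψ k y)) * (l / (n + 1)) ^ n ≤ ‖jo F (Ψ k) y‖ ^ 2 ∧
      ‖jo F (Ψ k) y‖ ^ 2 ≤ Real.exp (F.u (tk k) (Ψ k y)) * L ^ n := by
  obtain ⟨h1, h2⟩ := (t.pul _ _ isOpen_ball (h.hol k)).2 _ (tk_nonneg k) y
  have l0 := h.l_pos
  have h3 := t.eig.low _ (l / (n + 1)) h1 (by positivity) fun v => by
    refine le_trans ?_ ((h.met k y hy v).1.trans_eq (F.qf_pull _ _ _ _).symm)
    rw [div_mul_eq_mul_div, div_le_iff₀ (by positivity), mul_assoc, mul_comm (‖v‖ ^ 2)]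
    exact mul_le_mul_of_nonneg_left (le_sq v) l0.le
  have h4 := t.eig.up _ L h3.1 fun v => ((F.qf_pull _ _ _ _).trans_le (h.met k y hy v).2).trans
    (mul_le_mul_of_nonneg_left (sq_le v) (l0.le.trans h.l_le))
  rw [h2]
  exact ⟨mul_le_mul_of_nonneg_left h3.2 (Real.exp_pos _).le,
    mul_le_mul_of_nonneg_left h4 (Real.exp_pos _).le⟩

theorem jo_ne (t : Tools T) (h : Ch F μ p Ψ l L r) (k : ℕ) {y : Cm n} (hy : y ∈ ball 0 1) :
    jo F (Ψ k) y ≠ 0 := fun h0 => by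
  have h1 := (jo_bd t h k hy).1
  have l0 := h.l_pos
  rw [h0, norm_zero, zero_pow two_ne_zero] at h1
  exact absurd h1 (not_le.2 (by positivity))

theorem q_hol (t : Tools T) (h : Ch F μ p Ψ l L r) (k m : ℕ) {g : M → ℂ} (hg : g ∈ T.A) :
    DifferentiableOn ℂ (fun y => (jo F (Ψ k) y ^ m)⁻¹ * g (Ψ k y)) (ball 0 1) :=
  (((t.pul _ _ isOpen_ball (h.hol k)).1.pow m).inv fun _ hy => pow_ne_zero m (jo_ne t h k hy)).mul
    (t.map.holn g _ _ (t.zc.sec g hg).1 (h.hol k))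

/-- the lower bound at the base points of the lines -/
theorem jo_up (t : Tools T) (h : Ch F μ p Ψ l L r) (x : M) : ∃ C : ℝ, 0 ≤ C ∧ ∀ k,
    ∀ y ∈ ball (0 : Cm n) 1, Ψ k y = x → ‖jo F (Ψ k) y‖ ≤ Real.exp (C * Uk F p k) := by
  obtain ⟨u1, -, u2⟩ := t.uh p
  obtain ⟨C, c1, hC⟩ := u2 (dist x p + 1)
  obtain ⟨K, k0, hK⟩ := absorb (Real.exp (F.u 0 x - 1) * L ^ n)
  refine ⟨C + K, by linarith, fun k y hy hx => ?_⟩
  have h1 := (jo_bd t h k hy).2
  have h2 := (hC k x (by rw [mem_ball]; linarith)).1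
  have h3 : F.u (tk k) x = Uk F x k + (F.u 0 x - 1) := by unfold Uk; ring
  have h4 := u1 k
  rw [hx, h3, Real.exp_add, mul_assoc] at h1
  refine (pow_le_pow_iff_left₀ (norm_nonneg _) (Real.exp_pos _).le two_ne_zero).1 (h1.trans
    ((mul_le_mul (Real.exp_le_exp.2 h2) (hK _ h4) (mul_nonneg (Real.exp_pos _).le
      (pow_nonneg (h.l_pos.le.trans h.l_le) n)) (Real.exp_pos _).le).trans ?_))
  rw [← Real.exp_add, ← Real.exp_nat_mul]
  refine Real.exp_le_exp.2 ?_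
  push_cast
  nlinarith

variable [BorelSpace M]

/-- the mass of a square integrable function in the charts -/
theorem mass (t : Tools T) (hF : F.Is) (hu : ∀ s, 0 ≤ s → Continuous (F.u s))
    (h : Ch F μ p Ψ l L r) {m : ℕ} {g : M → ℂ} (hg : g ∈ T.A)
    (hI : ∫⁻ x, ENNReal.ofReal (‖g x‖ ^ 2 * Real.exp (-(m * F.u 0 x))) ∂μ < ⊤) :
    ∃ C K : ℝ, 0 ≤ K ∧ ∀ k, ∫⁻ y in ball (0 : Cm n) r,
      ENNReal.ofReal (‖(jo F (Ψ k) y ^ m)⁻¹ * g (Ψ k y)‖ ^ 2) ≤
        ENNReal.ofReal (K * Real.exp (C * Uk F p k)) := by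
  obtain ⟨C, hC⟩ := h.mul
  have l0 := h.l_pos
  have c1 := (t.zc.sec g hg).2.continuous
  have c0 := hu 0 le_rfl
  set I := ∫⁻ x, ENNReal.ofReal (‖g x‖ ^ 2 * Real.exp (-(m * F.u 0 x))) ∂μ with hI'
  set D : ℝ := (((l / (n + 1)) ^ n) ^ m)⁻¹ with hD
  have d0 : 0 ≤ D := by positivity
  refine ⟨C, D * I.toReal, by positivity, fun k => ?_⟩
  have c2 := hu _ (tk_nonneg k)
  have m1 : Measurable fun x => ENNReal.ofReal (‖g x‖ ^ 2 * Real.exp (-(m * F.u 0 x)) *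
      Real.exp (F.u (tk k) x - F.u 0 x)) := ENNReal.measurable_ofReal.comp (by fun_prop)
  have m2 : Measurable fun x => ENNReal.ofReal (Real.exp (F.u 0 x - F.u (tk k) x)) :=
    ENNReal.measurable_ofReal.comp (by fun_prop)
  have h1 := hC k _ m1
  rw [Flow.vol, lintegral_withDensity_eq_lintegral_mul μ m2 m1] at h1
  have h2 : ∫⁻ x, ((fun x => ENNReal.ofReal (Real.exp (F.u 0 x - F.u (tk k) x))) * fun x =>
      ENNReal.ofReal (‖g x‖ ^ 2 * Real.exp (-(m * F.u 0 x)) *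
        Real.exp (F.u (tk k) x - F.u 0 x))) x ∂μ = I := lintegral_congr fun x => by
    rw [Pi.mul_apply, ← ENNReal.ofReal_mul (Real.exp_pos _).le, mul_left_comm, ← Real.exp_add,
      sub_add_sub_cancel, sub_self, Real.exp_zero, mul_one]
  rw [h2] at h1
  rw [mul_assoc, ENNReal.ofReal_mul d0, mul_comm I.toReal, ENNReal.ofReal_mul (Real.exp_pos _).le,
    ENNReal.ofReal_toReal hI.ne]
  refine le_trans ?_ (mul_le_mul_right h1 _)
  rw [← lintegral_const_mul' _ _ ENNReal.ofReal_ne_top]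
  refine setLIntegral_mono' measurableSet_ball fun y hy => ?_
  rw [← ENNReal.ofReal_mul d0]
  refine ENNReal.ofReal_le_ofReal ?_
  have h3 := hF.mono (Ψ k y) (mem_Ici.2 le_rfl) (mem_Ici.2 (tk_nonneg k)) (tk_nonneg k)
  have h4 := pow_le_pow_left₀ (by positivity)
    ((mul_le_mul_of_nonneg_right (Real.exp_le_exp.2 h3) (by positivity)).trans
      (jo_bd t h k (ball_subset_ball h.r_le hy)).1) m
  have h5 := inv_anti₀ (by positivity) h4
  rw [mul_pow, mul_inv, ← hD, ← Real.exp_nat_mul, ← Real.exp_neg, ← pow_mul, mul_comm 2,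
    pow_mul] at h5
  rw [norm_mul, mul_pow, norm_inv, norm_pow, inv_pow]
  refine (mul_le_mul_of_nonneg_right h5 (by positivity)).trans (le_trans (le_of_eq (by ring))
    (mul_le_mul_of_nonneg_left (le_mul_of_one_le_right (by positivity)
      (Real.one_le_exp (sub_nonneg.2 h3))) d0))

/-- the quotients are of exponential size -/
theorem sup (t : Tools T) (hF : F.Is) (hu : ∀ s, 0 ≤ s → Continuous (F.u s))
    (h : Ch F μ p Ψ l L r) {m : ℕ} {g : M → ℂ} (hg : g ∈ T.A)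
    (hI : ∫⁻ x, ENNReal.ofReal (‖g x‖ ^ 2 * Real.exp (-(m * F.u 0 x))) ∂μ < ⊤) :
    ∃ C : ℝ, 0 ≤ C ∧ ∀ k, ∀ y ∈ ball (0 : Cm n) (r / 2),
      ‖(jo F (Ψ k) y ^ m)⁻¹ * g (Ψ k y)‖ ≤ Real.exp (C * Uk F p k) := by
  obtain ⟨C, K, k0, hK⟩ := mass t hF hu h hg hI
  have r0 := h.r_pos
  obtain ⟨K', k1, hK'⟩ := absorb (K / (Real.pi * (r / 2) ^ 2) ^ n)
  refine ⟨|C| + K', by positivity, fun k y hy => ?_⟩
  have s1 : ball y (r / 2) ⊆ ball 0 r := ball_subset_ball' (by linarith [mem_ball.1 hy])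
  have h1 := (t.jb.mv n _ y (r / 2) (by positivity) ((q_hol t h k m hg).mono
    (s1.trans (ball_subset_ball h.r_le)))).trans ((lintegral_mono_set s1).trans (hK k))
  have h4 := (t.uh p).1 k
  rw [ENNReal.ofReal_le_ofReal_iff (by positivity), ← le_div_iff₀ (by positivity),
    mul_div_right_comm] at h1
  refine (pow_le_pow_iff_left₀ (norm_nonneg _) (Real.exp_pos _).le two_ne_zero).1 (h1.trans
    ((mul_le_mul_of_nonneg_right (hK' _ h4) (Real.exp_pos _).le).trans ?_))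
  rw [← Real.exp_add, ← Real.exp_nat_mul]
  refine Real.exp_le_exp.2 ?_
  push_cast
  nlinarith [le_abs_self C, abs_nonneg C]

theorem line {y y₁ : Cm n} (hr : 0 < r) (hy : y ∈ ball (0 : Cm n) (r / 16)) (h1 : ‖y₁‖ ≤ r / 32)
    {τ : ℂ} (hτ : τ ∈ ball (0 : ℂ) (9 / 2)) : y₁ + τ • (y - y₁) ∈ ball (0 : Cm n) (r / 2) := by
  rw [mem_ball_zero_iff] at *
  have h2 := norm_sub_le y y₁
  have h3 := norm_add_le y₁ (τ • (y - y₁))
  rw [norm_smul] at h3
  nlinarith [norm_nonneg τ, norm_nonneg (y - y₁)]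

theorem main (t : Tools T) (hF : F.Is) (hu : ∀ s, 0 ≤ s → Continuous (F.u s)) : BND T := by
  intro p Ψ l L r s h hs a ha
  obtain ⟨m, g, hg⟩ := t.l2h.1
  obtain ⟨d, D, B, hB, ⟨x, hx⟩, hR⟩ := hg.alg a ha
  obtain ⟨K, k0, hK⟩ := one t.jb hB
  choose C c0 hC using fun i => sup t hF hu h (hg.mem i) (hg.l2 i)
  obtain ⟨C₁, c1, hC₁⟩ := jo_up t h x
  obtain ⟨C₂, c2, hC₂⟩ := absorb ‖MvPolynomial.eval (fun i => g i x) (B (Fin.last d))‖⁻¹
  have s0 : 0 ≤ ∑ i, C i := Finset.sum_nonneg fun i _ => c0 i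
  have r0 := h.r_pos
  have r1 := h.r_le
  set E := ∑ i, C i + (m * D * C₁ + C₂) with hE
  have e0 : 0 ≤ m * D * C₁ + C₂ := by positivity
  refine ⟨40 * (K + D * E + E), ?_⟩
  filter_upwards [hs (dist x p + 1) (r / 32) (by positivity)] with k hk y hy
  obtain ⟨h1, h2⟩ := hk.2.2 x (by rw [mem_ball]; linarith)
  have u1 := (t.uh p).1 k
  have m1 := fun τ hτ => line (τ := τ) r0 hy h2 hτ
  have m2 := fun τ hτ => ball_subset_ball (by linarith : r / 2 ≤ 1) (m1 τ hτ)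
  have d1 : Differentiable ℂ fun τ : ℂ => s k x + τ • (y - s k x) := by fun_prop
  have d2 : H1 n (fun τ => Ψ k (s k x + τ • (y - s k x))) (ball 0 (9 / 2)) :=
    (h.hol k).comp d1.mdifferentiable.mdifferentiableOn m2
  have hφ := (t.pcf.tm a ha).1
  have h3 := hK (fun τ i => (jo F (Ψ k) (s k x + τ • (y - s k x)) ^ m)⁻¹ *
      g i (Ψ k (s k x + τ • (y - s k x)))) (fun τ => a (Ψ k (s k x + τ • (y - s k x))))
    (E * Uk F p k) (by positivity)
    (differentiableOn_pi.2 fun i => (q_hol t h k m (hg.mem i)).comp d1.differentiableOn m2)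
    (fun τ hτ => ⟨fun i => (hC i k _ (m1 τ hτ)).trans (Real.exp_le_exp.2
      (mul_le_mul_of_nonneg_right ((Finset.single_le_sum (fun i _ => c0 i)
        (Finset.mem_univ i)).trans (by linarith)) (by linarith))), by
      simp only [(t.jb.hom _ _ D (hB _)).1, mul_assoc]
      rw [← Finset.mul_sum, hR, mul_zero]⟩) ?_
    (hφ.1.comp_continuousOn d2.continuousOn)
    fun c ρ hρ hb => hφ.2 _ c ρ hρ (d2.continuousOn.mono hb)
      (d2.mono (ball_subset_closedBall.trans hb))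
  · rw [one_smul, add_sub_cancel] at h3
    refine h3.trans (Real.exp_le_exp.2 ?_)
    nlinarith
  · have y1 : s k x ∈ ball (0 : Cm n) 1 := by rw [mem_ball_zero_iff]; linarith
    have h4 := pow_le_pow_left₀ (norm_nonneg _) (hC₁ k _ y1 h1) (m * D)
    have h5 := norm_pos_iff.2 (jo_ne t h k y1)
    have h6 := norm_pos_iff.2 hx
    have h7 := mul_le_mul h4 (hC₂ _ u1) (by positivity) (by positivity)
    simp only [zero_smul, add_zero]
    rw [(t.jb.hom _ _ D (hB _)).1, h1, norm_mul, norm_pow, norm_inv, norm_pow, inv_pow, ← pow_mul,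
      Real.exp_neg]
    refine inv_le_of_inv_le₀ (by positivity) ?_
    rw [mul_inv, inv_inv]
    refine h7.trans ?_
    rw [← Real.exp_nat_mul, ← Real.exp_add]
    refine Real.exp_le_exp.2 ?_
    push_cast
    nlinarith

end BndP

variable {n : ℕ} {M : Type} [MetricSpace M] [ChartedSpace (Cm n) M]
  [RiemannianBundle fun x : M => TangentSpace 𝓘(ℝ, Cm n) x] [MeasurableSpace M] [BorelSpace M]
  [IsManifold 𝓘(ℝ, Cm n) ∞ M] [ConnectedSpace M] [NoncompactSpace M]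
  {μ : Measure M} {F : Flow n M} {A : Fam F} {T : F.TA μ}

/-- **BND** -/
theorem bnd (p : P3 A T) (t : Tools T) : BND T :=
  BndP.main t p.is fun s hs => (p.ut s hs).1.1

end Vale.Agent.P253W.D
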