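import Vale.Agent.P253W.D.Spec

/-!
# P253W, row D.CONV: the pull-back of the metric depends continuously on the map
-/

open scoped Manifold ContDiff Bundle ENNReal Topology Matrix ComplexOrder
open Bundle IsManifold MeasureTheory Set Metric Filter Vale.Agent.P253.Mfd Vale.Agent.P253Z
open Vale.Agent.P272.K (Cm jacM Chart)

set_option linter.all false

noncomputable section

namespace Vale.Agent.P253W.D

variable {n : ℕ} {M : Type} [MetricSpace M] [ChartedSpace (Cm n) M]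

namespace Conv

/-- the slices of a holomorphic family -/
theorem sl {E : ℂ → Cm n → M} {D : Set (ℂ × Cm n)} (hD : IsOpen D) (h : HP E D) {σ : ℂ} {y : Cm n}
    (hq : (σ, y) ∈ D) : MDifferentiableAt 𝓘(ℂ, Cm n) 𝓘(ℂ, Cm n) (E σ) y :=
  (h.mdifferentiableAt (hD.mem_nhds hq)).comp y (f := fun w : Cm n => (σ, w))
    (mdifferentiableAt_iff_differentiableAt.2 (by fun_prop))

/-- continuous convergence -/
theorem cc {ι κ X : Type} [TopologicalSpace X] {l : Filter ι} {l' : Filter κ} {G : ι → X → M}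
    {G₀ : X → M} {D : Set X} (hD : IsOpen D) (h : TendstoLocallyUniformlyOn G G₀ l D)
    (h₀ : ContinuousOn G₀ D) {x : X} (hx : x ∈ D) {k : κ → ι} {q : κ → X} (hk : Tendsto k l' l)
    (hq : Tendsto q l' (𝓝 x)) : Tendsto (fun j => G (k j) (q j)) l' (𝓝 (G₀ x)) :=
  TendstoLocallyUniformlyOn.tendsto_comp (F := fun j => G (k j)) (fun u hu y hy =>
    let ⟨t, ht, h⟩ := h u hu y hy
    ⟨t, ht, hk.eventually h⟩) (h₀ x hx) hx (by rwa [hD.nhdsWithin_eq hx])

theorem der {g : Cm n → Cm n} {y : Cm n} (h : DifferentiableAt ℂ g y) (v : Cm n) :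
    deriv (fun s : ℂ => g (y + s • v)) 0 = fderiv ℂ g y v := by
  have h1 : HasDerivAt (fun s : ℂ => y + s • v) v 0 := by
    simpa using ((hasDerivAt_id (0 : ℂ)).smul_const v).const_add y
  exact (h.hasFDerivAt.comp_hasDerivAt_of_eq 0 h1 (by simp)).deriv

/-- the differentials in a chart converge -/
theorem dif (df : DF n M) {ι : Type} {l : Filter ι} {E : ι → ℂ → Cm n → M} {E₀ : ℂ → Cm n → M}
    {D : Set (ℂ × Cm n)} {q : ι → ℂ × Cm n} {q₀ : ℂ × Cm n} (hD : IsOpen D)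
    (hE : ∀ᶠ k in l, HP (E k) D) (h₀ : HP E₀ D)
    (h : TendstoLocallyUniformlyOn (fun k (q : ℂ × Cm n) => E k q.1 q.2) (fun q => E₀ q.1 q.2) l D)
    (hq₀ : q₀ ∈ D) (hq : Tendsto q l (𝓝 q₀)) {e : Chart n M} (he : Hc e)
    (hx : E₀ q₀.1 q₀.2 ∈ e.source) (v : Cm n) :
    Tendsto (fun k => fderiv ℂ (fun w => e (E k (q k).1 w)) (q k).2 v) l
      (𝓝 (fderiv ℂ (fun w => e (E₀ q₀.1 w)) q₀.2 v)) := by
  have t1 : ∀ s : ℂ, Tendsto (fun j : ι × ℂ => ((q j.1).1, (q j.1).2 + j.2 • v)) (l ×ˢ 𝓝 s)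
      (𝓝 (q₀.1, q₀.2 + s • v)) := fun s =>
    ((continuous_fst.tendsto q₀).comp (hq.comp tendsto_fst)).prodMk_nhds
      (((continuous_snd.tendsto q₀).comp (hq.comp tendsto_fst)).add (tendsto_snd.smul_const v))
  have t2 : ∀ s : ℂ, (q₀.1, q₀.2 + s • v) ∈ D → Tendsto (fun j : ι × ℂ =>
      E j.1 (q j.1).1 ((q j.1).2 + j.2 • v)) (l ×ˢ 𝓝 s) (𝓝 (E₀ q₀.1 (q₀.2 + s • v))) :=
    fun s hs => cc hD h h₀.continuousOn hs tendsto_fst (t1 s)
  have c1 : Continuous fun s : ℂ => (q₀.1, q₀.2 + s • v) := by fun_prop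
  have c2 : ∀ s : ℂ, (q₀.1, q₀.2 + s • v) ∈ D →
      ContinuousAt (fun s : ℂ => E₀ q₀.1 (q₀.2 + s • v)) s := fun s hs =>
    (h₀.continuousOn.continuousAt (hD.mem_nhds hs)).comp (f := fun s : ℂ => (q₀.1, q₀.2 + s • v))
      c1.continuousAt
  have m0 : (q₀.1, q₀.2 + (0 : ℂ) • v) ∈ D := by simpa using hq₀
  have m1 : e.source ∈ 𝓝 (E₀ q₀.1 (q₀.2 + (0 : ℂ) • v)) := e.open_source.mem_nhds (by simpa using hx)
  obtain ⟨pa, ha, pb, hb, hab⟩ := eventually_prod_iff.1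
    (((t1 0).eventually (hD.mem_nhds m0)).and ((t2 0 m0).eventually m1))
  obtain ⟨U, hU, oU, U0⟩ := _root_.eventually_nhds_iff.1 (hb.and
    ((c1.continuousAt.eventually (hD.mem_nhds m0)).and ((c2 0 m0).eventually m1)))
  have d1 : ∀ᶠ k in l, ∀ s ∈ U, DifferentiableAt ℂ (fun w => e (E k (q k).1 w)) ((q k).2 + s • v) := by
    filter_upwards [hE, ha] with k h1 h2 s hs
    obtain ⟨a, b⟩ := hab h2 (hU s hs).1
    exact (df.ch _ _ e (sl hD h1 a) he b).1
  have u : TendstoLocallyUniformlyOn (fun k (s : ℂ) => e (E k (q k).1 ((q k).2 + s • v)))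
      (fun s => e (E₀ q₀.1 (q₀.2 + s • v))) l U := by
    refine tendstoLocallyUniformlyOn_iff_forall_tendsto.2 fun s hs => ?_
    obtain ⟨-, a, b⟩ := hU s hs
    rw [oU.nhdsWithin_eq hs]
    have c := (e.continuousAt b).tendsto
    exact (((c.comp (c2 s a).tendsto).comp tendsto_snd).prodMk_nhds (c.comp (t2 s a))).mono_right
      (nhds_le_uniformity _)
  have u' := (u.deriv (d1.mono fun k hk s hs => (DifferentiableAt.comp s
    (f := fun s : ℂ => (q k).2 + s • v) (hk s hs) (by fun_prop)).differentiableWithinAt)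
      oU).tendsto_at U0
  rw [der (df.ch _ _ e (sl hD h₀ hq₀) he hx).1] at u'
  refine u'.congr' (d1.mono fun k hk => der ?_ v)
  simpa using hk 0 U0

end Conv

variable [IsManifold 𝓘(ℂ, Cm n) 1 M] [IsManifold 𝓘(ℝ, Cm n) ∞ M]
  [RiemannianBundle fun x : M => TangentSpace 𝓘(ℝ, Cm n) x] [ConnectedSpace M] [NoncompactSpace M]
  [MeasurableSpace M] {μ : Measure M} {F : Flow n M} {A : Fam F} {T : F.TA μ}

open Conv in
theorem conv' (b : F.Bas1) (df : DF n M) (mt : MT F) : CONV F := by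
  intro t ht ι l E E₀ D q q₀ hD hE h₀ h hq₀ hq
  have he : Hc (pc n (E₀ q₀.1 q₀.2)) := chart_mem_maximalAtlas _
  have hx := mem_chart_source (Cm n) (E₀ q₀.1 q₀.2)
  set e := pc n (E₀ q₀.1 q₀.2)
  have t1 : Tendsto (fun k => E k (q k).1 (q k).2) l (𝓝 (E₀ q₀.1 q₀.2)) :=
    cc hD h h₀.continuousOn hq₀ tendsto_id hq
  have t2 : Tendsto (fun k => F.g t e (e (E k (q k).1 (q k).2))) l
      (𝓝 (F.g t e (e (E₀ q₀.1 q₀.2)))) := tendsto_pi_nhds.2 fun i => tendsto_pi_nhds.2 fun j =>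
    (b.g_at t ht e he _ (e.map_source hx) i j).continuousAt.tendsto.comp
      ((e.continuousAt hx).tendsto.comp t1)
  have t3 : Tendsto (fun k => mx (fderiv ℂ (fun w => e (E k (q k).1 w)) (q k).2)) l
      (𝓝 (mx (fderiv ℂ (fun w => e (E₀ q₀.1 w)) q₀.2))) :=
    tendsto_pi_nhds.2 fun i => tendsto_pi_nhds.2 fun j => by
      simp only [mx, LinearMap.toMatrix'_apply]
      exact tendsto_pi_nhds.1 (dif df hD hE h₀ h hq₀ hq he hx _) i
  have c : Continuous fun p : Mx n × Mx n => pb p.1 p.2 :=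
    (continuous_fst.matrix_transpose.matrix_mul continuous_snd).matrix_mul
      (continuous_fst.matrix_map Complex.continuous_conj)
  rw [(mt.ch t ht _ _ e (sl hD h₀ hq₀) he hx).1]
  refine ((c.tendsto _).comp (t3.prodMk_nhds t2)).congr' ?_
  filter_upwards [hE, hq.eventually (hD.mem_nhds hq₀), t1.eventually (e.open_source.mem_nhds hx)]
    with k a1 a2 a3
  exact (mt.ch t ht _ _ e (sl hD a1 a2) he a3).1.symm

/-- **CONV** -/
theorem conv (p : P3 A T) (df : DF n M) (mt : MT F) : CONV F := conv' p.b1 df mt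

end Vale.Agent.P253W.D
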