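import Vale.Agent.P253W.D.Spec

/-!
# P253W, row D.CPT: discs on which `z` is bounded stay in a compact set
-/

open scoped Manifold ContDiff Bundle Topology
open Bundle IsManifold MeasureTheory Set Metric Filter Vale.Agent.P253.Mfd Vale.Agent.P253Z
open Vale.Agent.P272.K (Cm)

noncomputable section

namespace Vale.Agent.P253W.D

variable {n : ℕ} {M : Type} [MetricSpace M] [ChartedSpace (Cm n) M]
  [RiemannianBundle fun x : M => TangentSpace 𝓘(ℝ, Cm n) x] [MeasurableSpace M] {μ : Measure M}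
  {F : Flow n M} {T : F.TA μ}

/-- tame functions are bounded on such discs -/
theorem cpt_bound (z : ZC T) (jb : C.JB) (m : C.MAP n M) {φ : M → ℝ} (hφ : F.Tm T.ga φ)
    {K : Set M} (hK : IsCompact K) (hQ : ∀ x ∈ K, Qz T x ≠ 0) {R : ℝ} (hR : 0 < R) (C : ℝ) :
    ∃ B : ℝ, ∀ f : ℂ → M, H1 n f (ball 0 R) → f 0 ∈ K →
      (∀ τ ∈ ball (0 : ℂ) R, ‖zv T.z (f τ)‖ ≤ C) → ∀ τ ∈ ball (0 : ℂ) (R / 4), φ (f τ) ≤ B := by
  obtain ⟨C₀, N, N', hN, hN', h⟩ := T.log φ hφ
  obtain ⟨s1, s2⟩ := z.sec _ (z.mem T.Q)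
  obtain ⟨B, hB⟩ := (isCompact_closedBall (0 : Cm n) C).exists_bound_of_continuousOn
    (MvPolynomial.continuous_eval T.Q).continuousOn
  obtain ⟨D, hD⟩ := hK.exists_bound_of_continuousOn (s2.continuous.continuousOn.inv₀ hQ)
  obtain ⟨L, l0, l1, l2, l3⟩ := ((eventually_ge_atTop (0 : ℝ)).and ((eventually_ge_atTop B).and
    ((eventually_ge_atTop D).and (eventually_ge_atTop (C₀ + N * Real.log (1 + C)))))).exists
  have l4 : L ≤ Real.exp L := by linarith [Real.add_one_le_exp L]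
  refine ⟨_, fun f hf h0 hC => jb.jen (fun τ => φ (f τ)) (fun τ => Qz T (f τ)) R L N' hR l0 hN'
    (hφ.1.1.comp_continuousOn hf.continuousOn)
    (fun c r hr s => hφ.1.2 f c r hr (hf.continuousOn.mono s)
      (hf.mono (ball_subset_closedBall.trans s)))
    (m.hol _ f _ s1 hf) (fun τ hτ => (hB _ (mem_closedBall_zero_iff.2 (hC τ hτ))).trans (l1.trans l4))
    ?_ fun τ hτ q => (h _ q).trans (sub_le_sub_right (le_trans ?_ l3) _)⟩
  · rw [Real.exp_neg]
    exact inv_le_of_inv_le₀ (norm_pos_iff.2 (hQ _ h0))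
      ((norm_inv _).ge.trans ((hD _ h0).trans (l2.trans l4)))
  · have := hC τ hτ
    gcongr
    exact this

variable [IsManifold 𝓘(ℝ, Cm n) ∞ M] [ConnectedSpace M] [NoncompactSpace M] [ProperSpace M]
  {A : Fam F}

/-- **CPT** -/
theorem cpt (p : P3 A T) (z : ZC T) (jb : C.JB) (m : C.MAP n M) : CPT T := by
  intro K hK hQ R C hR
  by_contra hc
  push Not at hc
  choose f hf h0 hC τ hτ hn using fun k : ℕ => hc (closedBall F.o k) (isCompact_closedBall _ _)
  choose B hB using fun i => cpt_bound z jb m (T.tdz _ (T.z_mem i)) hK hQ hR C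
  obtain ⟨x, hx, s, hs, lx⟩ := hK.tendsto_subseq h0
  have s4 : ball (0 : ℂ) (R / 4) ⊆ ball 0 R := ball_subset_ball (by linarith)
  obtain ⟨s', g, hs', lg⟩ := p.kpw (fun k => f (s k)) x T.z (R / 4) (max C (∑ i, Real.exp (B i)))
    (by positivity) (fun k => (hf _).mono s4) lx (fun i => (z.sec _ (T.z_mem i)).1)
    (T.z_et x (hQ x hx)) fun k i σ hσ =>
      ⟨((norm_le_pi_norm (zv T.z _) i).trans (hC _ σ (s4 hσ))).trans (le_max_left _ _),
       (((le_max_left _ 1).trans ((Real.log_le_iff_le_exp (by positivity)).1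
        (hB i _ (hf _) (h0 _) (hC _) σ hσ))).trans (Finset.single_le_sum
          (f := fun i => Real.exp (B i)) (fun _ _ => (Real.exp_pos _).le)
          (Finset.mem_univ i))).trans (le_max_right _ _)⟩
  have s8 : closedBall (0 : ℂ) (R / 8) ⊆ ball 0 (R / 4) := closedBall_subset_ball (by linarith)
  have gc := lg.continuousOn (.of_forall fun k => ((hf _).mono s4).continuousOn)
  obtain ⟨D, hD⟩ := ((isCompact_closedBall _ _).image_of_continuousOn
    (gc.mono s8)).isBounded.subset_closedBall F.o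
  have lu := Metric.tendstoUniformlyOn_iff.1 ((tendstoLocallyUniformlyOn_iff_forall_isCompact
    isOpen_ball).1 lg _ s8 (isCompact_closedBall _ _)) 1 one_pos
  obtain ⟨k, k1, k2⟩ := (lu.and (tendsto_natCast_atTop_atTop.eventually_ge_atTop (D + 1))).exists
  have a1 := k1 _ (ball_subset_closedBall (hτ (s (s' k))))
  have a2 := mem_closedBall.1 (hD ⟨_, ball_subset_closedBall (hτ (s (s' k))), rfl⟩)
  have a3 : (k : ℝ) ≤ s (s' k) := Nat.cast_le.2 ((hs.comp hs').id_le k)
  refine hn (s (s' k)) (mem_closedBall.2 ((dist_triangle_left _ _ (g (τ (s (s' k))))).trans ?_))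
  linarith

end Vale.Agent.P253W.D
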