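import Vale.Agent.P253W.D.Pure
import Vale.Agent.P253Y.H2.Ent

/-!
# P253W, row D.DEP: algebraic dependence (helper1)
-/

open scoped Topology
open Set Metric Filter Vale.Agent.P253Z
open Vale.Agent.P272.K (Cm)

noncomputable section

namespace Vale.Agent.P253W.D

namespace Dep

variable {n : ℕ}

theorem ev_eq (R : Polynomial (Pz n)) (ζ : Cm n) (t : ℂ) : ev R ζ t =
    ∑ j ∈ Finset.range (R.natDegree + 1), MvPolynomial.eval ζ (R.coeff j) * t ^ j := by
  rw [ev, Polynomial.eval_map, Polynomial.eval₂_eq_sum_range]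

theorem dep (q : Cm n → Cm n) (C : ℝ) (N : ℕ) (hq : Differentiable ℂ q)
    (h : ∀ y, ‖q y‖ ≤ C * (1 + ‖y‖) ^ N) (j : Fin n) :
    ∃ R : Polynomial (Pz n), R ≠ 0 ∧ ∀ y, ev R (q y) (y j) = 0 := by
  choose P hP using fun i => T2.Liou.many N n (fun y => q y i) C (differentiable_pi.1 hq i)
    fun y => (norm_le_pi_norm _ i).trans (h y)
  have h1 : ¬AlgebraicIndependent ℂ (Fin.cons (MvPolynomial.X j) P : Fin (n + 1) → Pz n) :=
    fun h => by
      have := h.cardinalMk_le_trdeg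
      rw [MvPolynomial.trdeg_of_isDomain] at this
      simp only [Cardinal.mk_fintype, Fintype.card_fin, Cardinal.lift_natCast, Nat.cast_le] at this
      omega
  rw [algebraicIndependent_iff] at h1
  push Not at h1
  obtain ⟨S, h2, h3⟩ := h1
  refine ⟨MvPolynomial.finSuccEquiv ℂ n S, by simpa using h3, fun y => ?_⟩
  have h4 := congrArg (MvPolynomial.aeval y : Pz n →ₐ[ℂ] ℂ) h2
  rw [map_zero, ← AlgHom.comp_apply, MvPolynomial.comp_aeval, MvPolynomial.aeval_eq_eval] at h4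
  rw [ev, ← MvPolynomial.eval_eq_eval_mv_eval', ← h4]
  congr 2
  funext i
  refine Fin.cases ?_ (fun i => ?_) i
  · simp
  · simpa using hP i y

theorem plr (D : ℕ) (a : Cf n D) (ha : a ≠ 0) : ∃ R : Polynomial (Pz n), R ≠ 0 ∧
    ∀ ζ t, pl a ζ t = ev R ζ t := by
  classical
  obtain ⟨q₀, hq₀⟩ := Function.ne_iff.1 ha
  let F : (Fin n → Fin (D + 1)) → (Fin n →₀ ℕ) := fun α =>
    Finsupp.equivFunOnFinite.symm fun i => (α i : ℕ)
  have hF : Function.Injective F := fun α β hαβ => funext fun i =>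
    Fin.ext (congrFun (Finsupp.equivFunOnFinite.symm.injective hαβ) i)
  refine ⟨∑ q, Polynomial.monomial q.2 (MvPolynomial.monomial (F q.1) (a q)),
    fun h0 => ?_, fun z t => ?_⟩
  · have h1 := congrArg (fun Q : Polynomial (Pz n) => (Q.coeff q₀.2).coeff (F q₀.1)) h0
    simp only [Polynomial.finsetSum_coeff, MvPolynomial.coeff_sum, Polynomial.coeff_zero,
      MvPolynomial.coeff_zero] at h1
    rw [Finset.sum_eq_single q₀] at h1
    · exact hq₀ (by simpa using h1)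
    · intro q _ hq
      rw [Polynomial.coeff_monomial]
      split_ifs with h2
      · rw [MvPolynomial.coeff_monomial, if_neg]
        intro h3
        exact hq (Prod.ext (hF h3) (Fin.ext h2))
      · rfl
    · simp
  · rw [ev, pl, Polynomial.map_sum, Polynomial.eval_finsetSum]
    refine Finset.sum_congr rfl fun q _ => ?_
    rw [Polynomial.map_monomial, Polynomial.eval_monomial, MvPolynomial.eval_monomial,
      Finsupp.prod_fintype _ _ (fun i => pow_zero _)]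
    rfl

theorem plb (D : ℕ) (B : ℝ) : ∃ C : ℝ, ∀ (a a' : Cf n D) (ζ : Cm n) (t : ℂ), ‖ζ‖ ≤ B → ‖t‖ ≤ B →
    ‖pl a ζ t - pl a' ζ t‖ ≤ C * ‖a - a'‖ := by
  refine ⟨∑ β : (Fin n → Fin (D + 1)) × Fin (D + 1), (∏ i, B ^ (β.1 i : ℕ)) * B ^ (β.2 : ℕ),
    fun a a' ζ t h1 h2 => ?_⟩
  rw [pl, pl, ← Finset.sum_sub_distrib, Finset.sum_mul]
  refine norm_sum_le_of_le _ fun β _ => ?_
  have h3 : ‖∏ i, ζ i ^ (β.1 i : ℕ)‖ ≤ ∏ i, B ^ (β.1 i : ℕ) := by
    rw [norm_prod]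
    refine Finset.prod_le_prod (fun _ _ => norm_nonneg _) fun i _ => ?_
    rw [norm_pow]
    exact pow_le_pow_left₀ (norm_nonneg _) ((norm_le_pi_norm ζ i).trans h1) _
  rw [← sub_mul, ← sub_mul, mul_assoc, norm_mul, norm_mul, norm_pow, mul_comm]
  exact mul_le_mul (mul_le_mul h3 (pow_le_pow_left₀ (norm_nonneg _) h2 _) (by positivity)
    ((norm_nonneg _).trans h3)) (norm_le_pi_norm (a - a') β) (norm_nonneg _)
    (mul_nonneg ((norm_nonneg _).trans h3) (pow_nonneg ((norm_nonneg _).trans h2) _))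

theorem far (R : Polynomial (Pz n)) (K : Set (Cm n)) (hK : IsCompact K)
    (h : ∀ ζ ∈ K, MvPolynomial.eval ζ R.leadingCoeff ≠ 0) : ∃ B c : ℝ, 0 < c ∧
    ∀ ζ ∈ K, ∀ t : ℂ, B ≤ ‖t‖ → c ≤ ‖ev R ζ t‖ := by
  obtain ⟨m, hm, h1⟩ := hK.exists_forall_le'
    (MvPolynomial.continuous_eval R.leadingCoeff).norm.continuousOn fun ζ hζ =>
      norm_pos_iff.2 (h ζ hζ)
  obtain ⟨S, h2⟩ := hK.bddAbove_image (f := fun ζ : Cm n =>
    ∑ k ∈ Finset.range R.natDegree, ‖MvPolynomial.eval ζ (R.coeff k)‖)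
    (continuous_finsetSum _ fun k _ => (MvPolynomial.continuous_eval _).norm).continuousOn
  refine ⟨max 1 (2 * S / m), m / 2, half_pos hm, fun ζ hζ t ht => ?_⟩
  have t1 : 1 ≤ ‖t‖ := (le_max_left _ _).trans ht
  have t2 : 2 * S ≤ ‖t‖ * m := (div_le_iff₀ hm).1 ((le_max_right _ _).trans ht)
  have t3 : 1 ≤ ‖t‖ ^ R.natDegree := one_le_pow₀ t1
  have h3 : ‖∑ k ∈ Finset.range R.natDegree, MvPolynomial.eval ζ (R.coeff k) * t ^ k‖ * ‖t‖ ≤
      S * ‖t‖ ^ R.natDegree := by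
    refine le_trans ?_ (mul_le_mul_of_nonneg_right (h2 (mem_image_of_mem _ hζ)) (by positivity))
    refine (mul_le_mul_of_nonneg_right (norm_sum_le _ _) (norm_nonneg t)).trans ?_
    rw [Finset.sum_mul, Finset.sum_mul]
    refine Finset.sum_le_sum fun j hj => ?_
    rw [norm_mul, norm_pow, mul_assoc, ← pow_succ]
    exact mul_le_mul_of_nonneg_left (pow_le_pow_right₀ t1 (Finset.mem_range.1 hj)) (norm_nonneg _)
  have h4 := norm_sub_le (ev R ζ t)
    (∑ k ∈ Finset.range R.natDegree, MvPolynomial.eval ζ (R.coeff k) * t ^ k)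
  rw [ev_eq, Finset.sum_range_succ, add_sub_cancel_left, ← Finset.sum_range_succ
    (fun k => MvPolynomial.eval ζ (R.coeff k) * t ^ k), ← ev_eq, norm_mul, norm_pow] at h4
  have h5 := mul_le_mul_of_nonneg_right (h1 ζ hζ) (zero_le_one.trans t3)
  have h6 : ‖∑ k ∈ Finset.range R.natDegree, MvPolynomial.eval ζ (R.coeff k) * t ^ k‖ ≤
      m / 2 * ‖t‖ ^ R.natDegree :=
    le_of_mul_le_mul_right (h3.trans (by nlinarith)) (zero_lt_one.trans_le t1)
  rw [Polynomial.leadingCoeff] at h5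
  nlinarith

theorem root (R : Polynomial (Pz n)) : ∃ (C : ℝ) (N : ℕ), 1 ≤ C ∧ ∀ (ζ : Cm n) (t : ℂ),
    ‖MvPolynomial.eval ζ R.leadingCoeff‖ ≤ C * (1 + ‖ζ‖) ^ N ∧
    (ev R ζ t = 0 → ‖t‖ * ‖MvPolynomial.eval ζ R.leadingCoeff‖ ≤ C * (1 + ‖ζ‖) ^ N) := by
  obtain ⟨C, N, -, h⟩ := P253Y.H2.grow_sum (R.natDegree + 1) R.coeff
  refine ⟨max 1 C, N, le_max_left _ _, fun ζ t => ?_⟩
  have h1 := (h ζ).trans (mul_le_mul_of_nonneg_right (le_max_right 1 C) (by positivity))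
  refine ⟨le_trans ?_ h1, fun h2 => le_trans ?_ h1⟩
  · exact Finset.single_le_sum (f := fun k => ‖MvPolynomial.eval ζ (R.coeff k)‖)
      (fun _ _ => norm_nonneg _) (Finset.self_mem_range_succ _)
  · rw [mul_comm, ← norm_mul]
    exact P253Y.H2.root_bound R.natDegree (fun k => MvPolynomial.eval ζ (R.coeff k)) t
      (ev_eq R ζ t ▸ h2)

end Dep

/-- **Row DEP.** -/
theorem dep (n : ℕ) : DEP n := ⟨Dep.dep, Dep.plr, Dep.plb, Dep.far, Dep.root⟩

end Vale.Agent.P253W.D
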