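import Vale.Agent.P253W.D.Spec
import Vale.Agent.P253W.V.Lfp

/-!
# P253W, block D, row DF: differentials of holomorphic maps
-/

open scoped Manifold ContDiff Topology Matrix
open IsManifold Set Metric Filter Vale.Agent.P253Z
open Vale.Agent.P272.K (Cm jacM Chart)

noncomputable section

namespace Vale.Agent.P253W.D

namespace Df

variable {n : ℕ}

theorem mx_mulVec (L : Cm n →L[ℂ] Cm n) (v : Cm n) : mx L *ᵥ v = L v :=
  LinearMap.toMatrix'_mulVec _ v

theorem mx_comp (L L' : Cm n →L[ℂ] Cm n) : mx (L.comp L') = mx L * mx L' :=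
  LinearMap.toMatrix'_comp (L : Cm n →ₗ[ℂ] Cm n) (L' : Cm n →ₗ[ℂ] Cm n)

theorem mx_det_ne (L : Cm n →L[ℂ] Cm n) : (mx L).det ≠ 0 ↔ Function.Injective L := by
  rw [← isUnit_iff_ne_zero, ← Matrix.isUnit_iff_isUnit_det, ← Matrix.mulVec_injective_iff_isUnit,
    show (mx L).mulVec = L from funext (mx_mulVec L)]

variable {M : Type} [MetricSpace M] [ChartedSpace (Cm n) M]

theorem md_chart {e : Chart n M} (he : Hc e) {x : M} (hx : x ∈ e.source) :
    MDifferentiableAt 𝓘(ℂ, Cm n) 𝓘(ℂ, Cm n) e x :=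
  ((contMDiffOn_of_mem_maximalAtlas he).mdifferentiableOn one_ne_zero).mdifferentiableAt
    (e.open_source.mem_nhds hx)

theorem md_symm {e : Chart n M} (he : Hc e) {w : Cm n} (hw : w ∈ e.target) :
    MDifferentiableAt 𝓘(ℂ, Cm n) 𝓘(ℂ, Cm n) e.symm w :=
  ((contMDiffOn_symm_of_mem_maximalAtlas he).mdifferentiableOn one_ne_zero).mdifferentiableAt
    (e.open_target.mem_nhds hw)

theorem dif {Ψ : Cm n → M} {y : Cm n} {e : Chart n M}
    (h : MDifferentiableAt 𝓘(ℂ, Cm n) 𝓘(ℂ, Cm n) Ψ y) (he : Hc e) (hy : Ψ y ∈ e.source) :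
    DifferentiableAt ℂ (fun w => e (Ψ w)) y :=
  mdifferentiableAt_iff_differentiableAt.1 ((md_chart he hy).comp y h)

theorem jm_eq {Ψ : Cm n → M} {y : Cm n}
    (h : DifferentiableAt ℂ (fun w => pc n (Ψ y) (Ψ w)) y) :
    jm Ψ y = mx (fderiv ℂ (fun w => pc n (Ψ y) (Ψ w)) y) := by
  ext p i
  exact B1aP.dz_comp h p i

theorem ch (a : B1a n M) (Ψ : Cm n → M) (y : Cm n) (e : Chart n M)
    (h : MDifferentiableAt 𝓘(ℂ, Cm n) 𝓘(ℂ, Cm n) Ψ y) (he : Hc e) (hy : Ψ y ∈ e.source) :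
    DifferentiableAt ℂ (fun w => e (Ψ w)) y ∧
      jm Ψ y = jacM e (pc n (Ψ y)) (Ψ y) * mx (fderiv ℂ (fun w => e (Ψ w)) y) ∧
      ((jm Ψ y).det ≠ 0 ↔ Function.Injective (fderiv ℂ (fun w => e (Ψ w)) y)) := by
  have hx := mem_chart_source (Cm n) (Ψ y)
  have h1 := dif h he hy
  have h2 : jm Ψ y = jacM e (pc n (Ψ y)) (Ψ y) * mx (fderiv ℂ (fun w => e (Ψ w)) y) := by
    have t := (a.hol e _ he (a.chart (Ψ y)) _ (e.map_source hy)
      (by rwa [e.left_inv hy])).differentiableAt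
    have ev : (fun w => pc n (Ψ y) (Ψ w)) =ᶠ[𝓝 y]
        (fun z => pc n (Ψ y) (e.symm z)) ∘ fun w => e (Ψ w) := by
      filter_upwards [h.continuousAt.preimage_mem_nhds (e.open_source.mem_nhds hy)] with w hw
      simp only [Function.comp_apply, e.left_inv hw]
    rw [jm_eq (dif h (a.chart _) hx), ev.fderiv_eq, fderiv_comp y t h1, mx_comp,
      a.jac_eq e _ he (a.chart _) _ hy hx]
    rfl
  refine ⟨h1, h2, ?_⟩
  rw [h2, Matrix.det_mul, ← mx_det_ne,
    mul_ne_zero_iff_left (a.jac_ne _ _ he (a.chart _) _ hy hx)]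

theorem loc [IsManifold 𝓘(ℂ, Cm n) 1 M] (Ψ : Cm n → M) (U : Set (Cm n)) (hU : IsOpen U)
    (h : Hn Ψ U) (y : Cm n) (hy : y ∈ U) (hd : (jm Ψ y).det ≠ 0) :
    (∃ W ∈ 𝓝 y, InjOn Ψ W) ∧ 𝓝 (Ψ y) ≤ map Ψ (𝓝 y) := by
  obtain ⟨e, -, h1, h2⟩ := V.LfpA.chart_of hU h hy hd
  have hn := e.open_target.mem_nhds h1
  refine ⟨⟨_, hn, e.symm.injOn.congr h2⟩, ?_⟩
  rw [← h2 y h1, ← e.symm.map_nhds_eq h1, map_congr (mem_of_superset hn h2)]

/-- uniqueness of lifts -/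
theorem unq {α : Type} {Ψ : Cm n → α} {U : Set (Cm n)} (hl : ∀ y ∈ U, ∃ W ∈ 𝓝 y, InjOn Ψ W)
    {V : Type} [TopologicalSpace V] {S : Set V} {k k' : V → Cm n} (hS : IsPreconnected S)
    (h₁ : ContinuousOn k S) (h₂ : ContinuousOn k' S) (m₁ : MapsTo k S U) (m₂ : MapsTo k' S U)
    (hm : ∀ v ∈ S, Ψ (k v) = Ψ (k' v)) {v₀ : V} (hv : v₀ ∈ S) (he : k v₀ = k' v₀) :
    EqOn k k' S := by
  have : PreconnectedSpace S := isPreconnected_iff_preconnectedSpace.1 hS
  have inj : IsLocallyInjective fun y : U => Ψ y :=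
    isLocallyInjective_iff_nhds.2 fun y => by
      obtain ⟨W, hW, hi⟩ := hl y y.2
      exact ⟨Subtype.val ⁻¹' W, continuous_subtype_val.continuousAt.preimage_mem_nhds hW,
        fun a ha b hb e => Subtype.ext (hi ha hb e)⟩
  have key := (T2Space.isSeparatedMap _).eq_of_comp_eq inj
    (g₁ := fun v : S => ⟨k v, m₁ v.2⟩) (g₂ := fun v : S => ⟨k' v, m₂ v.2⟩)
    ((continuousOn_iff_continuous_domRestrict.1 h₁).subtype_mk _)
    ((continuousOn_iff_continuous_domRestrict.1 h₂).subtype_mk _)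
    (funext fun v => by exact hm v v.2) ⟨v₀, hv⟩ (Subtype.ext he)
  exact fun v hv => congrArg Subtype.val (congrFun key ⟨v, hv⟩)

end Df

open Df in
theorem df {n : ℕ} {M : Type} [MetricSpace M] [ChartedSpace (Cm n) M]
    [IsManifold 𝓘(ℂ, Cm n) 1 M] (a : B1a n M) : DF n M where
  congr Ψ Ψ' y h := by
    ext p i
    simp only [jm, Matrix.of_apply, h.eq_of_nhds]
    exact P272.K.C2.dz_congr i (h.mono fun w hw => by simp only [hw])
  ch := Df.ch a
  chain Ψ g y h hg := by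
    have t := dif h (a.chart _) (mem_chart_source _ _)
    have h1 : jm (fun w => Ψ (g w)) y = jm Ψ (g y) * mx (fderiv ℂ g y) := by
      rw [jm_eq (Ψ := fun w => Ψ (g w)) (t.comp y hg), jm_eq t, ← mx_comp, ← fderiv_comp y t hg]
      rfl
    exact ⟨h1, fun v => by rw [dn, dn, h1, ← Matrix.mulVec_mulVec, mx_mulVec]⟩
  symm e he := by
    refine ⟨fun w hw => (md_symm he hw).mdifferentiableWithinAt,
      fun x hx => (md_chart he hx).mdifferentiableWithinAt, fun w hw => ?_⟩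
    have ev : (fun w => e (e.symm w)) =ᶠ[𝓝 w] id := e.eventually_right_inverse hw
    rw [(Df.ch a _ w e (md_symm he hw) he (e.map_target hw)).2.2, ev.fderiv_eq, fderiv_id]
    exact Function.injective_id
  comp Ψ y φ φ' h h1 h2 hi hd := by
    have hx := mem_chart_source (Cm n) (Ψ y)
    have hx' := mem_chart_source (Cm n) (φ (Ψ y))
    have c1 := Df.ch a Ψ y _ h (a.chart _) hx
    have c2 := Df.ch a (fun w => φ (Ψ w)) y _ ((h1 _).comp y h) (a.chart _) hx'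
    have c3 : DifferentiableAt ℂ (fun z => pc n (Ψ y) (φ' ((pc n (φ (Ψ y))).symm z)))
        (pc n (φ (Ψ y)) (φ (Ψ y))) :=
      dif (Ψ := fun z => φ' ((pc n (φ (Ψ y))).symm z))
        ((h2 _).comp _ (md_symm (a.chart _) (mem_chart_target _ _))) (a.chart _)
        (by rwa [(pc n (φ (Ψ y))).left_inv hx', hi])
    have ev : (fun w => pc n (Ψ y) (Ψ w)) =ᶠ[𝓝 y]
        (fun z => pc n (Ψ y) (φ' ((pc n (φ (Ψ y))).symm z))) ∘
          fun w => pc n (φ (Ψ y)) (φ (Ψ w)) := by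
      filter_upwards [((h1 _).comp y h).continuousAt.preimage_mem_nhds
        ((pc n (φ (Ψ y))).open_source.mem_nhds hx')] with w hw
      rw [Function.comp_apply, (pc n (φ (Ψ y))).left_inv (x := φ (Ψ w)) hw, hi]
    have k := c1.2.2.1 hd
    rw [ev.fderiv_eq, fderiv_comp y c3 c2.1] at k
    exact c2.2.2.2 (Function.Injective.of_comp k)
  loc := loc
  unq Ψ U hU h hd _ _ _ _ _ hS h₁ h₂ m₁ m₂ hm _ hv he :=
    unq (fun y hy => (loc Ψ U hU h y hy (hd y hy)).1) hS h₁ h₂ m₁ m₂ hm hv he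

end Vale.Agent.P253W.D
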