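import Vale.Agent.P253W.D.Pure
import Vale.Agent.P268.Hol

/-!
# P253W, block D: the row DIM
-/

open scoped Topology
open Set Metric Filter Asymptotics
open Vale.Agent.P272.K (Cm)

noncomputable section

namespace Vale.Agent.P253W.D

namespace Dim

/-- the span of the monomials of degree less than `N` in each variable -/
def W (n N : ℕ) : Submodule ℂ (Cm n → ℂ) :=
  Submodule.span ℂ (range fun (α : Fin n → Fin N) (y : Cm n) => ∏ j, y j ^ (α j : ℕ))

theorem ps_mem {n : ℕ} (p : FormalMultilinearSeries ℂ (Cm n) ℂ) (N : ℕ) :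
    p.partialSum N ∈ W n N := by
  have e : p.partialSum N = ∑ k ∈ Finset.range N, ∑ σ : Fin k → Fin n,
      p k (fun i => Pi.single (σ i) 1) • fun y : Cm n => ∏ i, y (σ i) := by
    funext y
    simp only [FormalMultilinearSeries.partialSum, Finset.sum_apply, Pi.smul_apply, smul_eq_mul]
    refine Finset.sum_congr rfl fun k _ => ?_
    have h : (fun _ : Fin k => y) = fun _ => ∑ j, y j • (Pi.single j 1 : Cm n) := by
      funext _
      exact pi_eq_sum_univ' y
    rw [h, (p k).map_sum (g := fun (_ : Fin k) j => y j • (Pi.single j 1 : Cm n))]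
    refine Finset.sum_congr rfl fun σ _ => ?_
    rw [(p k).map_smul_univ, smul_eq_mul, mul_comm]
  rw [e]
  refine Submodule.sum_mem _ fun k hk => Submodule.sum_mem _ fun σ _ =>
    Submodule.smul_mem _ _ (Submodule.subset_span ?_)
  refine ⟨fun j => ⟨(Finset.univ.filter fun i => σ i = j).card, ?_⟩, ?_⟩
  · refine ((Finset.card_filter_le _ _).trans ?_).trans_lt (Finset.mem_range.1 hk)
    simp
  · funext y
    simp only [← Finset.prod_const]
    exact Finset.prod_fiberwise' _ σ y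

/-- a nontrivial combination vanishes to high order -/
theorem rel {n N : ℕ} {ι : Type} [Fintype ι] (h : N ^ n < Fintype.card ι) (m : ι → Cm n → ℂ)
    (hm : ∀ β, AnalyticAt ℂ (m β) 0) : ∃ a : ι → ℂ, ‖a‖ = 1 ∧
      (fun y => ∑ β, a β * m β y) =O[𝓝 0] fun y => ‖y‖ ^ N := by
  choose p hp using hm
  have : Module.Finite ℂ (W n N) := Module.Finite.span_of_finite _ (finite_range _)
  have h1 : ¬LinearIndependent ℂ fun β => (⟨_, ps_mem (p β) N⟩ : W n N) := fun hl => by
    have h2 := hl.fintype_card_le_finrank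
    have h3 : Module.finrank ℂ (W n N) ≤ Fintype.card (Fin n → Fin N) := finrank_range_le_card _
    simp only [Fintype.card_pi, Fintype.card_fin, Finset.prod_const, Finset.card_univ] at h3
    omega
  obtain ⟨g, hg, β₀, hb⟩ := Fintype.not_linearIndependent_iff.1 h1
  have hg0 : g ≠ 0 := fun e => hb (by simp [e])
  have hs : ∀ y, ∑ β, g β * (p β).partialSum N y = 0 := fun y => by
    have := congrFun (congrArg Subtype.val hg) y
    simpa [Finset.sum_apply] using this
  refine ⟨((‖g‖ : ℂ)⁻¹) • g, ?_, ?_⟩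
  · rw [norm_smul, norm_inv, Complex.norm_real, norm_norm,
      inv_mul_cancel₀ (norm_ne_zero_iff.2 hg0)]
  · have h4 : (fun y => ∑ β, (((‖g‖ : ℂ)⁻¹) • g) β * (m β (0 + y) - (p β).partialSum N y))
        =O[𝓝 0] fun y => ‖y‖ ^ N :=
      IsBigO.fun_sum fun β _ => ((hp β).isBigO_sub_partialSum_pow N).const_mul_left _
    refine h4.congr_left fun y => ?_
    simp only [zero_add, mul_sub, Finset.sum_sub_distrib, Pi.smul_apply, smul_eq_mul, mul_assoc,
      ← Finset.mul_sum, hs, mul_zero, sub_zero]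

theorem bound {n D : ℕ} {a : Cf n D} (ha : ‖a‖ ≤ 1) {ζ : Cm n} {t : ℂ} {E : ℝ} (hE : 1 ≤ E)
    (h1 : ‖ζ‖ ≤ E) (h2 : ‖t‖ ≤ E) :
    ‖pl a ζ t‖ ≤ ((D + 1 : ℕ) : ℝ) ^ (n + 1) * E ^ ((n + 1) * D) := by
  have hb : ∀ (z : ℂ) (k : Fin (D + 1)), ‖z‖ ≤ E → ‖z ^ (k : ℕ)‖ ≤ E ^ D := fun z k hz => by
    rw [norm_pow]
    exact (pow_le_pow_left₀ (norm_nonneg _) hz _).trans
      (pow_le_pow_right₀ hE (Nat.lt_succ_iff.1 k.2))
  refine (norm_sum_le _ _).trans ((Finset.sum_le_card_nsmul _ _ (E ^ ((n + 1) * D))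
    fun β _ => ?_).trans (le_of_eq ?_))
  · have h3 : ‖∏ i, ζ i ^ (β.1 i : ℕ)‖ ≤ (E ^ D) ^ n := by
      rw [norm_prod]
      refine (Finset.prod_le_prod (fun _ _ => norm_nonneg _) fun i _ =>
        hb _ _ ((norm_le_pi_norm ζ i).trans h1)).trans (le_of_eq ?_)
      simp
    rw [norm_mul, norm_mul]
    calc _ ≤ 1 * (E ^ D) ^ n * E ^ D := by
          have := (norm_le_pi_norm a β).trans ha
          have := hb t β.2 h2
          gcongr
      _ = _ := by ring
  · simp [pow_succ]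

end Dim

theorem dim (n : ℕ) : DIM n := by
  intro C c r hc hr
  obtain ⟨L, hL⟩ := exists_nat_ge (((n + 1) * max C 0 + 2) / c)
  rw [div_le_iff₀ hc] at hL
  have hC : 0 ≤ max C 0 := le_max_right _ _
  have hL1 : 1 ≤ L := by
    refine Nat.one_le_iff_ne_zero.2 fun e => ?_
    rw [e] at hL
    have : (0 : ℝ) ≤ (n + 1) * max C 0 := by positivity
    simp only [Nat.cast_zero, zero_mul] at hL
    linarith
  obtain ⟨N, hN⟩ : ∃ N, N + 1 = L ^ (n + 1) :=
    ⟨L ^ (n + 1) - 1, Nat.sub_add_cancel (Nat.one_le_pow _ _ hL1)⟩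
  set K : ℝ := ((L ^ n + 1 : ℕ) : ℝ) ^ (n + 1) with hK
  have hK0 : 0 < K := by positivity
  refine ⟨L ^ n, max (max 0 ((1 - Real.log r) / c)) (Real.log K - (N + 1) * Real.log r),
    fun U hU f φ hf hφ hb => ?_⟩
  have hU0 : 0 ≤ U := (le_max_left _ _).trans ((le_max_left _ _).trans hU)
  have hU1 : (1 - Real.log r) / c ≤ U := (le_max_right _ _).trans ((le_max_left _ _).trans hU)
  have hU2 : Real.log K - (N + 1) * Real.log r ≤ U := (le_max_right _ _).trans hU
  rw [div_le_iff₀ hc] at hU1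
  have hd : ∀ β : (Fin n → Fin (L ^ n + 1)) × Fin (L ^ n + 1), DifferentiableOn ℂ
      (fun y => (∏ i, f y i ^ (β.1 i : ℕ)) * φ y ^ (β.2 : ℕ)) (ball 0 r) := fun β =>
    DifferentiableOn.mul (fun y hy => (HasFDerivWithinAt.finsetProd fun i _ =>
      (((differentiableOn_pi.1 hf i).pow _) y hy).hasFDerivWithinAt).differentiableWithinAt)
      (hφ.pow _)
  obtain ⟨a, ha, ho⟩ := Dim.rel (N := N + 1) (n := n)
    (ι := (Fin n → Fin (L ^ n + 1)) × Fin (L ^ n + 1)) (by
      rw [hN, ← pow_mul, mul_comm, pow_mul]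
      simpa [pow_succ] using Nat.pow_lt_pow_left (Nat.lt_succ_self (L ^ n)) (Nat.succ_ne_zero n))
    _ fun β => P268.analyticAt_of_differentiableOn isOpen_ball (hd β) (mem_ball_self hr)
  have he : (fun y => ∑ β, a β * ((∏ i, f y i ^ (β.1 i : ℕ)) * φ y ^ (β.2 : ℕ))) =
      fun y => pl a (f y) (φ y) := by
    simp only [pl, mul_assoc]
  have hF : DifferentiableOn ℂ (fun y => pl a (f y) (φ y)) (ball 0 r) :=
    he ▸ DifferentiableOn.fun_sum fun β _ => (hd β).const_mul _
  rw [he] at ho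
  have h0 : pl a (f 0) (φ 0) = 0 := by
    obtain ⟨B, hB⟩ := ho.bound
    simpa using hB.self_of_nhds
  have hE : 1 ≤ Real.exp (max C 0 * U) := Real.one_le_exp (by positivity)
  have hE' : Real.exp (C * U) ≤ Real.exp (max C 0 * U) := by
    gcongr
    exact le_max_left _ _
  refine ⟨a, ha, fun y hy => ?_⟩
  have hy' : y ∈ ball (0 : Cm n) r := by
    rw [mem_ball_zero_iff, ← Real.exp_log hr]
    exact hy.trans_lt (Real.exp_lt_exp.2 (by linarith))
  have hs := Complex.dist_le_mul_div_pow_of_mapsTo_ball_of_isLittleO (n := N)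
    (R₂ := K * Real.exp (max C 0 * U) ^ ((n + 1) * L ^ n)) hF (fun z hz => by
      rw [h0, mem_closedBall_zero_iff]
      exact Dim.bound ha.le hE ((hb z hz).1.trans hE') ((hb z hz).2.trans hE')) (by
      simp only [h0, sub_zero]
      exact ho.trans_isLittleO ((isLittleO_pow_pow (𝕜 := ℝ) (Nat.lt_succ_self N)).comp_tendsto
        (tendsto_norm_zero (E := Cm n)))) hy'
  rw [h0, dist_zero_right, dist_zero_right] at hs
  refine hs.trans ?_
  calc _ ≤ K * Real.exp (max C 0 * U) ^ ((n + 1) * L ^ n) *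
        (Real.exp (-(c * U)) / r) ^ (N + 1) := by gcongr
    _ = Real.exp (Real.log K + ((n + 1) * L ^ n : ℕ) * (max C 0 * U) +
        (N + 1 : ℕ) * (-(c * U) - Real.log r)) := by
      rw [Real.exp_add, Real.exp_add, Real.exp_log hK0, Real.exp_nat_mul, Real.exp_nat_mul,
        Real.exp_sub, Real.exp_log hr]
    _ ≤ _ := by
      refine Real.exp_le_exp.2 ?_
      have h1 : (1 : ℝ) ≤ (L : ℝ) ^ n := one_le_pow₀ (by exact_mod_cast hL1)
      have h2 : ((N : ℝ) + 1) = L ^ n * L := by rw [← pow_succ]; exact_mod_cast hN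
      have h3 : (L : ℝ) ^ n * U * ((n + 1) * max C 0 + 2) ≤ L ^ n * U * (L * c) := by gcongr
      have h4 : 1 * U ≤ (L : ℝ) ^ n * U := by gcongr
      push_cast
      rw [h2] at hU2 ⊢
      nlinarith

end Vale.Agent.P253W.D
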