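import Vale.Agent.P253W.D.Pinl

/-!
# P253W, block D: the row DIR (fast directions)
-/

open scoped Manifold ContDiff Bundle ENNReal Topology Matrix ComplexOrder
open Bundle IsManifold MeasureTheory Set Metric Filter Vale.Agent.P253.Mfd Vale.Agent.P253Z
open Vale.Agent.P272.K (Cm jacM Chart)

noncomputable section

namespace Vale.Agent.P253W.D

open Pinl

variable {n : ℕ} {M : Type} [MetricSpace M] [ChartedSpace (Cm n) M]
  [RiemannianBundle fun x : M => TangentSpace 𝓘(ℝ, Cm n) x] [MeasurableSpace M]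
  {μ : Measure M} {F : Flow n M} {T : F.TA μ}

theorem dir' (hn : 1 ≤ n) (t : Tools T) : DIR T := by
  intro X
  obtain ⟨z, e, hz, he, hp, hez⟩ := t.zc.ex X.p
  obtain ⟨ε, hε, hεb⟩ := Metric.nhds_basis_closedBall.mem_iff.1
    (e.open_target.mem_nhds (e.map_source hp))
  set δ : ℝ := ε / 2 with hδd
  have hδ : 0 < δ := by positivity
  have hK : closedBall (e X.p) (2 * δ) ⊆ e.target := by
    rw [show 2 * δ = ε by rw [hδd]; ring]; exact hεb
  have h12 : closedBall (e X.p) δ ⊆ closedBall (e X.p) (2 * δ) :=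
    closedBall_subset_closedBall (by linarith)
  set K₀ := e.symm '' closedBall (e X.p) δ with hK₀
  set K₁ := e.symm '' closedBall (e X.p) (2 * δ) with hK₁
  have c1 : IsCompact K₁ :=
    (isCompact_closedBall _ _).image_of_continuousOn (e.continuousOn_symm.mono hK)
  have c0 : IsCompact K₀ :=
    (isCompact_closedBall _ _).image_of_continuousOn (e.continuousOn_symm.mono (h12.trans hK))
  have s1 : K₁ ⊆ e.source := by
    rintro _ ⟨w, hw, rfl⟩
    exact e.map_target (hK hw)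
  have m0 : ∀ x ∈ K₀, x ∈ e.source ∧ e x ∈ closedBall (e X.p) δ := by
    rintro _ ⟨w, hw, rfl⟩
    exact ⟨e.map_target (hK (h12 hw)), by rwa [e.right_inv (hK (h12 hw))]⟩
  have m1 : ∀ x ∈ e.source, e x ∈ closedBall (e X.p) δ → x ∈ K₀ := fun x hx h =>
    ⟨e x, h, e.left_inv hx⟩
  have p0 : X.p ∈ K₀ := m1 _ hp (mem_closedBall_self hδ.le)
  obtain ⟨R, hR⟩ := c0.isBounded.subset_ball X.p
  obtain ⟨c₁, hc₁, hdet⟩ := t.mt.det e he _ (isCompact_closedBall _ _) hK X.l X.ch.l_pos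
  obtain ⟨c, hc, hcmp⟩ := t.mt.cmp 0 le_rfl e he _ (isCompact_closedBall _ _) hK
  obtain ⟨δ', hδ', huc⟩ := Metric.uniformContinuousOn_iff.1
    (c1.uniformContinuousOn_of_continuous (e.continuousOn.mono s1)) δ hδ
  obtain ⟨-, hUt, -⟩ := t.uh X.p
  have hn' : (0 : ℝ) < n := by exact_mod_cast hn
  have hr := X.ch.r_pos
  have hr1 := X.ch.r_le
  have hl := X.ch.l_pos
  have key : ∀ᶠ k in atTop, ∃ v : Cm n,
      (0 < ‖v‖ ∧ ‖v‖ ≤ Real.exp (-(1 / (4 * n) * Uk F X.p k))) ∧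
      (∀ x ∈ K₀, ∀ σ ∈ closedBall (0 : ℂ) 1, X.Ψ k (X.s k x + σ • v) ∈ K₁) ∧
      (∃ x ∈ K₀, δ' ≤ dist (X.Ψ k (X.s k x + (1 : ℂ) • v)) x) ∧
      ∀ x ∈ K₀, ∀ w, ‖v‖ ^ 2 * F.nv 0 x w ≤ δ ^ 2 / (c * X.l) * F.nv (tk k) x w := by
    filter_upwards [X.sec R (X.r / 48) (by positivity),
      hUt.eventually (arith hn one_pos hc₁ hδ (r := X.r / 48) (by positivity))] with k h1 h3
    obtain ⟨hs0, hsd, hs⟩ := h1
    set h : Cm n → Cm n := fun w => zv z (X.Ψ k w) with hh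
    have hk : 0 ≤ tk k := by unfold tk; positivity
    have hd : DifferentiableOn ℂ h (ball 0 1) := hol_z t hz (X.ch.hol k)
    have hy : ∀ x ∈ K₀, X.s k x ∈ ball (0 : Cm n) 1 := fun x hx => by
      rw [mem_ball_zero_iff]
      linarith [(hs x (hR hx)).2]
    have hma := fun x hx => mda (X.ch.hol k) isOpen_ball (hy x hx)
    have hsr : ∀ x ∈ K₀, X.Ψ k (X.s k x) ∈ e.source := fun x hx => by
      rw [(hs x (hR hx)).1]
      exact (m0 x hx).1
    have hev : ∀ x ∈ K₀, fderiv ℂ (fun w => e (X.Ψ k w)) (X.s k x) = fderiv ℂ h (X.s k x) :=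
      fun x hx => EventuallyEq.fderiv_eq (by
        filter_upwards [(hma x hx).continuousAt.preimage_mem_nhds
          (e.open_source.mem_nhds (hsr x hx))] with w hw
        exact hez _ hw)
    have hΛ := hdet (tk k) hk (X.Ψ k) _ (hma _ p0) (hsr _ p0)
      (by rw [(hs _ (hR p0)).1]; exact mem_closedBall_self (by linarith))
      fun v => (X.ch.met k _ (hy _ p0) v).1
    rw [hev _ p0, (hs _ (hR p0)).1] at hΛ
    obtain ⟨h4, h5⟩ := h3 _ (le_trans (le_of_eq (by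
      rw [show 1 * Uk F X.p k - 1 = F.u (tk k) X.p - F.u 0 X.p by unfold Uk; ring])) hΛ)
    obtain ⟨_, ⟨x₀, hx₀, rfl⟩, v, hv0, hv1, hv2, hv3, hv4⟩ := t.exit h (X.s k '' K₀) (X.r / 48) δ
      (X.s k X.p) (c0.image_of_continuousOn (hsd.continuousOn.mono hR)) (by positivity) hδ
      (by rintro _ ⟨x, hx, rfl⟩; exact mem_closedBall_zero_iff.2 (hs x (hR hx)).2)
      (hd.mono (ball_subset_ball (by linarith))) ⟨_, p0, rfl⟩ h4
    have hcap : ∀ x ∈ K₀, ∀ σ ∈ closedBall (0 : ℂ) 1, X.Ψ k (X.s k x + σ • v) ∈ K₁ := by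
      intro x hx
      have b1 : ∀ σ ∈ closedBall (0 : ℂ) 1, ‖σ • v‖ ≤ ‖v‖ := fun σ hσ => by
        rw [norm_smul]
        exact mul_le_of_le_one_left hv0.le (mem_closedBall_zero_iff.1 hσ)
      have b2 : ∀ σ ∈ closedBall (0 : ℂ) 1,
          h (X.s k x + σ • v) ∈ closedBall (e X.p) (2 * δ) := fun σ hσ => by
        have b3 := (hv4 _ ⟨x, hx, rfl⟩).1 _ (b1 σ hσ)
        have b4 : h (X.s k x) = e x := by
          rw [hh, ← (hs x (hR hx)).1, hez _ (hsr x hx)]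
          simp only [(hs x (hR hx)).1]
        have b5 := (m0 x hx).2
        rw [b4, ← dist_eq_norm] at b3
        rw [mem_closedBall] at b5 ⊢
        linarith [dist_triangle (h (X.s k x + σ • v)) (e x) (e X.p)]
      have hγ : ContinuousOn (fun σ : ℂ => X.Ψ k (X.s k x + σ • v)) (closedBall 0 1) :=
        (X.ch.hol k).continuousOn.comp (by fun_prop) fun σ hσ => by
          rw [mem_ball_zero_iff]
          linarith [norm_add_le (X.s k x) (σ • v), b1 σ hσ, (hs x (hR hx)).2]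
      intro σ hσ
      have b6 : X.Ψ k (X.s k x + σ • v) ∈ e.source :=
        t.zc.cap z e hz hez _ ((convex_closedBall _ _).isPreconnected.image _ hγ)
          (by rintro _ ⟨τ, hτ, rfl⟩; exact hK (b2 τ hτ))
          ⟨_, ⟨0, by simp, rfl⟩, by simpa using hsr x hx⟩ ⟨σ, hσ, rfl⟩
      exact ⟨_, (hez _ b6).symm ▸ b2 σ hσ, e.left_inv b6⟩
    refine ⟨v, ⟨hv0, ?_⟩, hcap, ⟨x₀, hx₀, not_lt.1 fun hlt => ?_⟩, fun x hx w => ?_⟩
    · have hS0 : 0 < X.r / 48 / ‖v‖ := by positivity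
      have hSv : X.r / 48 / ‖v‖ * ‖v‖ = X.r / 48 := div_mul_cancel₀ _ hv0.ne'
      have h6 := h5 _ hS0 (by
        conv_lhs => rw [← hSv]
        rw [mul_pow, ← mul_assoc, mul_right_comm]
        exact mul_le_mul_of_nonneg_right hv3 (by positivity))
      have h7 := Real.exp_le_exp.2 h6
      rw [Real.exp_log hS0, le_div_iff₀ hv0] at h7
      rw [Real.exp_neg, ← one_div, le_div_iff₀ (Real.exp_pos _)]
      linarith
    · have b1 := hcap x₀ hx₀ 1 (by simp)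
      have b2 := huc _ b1 _ (image_mono h12 hx₀) hlt
      rw [hez _ (s1 b1), hez _ (m0 _ hx₀).1, one_smul, dist_eq_norm] at b2
      rw [hh] at hv2
      simp only [(hs _ (hR hx₀)).1] at hv2
      exact b2.ne hv2
    · obtain ⟨u, rfl⟩ := onto (t.mt.et _ _ _ _ hl fun v => (X.ch.met k _ (hy x hx) v).1) w
      have b1 := (t.mt.ch 0 le_rfl _ _ e (hma x hx) he (hsr x hx)).2 u
      have b2 := (X.ch.met k _ (hy x hx) u).1
      have b3 := (hcmp _ (h12 (m0 x hx).2) (fderiv ℂ h (X.s k x) u)).2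
      have b4 := pow_le_pow_left₀ (by positivity) ((hv4 _ ⟨x, hx, rfl⟩).2 u) 2
      rw [hev x hx, (hs x (hR hx)).1] at b1
      rw [(hs x (hR hx)).1] at b2
      rw [b1, div_mul_eq_mul_div, le_div_iff₀ (by positivity)]
      rw [mul_pow, mul_pow] at b4
      calc ‖v‖ ^ 2 * qf (F.g 0 e (e x)) (fderiv ℂ h (X.s k x) u) * (c * X.l)
          = X.l * (‖v‖ ^ 2 * (c * qf (F.g 0 e (e x)) (fderiv ℂ h (X.s k x) u))) := by ring
        _ ≤ X.l * (‖v‖ ^ 2 * ‖fderiv ℂ h (X.s k x) u‖ ^ 2) := by gcongr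
        _ ≤ X.l * (δ ^ 2 * ‖u‖ ^ 2) := by gcongr
        _ = δ ^ 2 * (X.l * ‖u‖ ^ 2) := by ring
        _ ≤ _ := by gcongr
  obtain ⟨v, hv⟩ := key.choice
  have hW : ∀ x ∈ e.source ∩ e ⁻¹' ball (e X.p) δ ∩ ball X.p 1, x ∈ K₀ := fun x hx =>
    m1 x hx.1.1 (ball_subset_closedBall hx.1.2)
  exact ⟨v, e.source ∩ e ⁻¹' ball (e X.p) δ ∩ ball X.p 1,
    ⟨1 / (4 * n), by positivity, hv.mono fun k h => h.1⟩,
    (e.isOpen_inter_preimage isOpen_ball).inter isOpen_ball,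
    ⟨X.p, ⟨hp, mem_ball_self hδ⟩, mem_ball_self one_pos⟩, inter_subset_right,
    ⟨K₁, c1, hv.mono fun k h x hx => h.2.1 x (hW x hx)⟩,
    ⟨K₀, δ', c0, hδ', hv.mono fun k h => h.2.2.1⟩,
    ⟨_, hv.mono fun k h x hx => h.2.2.2 x (hW x hx)⟩⟩

theorem dir [IsManifold 𝓘(ℝ, Cm n) ∞ M] [ConnectedSpace M] [NoncompactSpace M] {A : Fam F}
    (p : P3 A T) (t : Tools T) : DIR T := dir' p.c.npos t

end Vale.Agent.P253W.D
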