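import Vale.Agent.P253W.D.Pinl
import Vale.Agent.P253W.C.Basic
import Vale.Agent.P268.Hol

/-!
# P253W, block D: the row DM
-/

open scoped Manifold ContDiff Bundle ENNReal Topology Matrix ComplexOrder
open Bundle IsManifold MeasureTheory Set Metric Filter Vale.Agent.P253.Mfd Vale.Agent.P253Z
open Vale.Agent.P272.K (Cm jacM Chart)
open Vale.Agent.P272.GJ (ddb)
open Vale.Agent.P253W.C (ex Up lg)
open Bornology (cobounded)

noncomputable section

namespace Vale.Agent.P253W.D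

namespace Dm

variable {n : ℕ}

theorem mx_mulVec (L : Cm n →L[ℂ] Cm n) (v : Cm n) : mx L *ᵥ v = L v := by
  simp [mx, LinearMap.toMatrix'_mulVec]

theorem mx_apply (L : Cm n →L[ℂ] Cm n) (i j : Fin n) : mx L i j = L (Pi.single j 1) i := by
  simp [mx, LinearMap.toMatrix'_apply]

theorem wn_low {k : Fin n → ℝ} {σ : ℂ} {a : ℝ} (hσ : 1 ≤ ‖σ‖) (h : ∀ i, k i ≤ a) (v : Cm n) :
    ‖σ‖ ^ (-(2 * a)) * ‖v‖ ^ 2 ≤ wn k σ v := by
  rcases isEmpty_or_nonempty (Fin n) with h0 | h0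
  · simp [wn, Subsingleton.elim v 0]
  obtain ⟨i, hi⟩ := (IsGreatest.pi_norm v).1
  simp only at hi
  calc ‖σ‖ ^ (-(2 * a)) * ‖v‖ ^ 2 ≤ ‖σ‖ ^ (-(2 * k i)) * ‖v i‖ ^ 2 := by
        rw [hi]
        exact mul_le_mul_of_nonneg_right
          (Real.rpow_le_rpow_of_exponent_le hσ (by linarith [h i])) (by positivity)
    _ = ‖v i‖ ^ 2 * ‖σ‖ ^ (-(2 * k i)) := mul_comm _ _
    _ ≤ wn k σ v := Finset.single_le_sum (f := fun i => ‖v i‖ ^ 2 * ‖σ‖ ^ (-(2 * k i)))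
        (fun j _ => by positivity) (Finset.mem_univ i)

theorem wn_up {k : Fin n → ℝ} {σ : ℂ} {a : ℝ} (hσ : 1 ≤ ‖σ‖) (h : ∀ i, a ≤ k i) (v : Cm n) :
    wn k σ v ≤ n * (‖σ‖ ^ (-(2 * a)) * ‖v‖ ^ 2) := by
  calc wn k σ v ≤ ∑ _i : Fin n, ‖σ‖ ^ (-(2 * a)) * ‖v‖ ^ 2 := Finset.sum_le_sum fun i _ => by
        rw [mul_comm]
        exact mul_le_mul (Real.rpow_le_rpow_of_exponent_le hσ (by linarith [h i]))
          (pow_le_pow_left₀ (norm_nonneg _) (norm_le_pi_norm v i) 2) (by positivity)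
          (by positivity)
    _ = _ := by simp

/-- partial derivatives of holomorphic functions are holomorphic -/
theorem part {G : ℂ → Cm n → Cm n} {D : Set (ℂ × Cm n)} (hD : IsOpen D)
    (h : DifferentiableOn ℂ (fun q : ℂ × Cm n => G q.1 q.2) D) {σ : ℂ} {y : Cm n}
    (hq : (σ, y) ∈ D) (v : Cm n) : DifferentiableAt ℂ (fun s => fderiv ℂ (G s) y v) σ := by
  have h1 := (P268.analyticAt_of_differentiableOn hD h hq).fderiv.differentiableAt
  have h2 : DifferentiableAt ℂ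
      (fun s : ℂ => fderiv ℂ (fun q : ℂ × Cm n => G q.1 q.2) (s, y) (0, v)) σ :=
    (h1.comp σ (by fun_prop : DifferentiableAt ℂ (fun s : ℂ => (s, y)) σ)).clm_apply
      (differentiableAt_const _)
  refine h2.congr_of_eventuallyEq ?_
  have h3 : ∀ᶠ s in 𝓝 σ, (s, y) ∈ D :=
    (by fun_prop : Continuous fun s : ℂ => (s, y)).continuousAt.preimage_mem_nhds (hD.mem_nhds hq)
  filter_upwards [h3] with s hs
  have h4 := (h.differentiableAt (hD.mem_nhds hs)).hasFDerivAt.comp y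
    (hasFDerivAt_prodMk_right s y)
  exact congrArg (fun L => L v) h4.fderiv

variable {M : Type} [MetricSpace M] [ChartedSpace (Cm n) M]
  [RiemannianBundle fun x : M => TangentSpace 𝓘(ℝ, Cm n) x] [MeasurableSpace M]
  {μ : Measure M} {F : Flow n M} {T : F.TA μ} {Φ : ℂ → M → M} {N : ℕ}

theorem slice (a : Act0 T Φ N) (σ : ℂ) : MDifferentiable 𝓘(ℂ, Cm n) 𝓘(ℂ, Cm n) (Φ σ) :=
  a.hol.comp (mdifferentiable_const.prodMk mdifferentiable_id)

theorem curve (a : Act0 T Φ N) (x : M) : MDifferentiable 𝓘(ℂ, ℂ) 𝓘(ℂ, Cm n) fun σ => Φ σ x :=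
  a.hol.comp (mdifferentiable_id.prodMk mdifferentiable_const)

theorem neg_left (a : Act0 T Φ N) (σ : ℂ) (x : M) : Φ (-σ) (Φ σ x) = x := by
  rw [← a.add, neg_add_cancel, a.zero]

theorem neg_right (a : Act0 T Φ N) (σ : ℂ) (x : M) : Φ σ (Φ (-σ) x) = x := by
  rw [← a.add, add_neg_cancel, a.zero]

theorem hp_orb (df : DF n M) (a : Act0 T Φ N) {e : Chart n M} (he : Hc e) :
    HP (orb Φ e) {q | q.2 ∈ e.target} := by
  have h1 : MDifferentiableOn 𝓘(ℂ, ℂ × Cm n) 𝓘(ℂ, Cm n) (fun q : ℂ × Cm n => e.symm q.2)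
      {q | q.2 ∈ e.target} :=
    (df.symm e he).1.comp differentiable_snd.mdifferentiable.mdifferentiableOn fun q hq => hq
  exact a.hol.comp_mdifferentiableOn
    (differentiable_fst.mdifferentiable.mdifferentiableOn.prodMk h1)

theorem orb_at (df : DF n M) (a : Act0 T Φ N) {e : Chart n M} (he : Hc e) (σ : ℂ) {w : Cm n}
    (hw : w ∈ e.target) : MDifferentiableAt 𝓘(ℂ, Cm n) 𝓘(ℂ, Cm n) (orb Φ e σ) w :=
  (slice a σ _).comp w (Pinl.mda (df.symm e he).1 e.open_target hw)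

theorem orb_et (df : DF n M) (a : Act0 T Φ N) {e : Chart n M} (he : Hc e) (σ : ℂ) {w : Cm n}
    (hw : w ∈ e.target) : (jm (orb Φ e σ) w).det ≠ 0 :=
  df.comp e.symm w (Φ σ) (Φ (-σ)) (Pinl.mda (df.symm e he).1 e.open_target hw) (slice a σ)
    (slice a (-σ)) (neg_left a σ) ((df.symm e he).2.2 w hw)

variable {x : M} {ν : ℝ} {B : T.Tube (fun σ => Φ σ x) ν} {e : Chart n M}

theorem th_zero (a : Act0 T Φ N) {σ : ℂ} (hσ : σ ∈ ex B.ρ) : Th Φ B σ 0 = x := by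
  unfold Th
  rw [B.zero σ hσ, neg_left a]

theorem key (df : DF n M) (a : Act0 T Φ N) (he : Hc e) (hx : x ∈ e.source) (thb : Thb Φ B)
    {σ : ℂ} (hσ : σ ∈ ex B.ρ) (s : ℝ) (w : Cm n) :
    F.nv s (B.Ξ σ 0) (dn (B.Ξ σ) 0 w) = F.nv s (Φ σ x)
      (dn (orb Φ e σ) (e x) (fderiv ℂ (fun y => e (Th Φ B σ y)) 0 w)) := by
  obtain ⟨h1, h2, -, h4, -⟩ := thb.sl σ hσ
  have h5 := Pinl.mda h4 h1 h2
  have h6 := th_zero (B := B) a hσ
  have h7 := (df.ch _ 0 e h5 he (by rwa [h6])).1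
  have h8 : B.Ξ σ =ᶠ[𝓝 0] fun y => orb Φ e σ (e (Th Φ B σ y)) := by
    filter_upwards [h5.continuousAt.preimage_mem_nhds
      (e.open_source.mem_nhds (by rwa [h6] : Th Φ B σ 0 ∈ e.source))] with y hy
    unfold orb
    rw [e.left_inv hy]
    exact (neg_right a σ _).symm
  have h9 := (df.chain (orb Φ e σ) (fun y => e (Th Φ B σ y)) 0
    (by rw [h6]; exact orb_at df a he σ (e.map_source hx)) h7).2 w
  rw [h6] at h9
  rw [B.zero σ hσ, ← h9]
  unfold dn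
  rw [df.congr _ _ _ h8]

theorem surj {L : Cm n →L[ℂ] Cm n} (h : Function.Injective L) : Function.Surjective L :=
  (LinearMap.injective_iff_surjective (f := (L : Cm n →ₗ[ℂ] Cm n))).1 h

/-- an invariant covector does not have growth zero -/
theorem lio (hn : 1 ≤ n) (t : Tools T) (a : Act0 T Φ N) (he : Hc e) (hx : x ∈ e.source)
    (hne : ∃ σ, Φ σ x ≠ x) {α : Cm n} (hα : α ≠ 0) : ¬Up (lw F (orb Φ e) 0 (e x) α) 0 := by
  intro hup
  have hD : IsOpen {q : ℂ × Cm n | q.2 ∈ e.target} := e.open_target.preimage continuous_snd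
  have h1 := fun σ => t.sub.sub 0 le_rfl (orb Φ e) _ σ (e x) α hD (hp_orb t.df a he)
    (e.map_source hx) (orb_et t.df a he σ (e.map_source hx)) hα
  have h2 := t.th2.lio _ (contDiff_iff_contDiffAt.2 fun σ => (h1 σ).1) (fun σ => (h1 σ).2) hup
  obtain ⟨σ₀, hσ₀⟩ := hne
  obtain ⟨b, hb, hb'⟩ := T.sep _ _ hσ₀
  have hf : H1 n (fun σ => Φ σ x) univ := (curve a x).mdifferentiableOn
  have hs := (t.zc.sec b hb).1
  have h3 : Differentiable ℂ fun σ => b (Φ σ x) :=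
    differentiableOn_univ.1 (t.map.hol b _ _ hs hf)
  refine hb' ?_
  have h4 := is_const_of_deriv_eq_zero h3 (fun σ => ?_) σ₀ 0
  · rwa [a.zero] at h4
  have ho : ∀ s, orb Φ e s (e x) = Φ s x := fun s => by unfold orb; rw [e.left_inv hx]
  obtain ⟨κ, hκ, h5⟩ := t.sub.str (pc n (Φ σ x)) (t.all.a.chart _) {pc n (Φ σ x) (Φ σ x)}
    isCompact_singleton (by simp)
  have h6 := h5 (orb Φ e) _ σ (e x) α hD (hp_orb t.df a he) (e.map_source hx)
    (orb_et t.df a he σ (e.map_source hx)) hα (by rw [ho]; simp) (by rw [ho]; rfl)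
  rw [h2 σ] at h6
  simp only [ho] at h6
  have h7 : d1 n (fun σ => Φ σ x) σ = 0 := by
    have h8 : ‖d1 n (fun σ => Φ σ x) σ‖ ^ 2 ≤ 0 := nonpos_of_mul_nonpos_right h6 hκ
    simpa using h8
  have h9 := t.map.der (fun _ => b) _ univ (fun _ => hs) isOpen_univ hf σ (mem_univ _) ⟨0, hn⟩
  rw [h9, h7]
  simp

end Dm

open Dm

variable {n : ℕ} {M : Type} [MetricSpace M] [ChartedSpace (Cm n) M]
  [RiemannianBundle fun x : M => TangentSpace 𝓘(ℝ, Cm n) x] [MeasurableSpace M]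
  {μ : Measure M} {F : Flow n M} {T : F.TA μ}

theorem dm (hn : 1 ≤ n) (t : Tools T) : DM T := by
  intro Φ N W a e1 x hxW good e he hx ν B thb
  set L : ℂ → Cm n →L[ℂ] Cm n := fun σ => fderiv ℂ (fun y => e (Th Φ B σ y)) 0 with hL
  have hρ := B.ρ_ge
  have hε := B.ε_pos
  have hmet : ∀ η : ℝ, 0 < η → ∀ᶠ σ in cobounded ℂ, 1 ≤ ‖σ‖ ∧ ∀ w,
      ‖σ‖ ^ (-η) * wn B.k σ w ≤ F.nv 1 (Φ σ x) (dn (orb Φ e σ) (e x) (L σ w)) ∧
      F.nv 1 (Φ σ x) (dn (orb Φ e σ) (e x) (L σ w)) ≤ ‖σ‖ ^ η * wn B.k σ w := fun η hη => by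
    obtain ⟨ρ', h⟩ := B.met η hη
    filter_upwards [C.ex_mem ρ', C.ex_mem B.ρ] with σ h1 h2
    refine ⟨hρ.trans (le_of_lt h2), fun w => ?_⟩
    rw [← key t.df a he hx thb h2]
    exact h σ h1 0 (thb.sl σ h2).2.1 w
  -- the matrix is holomorphic
  have hhol : ∀ i j, DifferentiableOn ℂ (fun σ => mx (L σ) i j) (ex B.ρ) := fun i j σ hσ => by
    have h1 : IsOpen ({q : ℂ × Cm n | B.ρ < ‖q.1‖ ∧ q.2 ∈ Flow.sl B.k B.ε q.1} ∩
        (fun q : ℂ × Cm n => Th Φ B q.1 q.2) ⁻¹' e.source) :=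
      thb.hol.continuousOn.isOpen_inter_preimage thb.op e.open_source
    have h2 := mdifferentiableOn_iff_differentiableOn.1
      ((t.df.symm e he).2.1.comp (thb.hol.mono inter_subset_left) fun q hq => hq.2 :
        MDifferentiableOn 𝓘(ℂ, ℂ × Cm n) 𝓘(ℂ, Cm n) _
          ({q : ℂ × Cm n | B.ρ < ‖q.1‖ ∧ q.2 ∈ Flow.sl B.k B.ε q.1} ∩
            (fun q : ℂ × Cm n => Th Φ B q.1 q.2) ⁻¹' e.source))
    have h3 := part (G := fun s y => e (Th Φ B s y)) h1 h2 (σ := σ) (y := 0)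
      ⟨⟨hσ, (thb.sl σ hσ).2.1⟩, by
        show Th Φ B σ 0 ∈ e.source
        rwa [th_zero a hσ]⟩ (Pi.single j 1)
    simp only [mx_apply]
    exact (differentiableAt_pi.1 h3 i).differentiableWithinAt
  obtain ⟨C₁, hC₁⟩ := e1 e he x hxW hx
  obtain ⟨ρ₁, hρ₁⟩ := C.ev_iff.2 (hmet B.ε hε)
  obtain ⟨c, ρ₂, hc, hD⟩ := t.bdd.mat n (fun σ => mx (L σ)) (max ρ₁ B.ρ) (2 * √(|C₁| * n))
    (1 - B.ε / 2) (lt_max_of_lt_right (by linarith)) (by linarith)
    (fun i j => ⟨(hhol i j).mono (C.ex_mono (le_max_right _ _)), fun σ hσ => by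
      obtain ⟨h1, h2⟩ := hρ₁ σ (C.ex_mono (le_max_left _ _) hσ)
      have h0 : 0 < ‖σ‖ := by linarith
      have h3 := hC₁ σ (L σ (Pi.single j 1))
      have h4 := (h2 (Pi.single j 1)).2
      have h5 := wn_up h1 (fun i => (B.ε_lt i).le) (Pi.single j 1)
      rw [Pi.norm_single, norm_one, one_pow, mul_one] at h5
      have h6 := t.mt.nonneg 1 zero_le_one (Φ σ x) (dn (orb Φ e σ) (e x) (L σ (Pi.single j 1)))
      rw [mx_apply]
      refine (norm_le_pi_norm _ i).trans (abs_le_of_sq_le_sq' ?_ (by positivity)).2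
      calc ‖L σ (Pi.single j 1)‖ ^ 2 ≤ _ := h3
        _ ≤ |C₁| * (2 * ‖σ‖) ^ 2 * (‖σ‖ ^ B.ε * (n * ‖σ‖ ^ (-(2 * B.ε)))) := by
          gcongr
          · exact le_abs_self _
          · linarith
          · exact h4.trans (by gcongr)
        _ = (2 * √(|C₁| * n) * ‖σ‖ ^ (1 - B.ε / 2)) ^ 2 := by
          have e1 : (‖σ‖ ^ (1 - B.ε / 2)) ^ 2 = ‖σ‖ ^ 2 * (‖σ‖ ^ B.ε * ‖σ‖ ^ (-(2 * B.ε))) := by
            rw [← Real.rpow_natCast, ← Real.rpow_mul h0.le, ← Real.rpow_natCast,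
              ← Real.rpow_add h0, ← Real.rpow_add h0]
            congr 1
            push_cast
            ring
          rw [mul_pow (2 * √(|C₁| * n)), mul_pow 2 √(|C₁| * n), Real.sq_sqrt (by positivity), e1]
          ring⟩)
    (fun α hα ⟨C', ρ', h⟩ => lio hn t a he hx good.ne hα (C.up_iff.2 fun η hη => by
      obtain ⟨ρ₃, h3⟩ := thb.et
      filter_upwards [hmet η hη, C.ex_mem ρ', C.ex_mem ρ₃, C.ex_mem B.ρ,
        C.ev_const (Real.log (n ^ 2 * C' ^ 2 + 1)) (half_pos hη)] with σ h1 h2 h4 h5 h6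
      have h0 : 0 < ‖σ‖ := by linarith [h1.1]
      obtain ⟨s1, s2, -, s4, -⟩ := thb.sl σ h5
      have h7 : Function.Surjective (L σ) := surj ((t.df.ch _ 0 e (Pinl.mda s4 s1 s2) he
        (by rwa [th_zero a h5])).2.2.1 (h3 σ h4 0 s2).2)
      have hP := t.mt.pos 0 le_rfl _ _ (orb_et t.df a he σ (e.map_source hx))
      have h8 : hq (F.pull (orb Φ e σ) 0 (e x)) α ≤ (n ^ 2 * C' ^ 2 + 1) * ‖σ‖ ^ η := by
        refine t.mt.dual _ hP α _ (by positivity) fun v => ?_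
        obtain ⟨w, rfl⟩ := h7 v
        have ho : orb Φ e σ (e x) = Φ σ x := by unfold orb; rw [e.left_inv hx]
        rw [F.qf_pull, ho]
        have k1 := ((h1.2 w).1).trans (t.mt.anti 0 1 le_rfl zero_le_one _ _)
        have k2 := wn_low h1.1 B.k_le w
        have k3 := Pinl.dot_le (α ᵥ* mx (L σ)) w
        rw [← Matrix.dotProduct_mulVec, mx_mulVec] at k3
        have k4 : ‖α ᵥ* mx (L σ)‖ ≤ C' / ‖σ‖ := by
          rw [le_div_iff₀ h0]; exact h σ h2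
        have k5 : ‖σ‖ ^ (-(2 * (1 : ℝ))) = (‖σ‖ ^ 2)⁻¹ := by
          rw [Real.rpow_neg h0.le, mul_one, Real.rpow_two]
        have k6 : ‖σ‖ ^ η * ‖σ‖ ^ (-η) = 1 := by
          rw [← Real.rpow_add h0]; simp
        calc ‖α ⬝ᵥ L σ w‖ ^ 2 ≤ (n * (C' / ‖σ‖ * ‖w‖)) ^ 2 :=
              pow_le_pow_left₀ (norm_nonneg _) (k3.trans (by gcongr)) 2
          _ = n ^ 2 * C' ^ 2 * ((‖σ‖ ^ 2)⁻¹ * ‖w‖ ^ 2) := by field_simp
          _ ≤ (n ^ 2 * C' ^ 2 + 1) * wn B.k σ w := by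
              rw [← k5]
              gcongr
              linarith
          _ = (n ^ 2 * C' ^ 2 + 1) * ‖σ‖ ^ η * (‖σ‖ ^ (-η) * wn B.k σ w) := by
              rw [mul_assoc, ← mul_assoc (‖σ‖ ^ η), k6, one_mul]
          _ ≤ _ := by gcongr
      have h9 : 0 < hq (F.pull (orb Φ e σ) 0 (e x)) α := by
        simpa [hq] using (hP.inv.dotProduct_mulVec_pos hα).1
      have h10 := Real.log_le_log h9 h8
      rw [Real.log_mul (by positivity) (by positivity), Real.log_rpow h0] at h10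
      rw [C.lg_eq] at h6 ⊢
      unfold lw
      linarith))
  simp only [mx_mulVec] at hD
  refine ⟨⟨c, ρ₂, hc, hD⟩, fun κ hκ => ?_⟩
  obtain ⟨η, hη, hη'⟩ : ∃ η : ℝ, 0 < η ∧ ∀ i, κ + η / 2 ≤ B.k i := by
    have : ∀ᶠ η : ℝ in 𝓝[>] 0, ∀ i, κ + η / 2 ≤ B.k i := eventually_all.2 fun i =>
      nhdsWithin_le_nhds
        (((by fun_prop : Continuous fun η : ℝ => κ + η / 2).continuousAt.eventually_lt
          continuousAt_const (by simpa using hκ i)).mono fun _ h => h.le)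
    exact (this.and self_mem_nhdsWithin).exists.imp fun η h => ⟨h.2, h.1⟩
  obtain ⟨ρ₄, hρ₄⟩ := C.ev_iff.2 (hmet η hη)
  obtain ⟨m, hm⟩ := exists_nat_ge (max (max ρ₂ ρ₄) (n / c ^ 2))
  refine ⟨m, fun σ hσ v => ?_⟩
  have h1 := hD σ (C.ex_mono (((le_max_left _ _).trans (le_max_left _ _)).trans hm) hσ)
  obtain ⟨h2, h3⟩ := hρ₄ σ (C.ex_mono (((le_max_right _ _).trans (le_max_left _ _)).trans hm) hσ)
  have h0 : 0 < ‖σ‖ := by linarith
  have h4 : Function.Injective (L σ) := (injective_iff_map_eq_zero _).2 fun w hw => by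
    have := (h1 w).1
    rw [hw, norm_zero] at this
    exact norm_le_zero_iff.1 (nonpos_of_mul_nonpos_right this hc)
  obtain ⟨w, rfl⟩ := surj h4 v
  have ho : orb Φ e σ (e x) = Φ σ x := by unfold orb; rw [e.left_inv hx]
  rw [ho]
  have h5 : ‖w‖ ≤ ‖L σ w‖ / c := by
    rw [le_div_iff₀ hc, mul_comm]; exact (h1 w).1
  calc F.nv 1 (Φ σ x) (dn (orb Φ e σ) (e x) (L σ w)) ≤ ‖σ‖ ^ η * wn B.k σ w := (h3 w).2
    _ ≤ ‖σ‖ ^ η * (n * (‖σ‖ ^ (-(2 * (κ + η / 2))) * (‖L σ w‖ / c) ^ 2)) := by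
        refine mul_le_mul_of_nonneg_left ((wn_up h2 hη' w).trans ?_) (by positivity)
        gcongr
    _ = n / c ^ 2 * (‖σ‖ ^ η * ‖σ‖ ^ (-(2 * (κ + η / 2)))) * ‖L σ w‖ ^ 2 := by field_simp
    _ = n / c ^ 2 * ‖σ‖ ^ (-(2 * κ)) * ‖L σ w‖ ^ 2 := by
        rw [← Real.rpow_add h0]
        congr 3
        ring
    _ ≤ _ := by
        gcongr
        exact (le_max_right _ _).trans hm

end Vale.Agent.P253W.D
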