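import Vale.Agent.P253W.D.Spec

/-!
# P253W, block D: the row DSC
-/

open scoped Manifold ContDiff Bundle ENNReal Topology Matrix ComplexOrder
open Bundle IsManifold MeasureTheory Set Metric Filter Vale.Agent.P253.Mfd Vale.Agent.P253Z
open Vale.Agent.P272.K (Cm jacM Chart)
open Vale.Agent.P253W.C (ex)

noncomputable section

namespace Vale.Agent.P253W.D

variable {n : ℕ} {M : Type} [MetricSpace M] [ChartedSpace (Cm n) M]
  [RiemannianBundle fun x : M => TangentSpace 𝓘(ℝ, Cm n) x] [MeasurableSpace M]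
  {μ : Measure M} {F : Flow n M} {T : F.TA μ}

namespace Dsc

/-- a disc whose annulus lies in a tiny part of a chart, and the maximum principle -/
theorem core (tl : F.TL) (t : Tools T) : ∃ c : ℝ, 0 < c ∧ ∀ (l L δ R : ℝ) (Ψ : Cm n → M)
    (a : Fin n → ℝ) (f : ℂ → M), 0 < l → 0 < δ → δ ≤ 1 / 4 → L * δ ^ 2 ≤ c * l →
    Hn Ψ (ball 0 1) → InjOn Ψ (ball 0 1) →
    (∀ w ∈ ball (0 : Cm n) 1, ∀ v, l * ‖v‖ ^ 2 ≤ F.nv 1 (Ψ w) (dn Ψ w v) ∧
      F.nv 1 (Ψ w) (dn Ψ w v) ≤ L * ‖v‖ ^ 2) → H1 n f (ball 0 3) →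
    (∀ τ : ℂ, 1 / 3 < ‖τ‖ → ‖τ‖ < 3 →
      ∃ w, ‖w‖ ≤ δ ∧ Ψ w = f τ ∧ ‖fun i => (a i : ℂ) * w i‖ ≤ R) →
    ∃ w, Ψ w = f 0 ∧ ‖fun i => (a i : ℂ) * w i‖ ≤ R := by
  obtain ⟨c, hc, htl⟩ := tl
  refine ⟨c, hc, fun l L δ R Ψ a f hl hδ hδ4 hL hΨ hi hm hf hw => ?_⟩
  let w : ℂ → Cm n := fun τ => Function.invFunOn Ψ (ball 0 1) (f τ)
  have h1 : ∀ τ : ℂ, 1 / 3 < ‖τ‖ → ‖τ‖ < 3 →
      ‖w τ‖ ≤ δ ∧ Ψ (w τ) = f τ ∧ ‖fun i => (a i : ℂ) * w τ i‖ ≤ R := fun τ h h' => by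
    obtain ⟨v, hv, e, hR⟩ := hw τ h h'
    have : w τ = v := by
      simp only [w, ← e]
      exact hi.leftInvOn_invFunOn (mem_ball_zero_iff.2 (by linarith))
    rw [this]
    exact ⟨hv, e, hR⟩
  have h2 : ∀ S : Set ℂ, IsOpen S → S ⊆ ball 0 3 → (∀ τ ∈ S, f τ ∈ Ψ '' ball 0 1) →
      DifferentiableOn ℂ w S := fun S hS hS3 h =>
    t.inv ℂ (fun _ => Ψ) {q | q.2 ∈ ball 0 1} f S w (isOpen_ball.preimage continuous_snd)
      (hΨ.comp differentiable_snd.mdifferentiable.mdifferentiableOn fun _ hq => hq)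
      (fun q hq => t.mt.et 1 l Ψ q.2 hl fun v => (hm _ hq v).1) hS (hf.mono hS3)
      (fun τ hτ => Function.invFunOn_pos (h τ hτ)) (Or.inr fun _ _ => hi)
  have h3 : ∀ τ : ℂ, 1 / 3 < ‖τ‖ → ‖τ‖ < 3 → f τ ∈ Ψ '' ball 0 1 := fun τ h h' =>
    ⟨w τ, mem_ball_zero_iff.2 (by linarith [(h1 τ h h').1]), (h1 τ h h').2.1⟩
  have h4 := htl 1 l L δ Ψ f w one_pos hl hδ hδ4 hL hΨ hi hm hf
    (h2 _ ((isOpen_lt continuous_const continuous_norm).inter
      (isOpen_lt continuous_norm continuous_const)) (fun τ h => mem_ball_zero_iff.2 h.2)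
      fun τ h => h3 τ h.1 h.2) fun τ h h' => ⟨(h1 τ h h').1, (h1 τ h h').2.1.symm⟩
  have h5 : ∀ τ ∈ ball (0 : ℂ) 3, f τ ∈ Ψ '' ball 0 1 := fun τ hτ => by
    rcases le_or_gt ‖τ‖ 1 with h | h
    · exact image_mono (closedBall_subset_ball (by norm_num)) (h4 τ (mem_closedBall_zero_iff.2 h))
    · exact h3 τ (by linarith) (mem_ball_zero_iff.1 hτ)
  have h6 := h2 _ isOpen_ball subset_rfl h5
  refine ⟨w 0, Function.invFunOn_eq (h5 0 (mem_ball_self (by norm_num))), ?_⟩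
  have h7 : DifferentiableOn ℂ (fun τ i => (a i : ℂ) * w τ i) (ball 0 3) :=
    differentiableOn_pi.2 fun i => (differentiableOn_pi.1 h6 i).const_mul _
  refine Complex.norm_le_of_forall_mem_frontier_norm_le (U := ball (0 : ℂ) 1) isBounded_ball
    (f := fun τ i => (a i : ℂ) * w τ i) (DifferentiableOn.diffContOnCl (h7.mono ?_))
    (fun τ hτ => ?_) (subset_closure (mem_ball_self one_pos))
  · exact closure_ball_subset_closedBall.trans (closedBall_subset_ball (by norm_num))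
  · have : ‖τ‖ = 1 := by simpa using frontier_ball_subset_sphere hτ
    exact (h1 τ (by rw [this]; norm_num) (by rw [this]; norm_num)).2.2

end Dsc

theorem dsc' (tl : F.TL) (t : Tools T) : DSC T := by
  intro D Θ hΘ f R hf hk
  obtain ⟨c, hc, core⟩ := Dsc.core tl t
  obtain ⟨κ, -, hκ, hκk, -⟩ := D.thb.big
  obtain ⟨ρ, hρ⟩ := D.thb.scl (κ / 2) (by positivity)
  set R' := max R 1 with hR'
  have hR1 : 0 < R' := one_pos.trans_le (le_max_right _ _)
  have h0 : Tendsto (fun k : ℕ => (k : ℝ) ^ (-κ)) uf (𝓝 0) :=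
    ((tendsto_rpow_neg_atTop hκ).comp tendsto_natCast_atTop_atTop).mono_left
      Nat.hyperfilter_le_atTop
  have hΦ : ∀ σ x, D.Φ (-σ) (D.Φ σ x) = x := fun σ x => by
    rw [← D.act.add, neg_add_cancel, D.act.zero]
  have key : ∀ᶠ k : ℕ in uf, ∃ b ∈ closedBall (0 : Cm n) R', Th D.Φ D.B k b = f 0 := by
    filter_upwards [hk, h0.eventually_le_const (show 0 < 1 / (4 * R') by positivity),
      h0.eventually_le_const (show 0 < c / R' ^ 2 by positivity),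
      Nat.hyperfilter_le_atTop (tendsto_natCast_atTop_atTop.eventually_gt_atTop (max ρ 1))]
      with k h1 h2 h3 h4
    have hn : ‖(k : ℂ)‖ = k := Complex.norm_natCast k
    have hk1 : (1 : ℝ) < k := (le_max_right _ _).trans_lt h4
    have hk0 : (0 : ℝ) < k := one_pos.trans hk1
    obtain ⟨s1, s2, s3⟩ := hρ k (show ρ < ‖(k : ℂ)‖ from hn ▸ (le_max_left _ _).trans_lt h4)
    obtain ⟨w, e, hw⟩ := core _ _ (R' * k ^ (-κ)) R' (scl D.B k)
      (fun i => ‖(k : ℂ)‖ ^ (D.B.k i - D.B.ε)) (fun τ => D.Φ k (f τ))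
      (by rw [hn]; positivity) (by positivity) (by
        rw [le_div_iff₀ (by positivity)] at h2
        linarith) (by
        rw [le_div_iff₀ (by positivity)] at h3
        have e1 : (k : ℝ) ^ (κ / 2 - 2 * D.B.ε) * k ^ (-κ) = k ^ (-(κ / 2) - 2 * D.B.ε) := by
          rw [← Real.rpow_add hk0]
          congr 1
          ring
        rw [hn, ← e1]
        have : 0 ≤ (k : ℝ) ^ (κ / 2 - 2 * D.B.ε) * k ^ (-κ) := by positivity
        nlinarith) s1 s2 (fun w hw => (s3 w hw).2)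
      (D.act.hol.comp_mdifferentiableOn (mdifferentiableOn_const.prodMk hf)) fun τ h h' => by
        obtain ⟨y, hy, e⟩ := h1 τ h h'
        have hy' : ‖y‖ ≤ R' := (mem_ball_zero_iff.1 hy).le.trans (le_max_left _ _)
        have e2 : (fun i => ((‖(k : ℂ)‖ ^ (D.B.k i - D.B.ε) : ℝ) : ℂ) *
            ((((k : ℝ) ^ (-(D.B.k i - D.B.ε)) : ℝ) : ℂ) * y i)) = y := by
          funext i
          rw [← mul_assoc, ← Complex.ofReal_mul, hn, ← Real.rpow_add hk0]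
          simp
        refine ⟨fun i => (((k : ℝ) ^ (-(D.B.k i - D.B.ε)) : ℝ) : ℂ) * y i, ?_, ?_, e2.symm ▸ hy'⟩
        · refine (pi_norm_le_iff_of_nonneg (by positivity)).2 fun i => ?_
          rw [norm_mul, Complex.norm_real, Real.norm_of_nonneg (by positivity), mul_comm]
          exact mul_le_mul ((norm_le_pi_norm y i).trans hy')
            (Real.rpow_le_rpow_of_exponent_le hk1.le (neg_le_neg (hκk i))) (by positivity) hR1.le
        · have e3 := hΦ (-k) (D.B.Ξ k y)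
          rw [neg_neg] at e3
          rw [scl, e2, ← e, Th, e3]
    refine ⟨_, mem_closedBall_zero_iff.2 hw, ?_⟩
    rw [← hΦ k (f 0), ← e]
    rfl
  obtain ⟨b, hb⟩ := key.choice
  obtain ⟨b₀, -, hb₀⟩ := (isCompact_closedBall (0 : Cm n) R').ultrafilter_le_nhds'
    ((hyperfilter ℕ).map b) (hb.mono fun k h => h.1)
  have h1 := hΘ.lim.tendsto_comp (hΘ.hol.continuousOn.continuousAt univ_mem) hb₀
  exact ⟨b₀, tendsto_nhds_unique h1 (tendsto_const_nhds.congr' (hb.mono fun k h => h.2.symm))⟩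

theorem dsc [IsManifold 𝓘(ℝ, Cm n) ∞ M] [ConnectedSpace M] [NoncompactSpace M] {A : Fam F}
    (p : P3 A T) (t : Tools T) : DSC T := dsc' p.tl t

end Vale.Agent.P253W.D
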