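import Vale.Agent.P253W.D.Spec

/-!
# P253W, row D.EE: invariant vectors do not decay fast
-/

open scoped Manifold ContDiff Bundle ENNReal Topology Matrix ComplexOrder
open Bundle IsManifold MeasureTheory Set Metric Filter Vale.Agent.P253.Mfd Vale.Agent.P253Z
open Vale.Agent.P272.K (Cm jacM Chart)
open Vale.Agent.P272.GJ (ddb)

noncomputable section

namespace Vale.Agent.P253W.D

namespace Ee

theorem hq_pos {n : ℕ} {P : Mx n} (hP : P.PosDef) {α : Cm n} (h : α ≠ 0) : 0 < hq P α :=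
  (Complex.pos_iff.1 (hP.inv.dotProduct_mulVec_pos h)).1

/-- `log hq` is continuous at positive matrices -/
theorem lhq_cont {n : ℕ} {P : Mx n} (hP : P.PosDef) {α : Cm n} (h : α ≠ 0) :
    ContinuousAt (fun Q : Mx n => Real.log (hq Q α)) P := by
  have h1 : ContinuousAt (Inv.inv : Mx n → Mx n) P := by
    apply continuousAt_matrix_inv
    rw [Ring.inverse_eq_inv']
    exact continuousAt_inv₀ hP.det_pos.ne'
  have h2 : Continuous fun Q : Mx n => (star α ⬝ᵥ (Q *ᵥ α)).re := by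
    unfold Matrix.mulVec dotProduct
    fun_prop
  exact (h2.continuousAt.comp h1).log (hq_pos hP h).ne'

variable {n : ℕ} {M : Type} [MetricSpace M] [ChartedSpace (Cm n) M]
  [RiemannianBundle fun x : M => TangentSpace 𝓘(ℝ, Cm n) x] [MeasurableSpace M]
  {F : Flow n M} {μ : Measure M} {T : F.TA μ}

omit [RiemannianBundle fun x : M => TangentSpace 𝓘(ℝ, Cm n) x] [MeasurableSpace M] in
/-- a holomorphic action in a chart -/
theorem hp_orb (df : DF n M) {Φ : ℂ → M → M}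
    (h : MDifferentiable (𝓘(ℂ, ℂ).prod 𝓘(ℂ, Cm n)) 𝓘(ℂ, Cm n) fun q : ℂ × M => Φ q.1 q.2)
    {e : Chart n M} (he : Hc e) : HP (orb Φ e) (univ ×ˢ e.target) := by
  have h1 : MDifferentiableOn 𝓘(ℂ, ℂ × Cm n) 𝓘(ℂ, Cm n) (fun q : ℂ × Cm n => e.symm q.2)
      (univ ×ˢ e.target) :=
    (df.symm e he).1.comp (differentiable_snd.mdifferentiable.mdifferentiableOn) fun q hq => hq.2
  have h2 : MDifferentiableOn 𝓘(ℂ, ℂ × Cm n) 𝓘(ℂ, ℂ) (fun q : ℂ × Cm n => q.1)
      (univ ×ˢ e.target) := differentiable_fst.mdifferentiable.mdifferentiableOn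
  exact h.comp_mdifferentiableOn (h2.prodMk h1)

omit [RiemannianBundle fun x : M => TangentSpace 𝓘(ℝ, Cm n) x] [MeasurableSpace M] in
/-- the maps of a holomorphic action are holomorphic -/
theorem slice {Φ : ℂ → M → M}
    (h : MDifferentiable (𝓘(ℂ, ℂ).prod 𝓘(ℂ, Cm n)) 𝓘(ℂ, Cm n) fun q : ℂ × M => Φ q.1 q.2)
    (σ : ℂ) : MDifferentiable 𝓘(ℂ, Cm n) 𝓘(ℂ, Cm n) (Φ σ) :=
  h.comp (mdifferentiable_const.prodMk mdifferentiable_id)

/-- the translations in a chart -/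
def En (X : Ex T) (v : ℕ → Cm n) (e : Chart n M) (k : ℕ) (σ : ℂ) (w : Cm n) : M :=
  X.tr v k σ (e.symm w)

/-- the part of the chart near `p` -/
def Un (X : Ex T) (e : Chart n M) : Set (Cm n) := e.target ∩ e.symm ⁻¹' ball X.p 1

theorem un_op (X : Ex T) (e : Chart n M) : IsOpen (Un X e) :=
  e.isOpen_inter_preimage_symm isOpen_ball

/-- the section is small and holomorphic -/
def Ok (X : Ex T) (k : ℕ) : Prop :=
  MDifferentiableOn 𝓘(ℂ, Cm n) 𝓘(ℂ, Cm n) (X.s k) (ball X.p 1) ∧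
    ∀ x ∈ ball X.p 1, X.Ψ k (X.s k x) = x ∧ ‖X.s k x‖ ≤ 1 / 2

theorem ok (X : Ex T) : ∀ᶠ k in atTop, Ok X k :=
  (X.sec 1 (1 / 2) (by norm_num)).mono fun _ h => h.2

theorem s_diff (df : DF n M) {X : Ex T} {k : ℕ} (h : Ok X k) {e : Chart n M} (he : Hc e) :
    DifferentiableOn ℂ (fun w => X.s k (e.symm w)) (Un X e) :=
  mdifferentiableOn_iff_differentiableOn.1
    (h.1.comp ((df.symm e he).1.mono inter_subset_left) fun _ hw => hw.2)

theorem mem {X : Ex T} {k : ℕ} (h : Ok X k) {v : Cm n} {R : ℝ} (hR : R * ‖v‖ ≤ 1 / 2) {σ : ℂ}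
    (hσ : σ ∈ ball (0 : ℂ) R) (hv : 0 < ‖v‖) {x : M} (hx : x ∈ ball X.p 1) :
    X.s k x + σ • v ∈ ball (0 : Cm n) 1 := by
  rw [mem_ball_zero_iff] at hσ ⊢
  have h1 := norm_add_le (X.s k x) (σ • v)
  have h2 := mul_lt_mul_of_pos_right hσ hv
  rw [norm_smul] at h1
  linarith [(h.2 x hx).2]

theorem hp_en (df : DF n M) {X : Ex T} {k : ℕ} (h : Ok X k) {v : ℕ → Cm n} {R : ℝ}
    (hR : R * ‖v k‖ ≤ 1 / 2) (hv : 0 < ‖v k‖) {e : Chart n M} (he : Hc e) :
    HP (En X v e k) (ball 0 R ×ˢ Un X e) := by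
  have h1 : DifferentiableOn ℂ (fun q : ℂ × Cm n => X.s k (e.symm q.2) + q.1 • v k)
      (ball 0 R ×ˢ Un X e) :=
    ((s_diff df h he).comp differentiableOn_snd fun q hq => hq.2).add
      (differentiableOn_fst.smul_const _)
  exact (X.ch.hol k).comp (mdifferentiableOn_iff_differentiableOn.2 h1)
    fun q hq => mem h hR hq.1 hv hq.2.2

/-- the lower bound for the metric along the translations -/
theorem low (t : Tools T) (X : Ex T) {v : ℕ → Cm n} {W : Set M} (hD : X.Dir v W) {e : Chart n M}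
    (he : Hc e) {x : M} (hx : x ∈ W) (hs : x ∈ e.source) : ∃ c : ℝ, 0 < c ∧ ∀ᶠ k in atTop,
    ∀ R : ℝ, R * ‖v k‖ ≤ 1 / 2 → ∀ σ ∈ ball (0 : ℂ) R, ∀ u,
      c * ‖v k‖ ^ 2 * ‖u‖ ^ 2 ≤ F.nv 1 (En X v e k σ (e x)) (dn (En X v e k σ) (e x) u) := by
  obtain ⟨C, hC⟩ := hD.fast
  obtain ⟨c', -, hc'⟩ := hD.small
  have hw := e.map_source hs
  obtain ⟨c, hc, h1⟩ := t.mt.cmp 0 le_rfl e he {e x} isCompact_singleton (by simpa using hw)
  have hl := X.ch.l_pos
  have hL := hl.trans_le X.ch.l_le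
  have hm : 0 < max C 1 := lt_max_of_lt_right one_pos
  refine ⟨c * X.l / (max C 1 * X.L), by positivity, ?_⟩
  filter_upwards [ok X, hC, hc'] with k hk hf hv R hR σ hσ u
  have hx1 := hD.sub hx
  have hxu : e x ∈ Un X e := ⟨hw, by simpa [e.left_inv hs] using hx1⟩
  have hn := (un_op X e).mem_nhds hxu
  have hd := (s_diff t.df hk he).differentiableAt hn
  have tk0 : (1 : ℝ) ≤ tk k := by unfold tk; linarith [Nat.cast_nonneg (α := ℝ) k]
  set a := fderiv ℂ (fun w => X.s k (e.symm w)) (e x) u with ha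
  have hP : ∀ y ∈ ball (0 : Cm n) 1, MDifferentiableAt 𝓘(ℂ, Cm n) 𝓘(ℂ, Cm n) (X.Ψ k) y :=
    fun y hy => (X.ch.hol k).mdifferentiableAt (isOpen_ball.mem_nhds hy)
  have hy0 : X.s k x ∈ ball (0 : Cm n) 1 := by
    rw [mem_ball_zero_iff]; linarith [(hk.2 x hx1).2]
  have hy := mem hk hR hσ hv.1 hx1
  -- the differential of the translation
  have e1 : dn (En X v e k σ) (e x) u = dn (X.Ψ k) (X.s k x + σ • v k) a := by
    have := (t.df.chain (X.Ψ k) (fun w => X.s k (e.symm w) + σ • v k) (e x)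
      (by simpa [e.left_inv hs] using hP _ hy) (hd.add_const _)).2 u
    rw [fderiv_add_const, e.left_inv hs] at this
    exact this
  have e2 : dn e.symm (e x) u = dn (X.Ψ k) (X.s k x) a := by
    have := (t.df.chain (X.Ψ k) (fun w => X.s k (e.symm w)) (e x)
      (by simpa [e.left_inv hs] using hP _ hy0) hd).2 u
    rw [e.left_inv hs] at this
    rw [← this]
    unfold dn
    rw [t.df.congr e.symm (fun w => X.Ψ k (X.s k (e.symm w))) (e x)]
    filter_upwards [hn] with w hw' using (hk.2 _ hw'.2).1.symm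
  have e3 : En X v e k σ (e x) = X.Ψ k (X.s k x + σ • v k) := by
    simp [En, Ex.tr, e.left_inv hs]
  have i1 := ((X.ch.met k _ hy a).1).trans (t.mt.anti 1 (tk k) zero_le_one tk0 _ _)
  have i2 := (X.ch.met k _ hy0 a).2
  rw [(hk.2 x hx1).1, ← e2] at i2
  have i3 := hf x hx (dn e.symm (e x) u)
  have i4 := t.mt.symm 0 le_rfl e he _ hw u
  rw [e.left_inv hs] at i4
  have i5 := (h1 _ rfl u).1
  rw [← i4] at i5
  have i6 := t.mt.nonneg (tk k) (by linarith) x (dn e.symm (e x) u)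
  have i7 : c * ‖v k‖ ^ 2 * ‖u‖ ^ 2 ≤ max C 1 * (X.L * ‖a‖ ^ 2) := by
    calc _ = ‖v k‖ ^ 2 * (c * ‖u‖ ^ 2) := by ring
      _ ≤ _ := mul_le_mul_of_nonneg_left i5 (sq_nonneg _)
      _ ≤ _ := i3
      _ ≤ _ := mul_le_mul (le_max_left _ _) i2 i6 hm.le
  rw [e1, e3]
  refine le_trans ?_ i1
  rw [div_mul_eq_mul_div, div_mul_eq_mul_div, div_le_iff₀ (by positivity)]
  nlinarith [mul_le_mul_of_nonneg_left i7 hl.le]

theorem v_zero (t : Tools T) (X : Ex T) {v : ℕ → Cm n} {W : Set M} (hD : X.Dir v W) :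
    Tendsto (fun k => ‖v k‖) atTop (𝓝 0) ∧ ∀ᶠ k in atTop, 0 < ‖v k‖ := by
  obtain ⟨c, hc, h⟩ := hD.small
  refine ⟨squeeze_zero' (h.mono fun _ h => h.1.le) (h.mono fun _ h => h.2) ?_,
    h.mono fun _ h => h.1⟩
  exact Real.tendsto_exp_neg_atTop_nhds_zero.comp ((t.uh X.p).2.1.const_mul_atTop hc)

theorem uf_le : uf ≤ atTop := Nat.cofinite_eq_atTop ▸ hyperfilter_le_cofinite

/-- convergence of the pull-backs -/
theorem cv (t : Tools T) (X : Ex T) {v : ℕ → Cm n} {W : Set M} (hD : X.Dir v W) {Φ : ℂ → M → M}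
    (hΦ : X.Lim v Φ) {e : Chart n M} (he : Hc e) {w : Cm n} (hw : w ∈ Un X e) {s : ℕ → ℂ}
    {σ : ℂ} (hs : Tendsto s uf (𝓝 σ)) :
    Tendsto (fun k => F.pull (En X v e k (s k)) 1 w) uf (𝓝 (F.pull (orb Φ e σ) 1 w)) := by
  obtain ⟨h0, h1⟩ := v_zero t X hD
  have h2 : ∀ᶠ k in atTop, (‖σ‖ + 1) * ‖v k‖ ≤ 1 / 2 :=
    (h0.const_mul (‖σ‖ + 1)).eventually_le_const (by norm_num)
  refine t.conv 1 zero_le_one ℕ uf (En X v e) (orb Φ e) (ball 0 (‖σ‖ + 1) ×ˢ Un X e)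
    (fun k => (s k, w)) (σ, w) (isOpen_ball.prod (un_op X e)) ?_
    ((hp_orb t.df hΦ.hol he).mono (prod_mono (subset_univ _) inter_subset_left)) ?_
    ⟨by simp, hw⟩ (hs.prodMk_nhds tendsto_const_nhds)
  · apply uf_le
    filter_upwards [ok X, h1, h2] with k a b c using hp_en t.df a c b he
  · exact (tendstoLocallyUniformlyOn_univ.2 hΦ.lim).comp (fun q : ℂ × Cm n => (q.1, e.symm q.2))
      (mapsTo_univ _ _) (continuousOn_fst.prodMk
        (e.continuousOn_symm.comp continuousOn_snd fun q hq => hq.2.1))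

theorem one (t : Tools T) (X : Ex T) {v : ℕ → Cm n} {W : Set M} (hD : X.Dir v W) {Φ : ℂ → M → M}
    (hΦ : X.Lim v Φ) {N : ℕ} (hA : Act0 T Φ N) {e : Chart n M} (he : Hc e) {x : M} (hx : x ∈ W)
    (hs : x ∈ e.source) (i : Fin n) : ∃ C : ℝ, 0 ≤ C ∧ ∀ σ : ℂ,
      (F.pull (orb Φ e σ) 1 (e x)).PosDef ∧
      hq (F.pull (orb Φ e σ) 1 (e x)) (Pi.single i 1) ≤ C * (1 + ‖σ‖) ^ 2 := by
  have hw := e.map_source hs
  have hxu : e x ∈ Un X e := ⟨hw, by simpa [e.left_inv hs] using hD.sub hx⟩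
  have hα : (Pi.single i 1 : Cm n) ≠ 0 := by simp
  have et : ∀ σ, (jm (orb Φ e σ) (e x)).det ≠ 0 := fun σ =>
    t.df.comp e.symm (e x) (Φ σ) (Φ (-σ))
      ((t.df.symm e he).1.mdifferentiableAt (e.open_target.mem_nhds hw)) (slice hA.hol σ)
      (slice hA.hol _) (fun y => by rw [← hA.add, neg_add_cancel, hA.zero])
      ((t.df.symm e he).2.2 _ hw)
  have pd : ∀ σ, (F.pull (orb Φ e σ) 1 (e x)).PosDef := fun σ =>
    t.mt.pos 1 zero_le_one _ _ (et σ)
  set w₀ := lw F (orb Φ e) 1 (e x) (Pi.single i 1) with hw₀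
  set w := fun k => lw F (En X v e k) 1 (e x) (Pi.single i 1) with hwk
  have c0 : Continuous w₀ := continuous_iff_continuousAt.2 fun σ =>
    (t.sub.sub 1 zero_le_one _ _ σ _ _ (isOpen_univ.prod e.open_target) (hp_orb t.df hA.hol he)
      ⟨trivial, hw⟩ (et σ) hα).1.continuousAt
  have lim : ∀ (s : ℕ → ℂ) (σ : ℂ), Tendsto s uf (𝓝 σ) →
      Tendsto (fun k => w k (s k)) uf (𝓝 (w₀ σ)) := fun s σ h =>
    (lhq_cont (pd σ) hα).tendsto.comp (cv t X hD hΦ he hxu h)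
  obtain ⟨A, hA0⟩ := (isCompact_sphere (0 : ℂ) 1).bddAbove_image c0.continuousOn
  have circ : ∀ᶠ k in uf, ∀ σ ∈ sphere (0 : ℂ) 1, w k σ ≤ A + 1 := by
    by_contra hn
    have h1 := Ultrafilter.eventually_not.2 hn
    have h2 : ∀ k, ∃ σ ∈ sphere (0 : ℂ) 1,
        (¬∀ σ ∈ sphere (0 : ℂ) 1, w k σ ≤ A + 1) → A + 1 < w k σ := fun k => by
      by_cases h : ∀ σ ∈ sphere (0 : ℂ) 1, w k σ ≤ A + 1
      · exact ⟨1, by simp, fun h' => absurd h h'⟩
      · push Not at h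
        obtain ⟨σ, a, b⟩ := h
        exact ⟨σ, a, fun _ => b⟩
    choose s hs1 hs2 using h2
    obtain ⟨σ, hσ, h3⟩ := (isCompact_sphere (0 : ℂ) 1).ultrafilter_le_nhds
      ((hyperfilter ℕ).map s) (le_principal_iff.2 (mem_map.2 (univ_mem' hs1)))
    have h4 := ge_of_tendsto (lim s σ h3) (h1.mono fun k hk => (hs2 k hk).le)
    linarith [hA0 (mem_image_of_mem _ hσ)]
  obtain ⟨c, hc, hl⟩ := low t X hD he hx hs
  obtain ⟨h0, h1⟩ := v_zero t X hD
  refine ⟨Real.exp (A + 2), (Real.exp_pos _).le, fun σ => ⟨pd σ, ?_⟩⟩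
  set m := max ‖σ‖ 1 with hm
  have m1 : 1 ≤ m := le_max_right _ _
  have lm := Real.log_nonneg m1
  set b := |Real.log (16 / c) - (A + 1)| with hb
  have hS : Tendsto (fun k => 1 / (4 * ‖v k‖)) atTop atTop := by
    simp only [one_div]
    refine tendsto_inv_nhdsGT_zero.comp (tendsto_nhdsWithin_iff.2 ⟨?_, ?_⟩)
    · simpa using h0.const_mul 4
    · exact h1.mono fun k hk => by simpa using hk
  have key : ∀ᶠ k in uf, w k σ ≤ A + 2 + 2 * Real.log m := by
    filter_upwards [circ, uf_le (ok X), uf_le hl, uf_le h1, uf_le (hS.eventually_gt_atTop m),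
      uf_le ((Real.tendsto_log_atTop.comp hS).eventually_ge_atTop (b * Real.log m))]
      with k k1 k2 k3 k4 k5 k6
    set S := 1 / (4 * ‖v k‖) with hSd
    have k4' : 0 < ‖v k‖ := k4
    have S1 : 1 < S := m1.trans_lt k5
    have lS := Real.log_pos S1
    have hR : 2 * S * ‖v k‖ ≤ 1 / 2 := by rw [hSd]; field_simp; norm_num
    have hin : ∀ τ ∈ closedBall (0 : ℂ) S, τ ∈ ball (0 : ℂ) (2 * S) :=
      fun τ hτ => closedBall_subset_ball (by linarith) hτ
    have cp : 0 < c * ‖v k‖ ^ 2 := by positivity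
    have etk : ∀ τ ∈ closedBall (0 : ℂ) S, (jm (En X v e k τ) (e x)).det ≠ 0 := fun τ hτ =>
      t.mt.et 1 _ _ _ cp (k3 _ hR τ (hin τ hτ))
    have up : ∀ τ ∈ sphere (0 : ℂ) S, w k τ ≤ A + 1 + (2 * Real.log S + b) := fun τ hτ => by
      have hτ' := sphere_subset_closedBall hτ
      have p1 := t.mt.pos 1 zero_le_one _ _ (etk τ hτ')
      have p2 := t.mt.dual _ p1 (Pi.single i 1) (c * ‖v k‖ ^ 2)⁻¹ (by positivity) fun u => by
        rw [F.qf_pull, single_one_dotProduct, le_inv_mul_iff₀ cp]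
        refine le_trans ?_ (k3 _ hR τ (hin τ hτ') u)
        gcongr
        exact norm_le_pi_norm u i
      have p3 := Real.log_le_log (hq_pos p1 hα) p2
      have p4 : (c * ‖v k‖ ^ 2)⁻¹ = 16 / c * S ^ 2 := by rw [hSd]; field_simp; norm_num
      rw [p4, Real.log_mul (by positivity) (by positivity), Real.log_pow] at p3
      have := le_abs_self (Real.log (16 / c) - (A + 1))
      simp only [hwk, lw]
      push_cast at p3
      linarith
    have := t.th2.three (w k) S (A + 1) (2 * Real.log S + b) S1 (by positivity)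
      (fun τ hτ => t.sub.sub 1 zero_le_one _ _ τ _ _ (isOpen_ball.prod (un_op X e))
        (hp_en t.df k2 hR k4' he) ⟨hin τ hτ, hxu⟩ (etk τ hτ) hα) k1 up σ
      (mem_closedBall_zero_iff.2 ((le_max_left _ _).trans (le_of_lt k5)))
    have k6' : b * Real.log m ≤ Real.log S := k6
    have q : (2 * Real.log S + b) * Real.log m / Real.log S ≤ 1 + 2 * Real.log m := by
      rw [div_le_iff₀ lS]; nlinarith
    linarith
  have fin := le_of_tendsto (lim (fun _ => σ) σ tendsto_const_nhds) key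
  have e1 : hq (F.pull (orb Φ e σ) 1 (e x)) (Pi.single i 1) = Real.exp (w₀ σ) :=
    (Real.exp_log (hq_pos (pd σ) hα)).symm
  have e2 : Real.exp (A + 2 + 2 * Real.log m) = Real.exp (A + 2) * m ^ 2 := by
    rw [Real.exp_add (A + 2), ← Real.exp_log (x := m ^ 2) (by positivity), Real.log_pow]
    norm_num
  rw [e1]
  refine (Real.exp_le_exp.2 fin).trans (e2 ▸ ?_)
  gcongr
  exact max_le (by linarith) (by linarith [norm_nonneg σ])

end Ee

variable {n : ℕ} {M : Type} [MetricSpace M] [ChartedSpace (Cm n) M]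
  [RiemannianBundle fun x : M => TangentSpace 𝓘(ℝ, Cm n) x] [MeasurableSpace M]
  {F : Flow n M} {μ : Measure M} {T : F.TA μ}

theorem ee (t : Tools T) : EE T := by
  intro X v W Φ N hD hΦ hA e he x hx hs
  choose C hC h using Ee.one t X hD hΦ hA he hx hs
  refine ⟨∑ i, C i, fun σ u => ?_⟩
  have e1 : F.nv 1 (Φ σ x) (dn (orb Φ e σ) (e x) u) = qf (F.pull (orb Φ e σ) 1 (e x)) u := by
    rw [F.qf_pull, orb, e.left_inv hs]
  have h0 := t.mt.nonneg 1 zero_le_one (Φ σ x) (dn (orb Φ e σ) (e x) u)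
  have h1 : 0 ≤ ∑ i, C i := Finset.sum_nonneg fun i _ => hC i
  rw [← Real.le_sqrt (norm_nonneg _) (by positivity),
    pi_norm_le_iff_of_nonneg (Real.sqrt_nonneg _)]
  intro i
  rw [Real.le_sqrt (norm_nonneg _) (by positivity)]
  have h2 := t.mt.cs _ (h i σ).1 (Pi.single i 1) u
  rw [single_one_dotProduct, ← e1] at h2
  refine h2.trans (mul_le_mul_of_nonneg_right ((h i σ).2.trans ?_) h0)
  gcongr
  exact Finset.single_le_sum (fun j _ => hC j) (Finset.mem_univ i)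

end Vale.Agent.P253W.D
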