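import Vale.Agent.P253W.D.Spec

/-!
# P253W, block D: the row ENT
-/

open scoped Manifold ContDiff Bundle ENNReal Topology Matrix ComplexOrder
open Bundle IsManifold MeasureTheory Set Metric Filter Vale.Agent.P253.Mfd Vale.Agent.P253Z
open Vale.Agent.P272.K (Cm jacM Chart)
open Vale.Agent.P253W.C (ex)

noncomputable section

namespace Vale.Agent.P253W.D

variable {n : ℕ} {M : Type} [MetricSpace M] [ChartedSpace (Cm n) M]
  [RiemannianBundle fun x : M => TangentSpace 𝓘(ℝ, Cm n) x] [MeasurableSpace M]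
  {μ : Measure M} {F : Flow n M} {T : F.TA μ}

namespace Ent

theorem hx {Φ : ℂ → M → M} {N : ℕ} (h : Act0 T Φ N) (σ : ℂ) :
    MDifferentiable 𝓘(ℂ, Cm n) 𝓘(ℂ, Cm n) (Φ σ) :=
  h.hol.comp (mdifferentiable_const.prodMk mdifferentiable_id)

theorem hs {Φ : ℂ → M → M} {N : ℕ} (h : Act0 T Φ N) (x : M) :
    MDifferentiable 𝓘(ℂ, ℂ) 𝓘(ℂ, Cm n) fun σ => Φ σ x :=
  h.hol.comp (mdifferentiable_id.prodMk mdifferentiable_const)

theorem neg {Φ : ℂ → M → M} {N : ℕ} (h : Act0 T Φ N) (σ : ℂ) (x : M) : Φ (-σ) (Φ σ x) = x := by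
  rw [← h.add, neg_add_cancel, h.zero]

theorem neg' {Φ : ℂ → M → M} {N : ℕ} (h : Act0 T Φ N) (σ : ℂ) (x : M) : Φ σ (Φ (-σ) x) = x := by
  rw [← h.add, add_neg_cancel, h.zero]

/-- the preimages of the orbits in the slices -/
theorem pre (t : Tools T) (D : Dt T) : ∃ (ρ : ℝ) (ζ : ℂ → Cm n → Cm n), D.B.ρ ≤ ρ ∧
    ∀ σ ∈ ex ρ, DifferentiableOn ℂ (ζ σ) (ball (D.e D.p) D.r) ∧ ζ σ (D.e D.p) = 0 ∧
      ∀ w ∈ ball (D.e D.p) D.r, ζ σ w ∈ Flow.sl D.B.k D.B.ε σ ∧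
        D.B.Ξ σ (ζ σ w) = D.Φ σ (D.e.symm w) ∧ ‖ζ σ w‖ ≤ 1 * ‖σ‖ ^ (1 - D.B.ε) := by
  have hη : 0 < D.κ - D.B.ε := sub_pos.2 D.lt
  have hr := D.r_pos
  obtain ⟨ρ₁, h₁⟩ := D.thb.scl _ hη
  obtain ⟨ρ₂, h₂⟩ := eventually_atTop.1 ((tendsto_rpow_atTop (half_pos hη)).eventually_gt_atTop
    (√(max D.m 0) * D.r))
  have key : ∀ σ : ℂ, ∃ s : Cm n → Cm n, max (max D.B.ρ ρ₁) (max ρ₂ D.m) < ‖σ‖ →
      DifferentiableOn ℂ s (ball (D.e D.p) D.r) ∧ s (D.e D.p) = 0 ∧ ∀ w ∈ ball (D.e D.p) D.r,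
        scl D.B σ (s w) = D.Φ σ (D.e.symm w) ∧ ‖s w‖ < 1 := by
    intro σ
    by_cases hσ : max (max D.B.ρ ρ₁) (max ρ₂ D.m) < ‖σ‖
    swap
    · exact ⟨fun _ => 0, fun h => absurd h hσ⟩
    simp only [max_lt_iff] at hσ
    obtain ⟨⟨a0, a1⟩, a2, a3⟩ := hσ
    have hp : 0 < ‖σ‖ := by linarith [D.B.ρ_ge]
    obtain ⟨b1, -, b2⟩ := h₁ σ a1
    have lt : √(max D.m 0) * ‖σ‖ ^ (-D.κ) * D.r / ‖σ‖ ^ (-((D.κ - D.B.ε) / 2) - D.B.ε) < 1 := by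
      rw [div_lt_one (by positivity), mul_right_comm,
        show -((D.κ - D.B.ε) / 2) - D.B.ε = (D.κ - D.B.ε) / 2 + -D.κ by ring, Real.rpow_add hp]
      exact mul_lt_mul_of_pos_right (h₂ _ a2.le) (by positivity)
    obtain ⟨s, c1, c2, c3⟩ := t.lift 1 (‖σ‖ ^ (-((D.κ - D.B.ε) / 2) - D.B.ε))
      (√(max D.m 0) * ‖σ‖ ^ (-D.κ)) D.r (scl D.B σ) (orb D.Φ D.e σ) (D.e D.p) 0 zero_le_one
      (by positivity) (by positivity) hr b1 (fun y hy v => by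
        refine le_trans (le_of_eq ?_) ((b2 y hy).2 v).1
        rw [← Real.rpow_natCast, ← Real.rpow_mul hp.le]
        congr 2; push_cast; ring)
      ((hx D.act σ).comp_mdifferentiableOn
        ((t.df.symm _ D.he).1.mono (ball_subset_closedBall.trans D.sub)))
      (fun w hw v => by
        refine (D.dc w hw σ a3 v).trans (mul_le_mul_of_nonneg_right ?_ (sq_nonneg _))
        rw [mul_pow, Real.sq_sqrt (le_max_right _ _), ← Real.rpow_natCast, ← Real.rpow_mul hp.le,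
          show -D.κ * (2 : ℕ) = -(2 * D.κ) by push_cast; ring]
        exact mul_le_mul_of_nonneg_right (le_max_left _ _) (by positivity))
      (by
        have : (fun i => ((‖σ‖ ^ (D.B.k i - D.B.ε) : ℝ) : ℂ) * (0 : Cm n) i) = 0 := by
          funext i; simp
        rw [scl, this, D.B.zero σ a0, orb, D.e.left_inv D.src]) (by simpa using lt)
    exact ⟨s, fun _ => ⟨c1, c2, fun w hw => ⟨(c3 w hw).1, by
      simpa using (c3 w hw).2.trans_lt lt⟩⟩⟩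
  choose s hs using key
  refine ⟨max (max D.B.ρ ρ₁) (max ρ₂ D.m),
    fun σ w i => ((‖σ‖ ^ (D.B.k i - D.B.ε) : ℝ) : ℂ) * s σ w i,
    (le_max_left _ _).trans (le_max_left _ _), fun σ hσ => ?_⟩
  obtain ⟨c1, c2, c3⟩ := hs σ hσ
  replace hσ : max _ _ < ‖σ‖ := hσ
  simp only [max_lt_iff] at hσ
  have hp : 1 ≤ ‖σ‖ := by linarith [D.B.ρ_ge, hσ.1.1]
  refine ⟨differentiableOn_pi.2 fun i => (differentiableOn_pi.1 c1 i).const_mul _,
    by funext i; simp [c2], fun w hw =>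
      ⟨((h₁ σ hσ.1.2).2.2 _ (mem_ball_zero_iff.2 (c3 w hw).2)).1, (c3 w hw).1, ?_⟩⟩
  refine (pi_norm_le_iff_of_nonneg (by positivity)).2 fun i => ?_
  rw [norm_mul, Complex.norm_real, Real.norm_of_nonneg (by positivity), mul_comm]
  exact mul_le_mul ((norm_le_pi_norm _ i).trans (c3 w hw).2.le)
    (Real.rpow_le_rpow_of_exponent_le hp (by linarith [D.B.k_le i])) (by positivity) zero_le_one

end Ent

theorem ent (t : Tools T) : ENT T := by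
  intro D
  obtain ⟨ρ₁, ζ, a1, hζ⟩ := Ent.pre t D
  obtain ⟨ρ₂, h₂⟩ := D.thb.et
  obtain ⟨c, ρ₃, hc, h₃⟩ := D.dm
  have hr := D.r_pos
  have hρ : 0 < max ρ₁ ρ₂ := lt_max_of_lt_left (by linarith [D.B.ρ_ge])
  have op : IsOpen (ex (max ρ₁ ρ₂)) := isOpen_lt continuous_const continuous_norm
  have hol : ∀ w ∈ ball (D.e D.p) D.r, DifferentiableOn ℂ (fun σ => ζ σ w) (ex (max ρ₁ ρ₂)) := by
    intro w hw
    refine t.inv ℂ D.B.Ξ ({q | D.B.ρ < ‖q.1‖ ∧ q.2 ∈ Flow.sl D.B.k D.B.ε q.1} ∩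
      Prod.fst ⁻¹' ex (max ρ₁ ρ₂)) (fun σ => D.Φ σ (D.e.symm w)) _ _
      (D.thb.op.inter (op.preimage continuous_fst)) (D.B.hol.mono inter_subset_left)
      (fun q hq => (h₂ q.1 ((le_max_right ρ₁ ρ₂).trans_lt hq.2) q.2 hq.1.2).1) op
      (Ent.hs D.act _).mdifferentiableOn (fun σ hσ => ?_) (Or.inr fun σ hσ => ?_)
    · have h1 : ρ₁ < ‖σ‖ := (le_max_left _ _).trans_lt hσ
      exact ⟨⟨⟨a1.trans_lt h1, ((hζ σ h1).2.2 w hw).1⟩, hσ⟩, ((hζ σ h1).2.2 w hw).2.1⟩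
    · exact (D.B.inj σ (a1.trans_lt ((le_max_left _ _).trans_lt hσ))).mono fun y hy => hy.1.2
  obtain ⟨B, hB, hB0⟩ : ∃ B, B = 1 * (2 * max ρ₁ ρ₂) ^ (1 - D.B.ε) ∧ 0 ≤ B := ⟨_, rfl, by positivity⟩
  obtain ⟨r', hr', h⟩ := t.opn.img D.r (max B c⁻¹) D.r hr hr
  refine ⟨max (2 * max ρ₁ ρ₂) ρ₃, r', hr', fun σ hσ y hy => ?_⟩
  replace hσ : max _ _ < ‖σ‖ := hσ
  rw [max_lt_iff] at hσ
  have h1 : ρ₁ < ‖σ‖ := by linarith [le_max_left ρ₁ ρ₂, hσ.1]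
  obtain ⟨b1, b2, b3⟩ := hζ σ h1
  have id' : ∀ w ∈ ball (D.e D.p) D.r, Th D.Φ D.B σ (ζ σ w) = D.e.symm w := fun w hw => by
    rw [Th, (b3 w hw).2.1, Ent.neg D.act]
  refine (h (ζ σ) (D.e D.p) b1 (fun w hw => ?_) (fun v => ?_) (show y ∈ _ by rwa [b2])).elim
    fun w hw => ⟨w, ball_subset_closedBall hw.1.1, by rw [← hw.2, id' w hw.1.1]⟩
  · rw [b2, sub_zero]
    refine le_max_of_le_left ((pi_norm_le_iff_of_nonneg hB0).2 fun i => ?_)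
    obtain ⟨l, hl⟩ := t.bdd.one (fun s => ζ s w i) _ 1 (1 - D.B.ε) hρ (by linarith [D.B.ε_pos])
      (differentiableOn_pi.1 (hol w hw) i) fun s hs =>
        (norm_le_pi_norm _ i).trans ((hζ s ((le_max_left ρ₁ ρ₂).trans_lt hs)).2.2 w hw).2.2
    exact hB ▸ (hl σ hσ.1).1
  · have hc0 : D.e D.p ∈ ball (D.e D.p) D.r := mem_ball_self hr
    obtain ⟨c1, c2, -, c3, -⟩ := D.thb.sl σ (a1.trans_lt h1)
    have h2 : Th D.Φ D.B σ 0 = D.p := by rw [← b2, id' _ hc0, D.e.left_inv D.src]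
    have h3 := (t.df.ch _ 0 D.e (c3.mdifferentiableAt (c1.mem_nhds c2)) D.he (by rw [h2]; exact D.src)).1
    have h4 := b1.differentiableAt (isOpen_ball.mem_nhds hc0)
    have h5 : (fun y => D.e (Th D.Φ D.B σ y)) ∘ ζ σ =ᶠ[𝓝 (D.e D.p)] id := by
      filter_upwards [isOpen_ball.mem_nhds hc0] with w hw
      exact (congrArg D.e (id' w hw)).trans (D.e.right_inv (D.sub (ball_subset_closedBall hw)))
    have h6 := h5.fderiv_eq (𝕜 := ℂ)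
    rw [fderiv_comp _ (b2 ▸ h3) h4, b2, fderiv_id] at h6
    have h7 := (h₃ σ hσ.2 (fderiv ℂ (ζ σ) (D.e D.p) v)).2
    rw [show fderiv ℂ (fun y => D.e (Th D.Φ D.B σ y)) 0 (fderiv ℂ (ζ σ) (D.e D.p) v) = v from
      DFunLike.congr_fun h6 v, ← le_inv_mul_iff₀ hc] at h7
    exact h7.trans (mul_le_mul_of_nonneg_right (le_max_right _ _) (norm_nonneg _))

end Vale.Agent.P253W.D
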