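import Vale.Agent.P253W.D.Pure

/-!
# P253W, block D: row EXIT (the first exit)
-/

open scoped Topology
open Set Metric Filter
open Vale.Agent.P272.K (Cm)

noncomputable section

namespace Vale.Agent.P253W.D

theorem det_mx_le {n : ℕ} {L : Cm n →L[ℂ] Cm n} {a : ℝ} (h : ‖L‖ ≤ a) :
    ‖(mx L).det‖ ≤ n.factorial * a ^ n := by
  have := Matrix.det_le (A := mx L) (abv := NormedField.toAbsoluteValue ℂ) (x := a) fun i j => by
    change ‖mx L i j‖ ≤ a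
    rw [mx, LinearMap.toMatrix'_apply]
    refine (norm_le_pi_norm _ i).trans ((L.le_of_opNorm_le h _).trans ?_)
    rw [Pi.norm_single, norm_one, mul_one]
  rw [Fintype.card_fin, nsmul_eq_mul] at this
  exact this

theorem exit (n : ℕ) : EXIT n := by
  intro h K r δ y₁ hK hr hδ hKr hd hy₁ hdet
  have hm : ∀ y ∈ K, ∀ v : Cm n, ‖v‖ ≤ r → y + v ∈ ball (0 : Cm n) (3 * r) := fun y hy v hv => by
    have a1 := mem_closedBall_zero_iff.1 (hKr hy)
    have a2 := norm_add_le y v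
    exact mem_ball_zero_iff.2 (by linarith)
  have hA : ∀ y ∈ K, ∀ ρ : ℝ, 0 < ρ → ρ ≤ r → (∀ v : Cm n, ‖v‖ < ρ → ‖h (y + v) - h y‖ ≤ δ) →
      ‖fderiv ℂ h y‖ ≤ δ / ρ := fun y hy ρ h0 h1 h2 =>
    Complex.norm_fderiv_le_div_of_mapsTo_ball (hd.mono fun z hz => by
      simpa using hm y hy (z - y) ((mem_ball_iff_norm.1 hz).le.trans h1)) (fun z hz => by
      simpa [dist_eq_norm] using h2 (z - y) (mem_ball_iff_norm.1 hz)) h0
  have hB : ∀ ρ : ℝ, 0 < ρ → ‖fderiv ℂ h y₁‖ ≤ δ / ρ →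
      ‖(mx (fderiv ℂ h y₁)).det‖ * ρ ^ n ≤ n.factorial * δ ^ n := fun ρ h0 h1 => by
    have := det_mx_le h1
    rwa [div_pow, ← mul_div_assoc, le_div_iff₀ (by positivity)] at this
  have hc : ContinuousOn (fun p : Cm n × Cm n => ‖h (p.1 + p.2) - h p.1‖)
      (K ×ˢ closedBall 0 r) := by
    have c1 : ContinuousOn (fun p : Cm n × Cm n => h (p.1 + p.2)) (K ×ˢ closedBall 0 r) :=
      hd.continuousOn.comp (continuous_fst.add continuous_snd).continuousOn fun p hp =>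
        hm p.1 hp.1 p.2 (mem_closedBall_zero_iff.1 hp.2)
    have c2 : ContinuousOn (fun p : Cm n × Cm n => h p.1) (K ×ˢ closedBall 0 r) :=
      hd.continuousOn.comp continuousOn_fst fun p hp => by
        simpa using hm p.1 hp.1 0 (by simpa using hr.le)
    exact (c1.sub c2).norm
  have hQ := hK.prod (isCompact_closedBall (0 : Cm n) r)
  have hE := hQ.of_isClosed_subset
    (hc.preimage_isClosed_of_isClosed hQ.isClosed (isClosed_Ici (a := δ))) inter_subset_left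
  obtain ⟨y', hy', v', hv', h'⟩ : ∃ y ∈ K, ∃ v : Cm n, ‖v‖ < r ∧ δ ≤ ‖h (y + v) - h y‖ := by
    by_contra H
    push Not at H
    exact hdet.not_ge (hB r hr (hA y₁ hy₁ r hr le_rfl fun v hv => (H y₁ hy₁ v hv).le))
  obtain ⟨⟨y₀, v₀⟩, ⟨⟨hy₀, hv₀⟩, h₀⟩, hmin⟩ := hE.exists_isMinOn
    ⟨(y', v'), ⟨hy', mem_closedBall_zero_iff.2 hv'.le⟩, h'⟩
    (f := fun p : Cm n × Cm n => ‖p.2‖) continuous_snd.norm.continuousOn
  have h₀' : δ ≤ ‖h (y₀ + v₀) - h y₀‖ := h₀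
  have hlt : ‖v₀‖ < r :=
    lt_of_le_of_lt (hmin (a := (y', v')) ⟨⟨hy', mem_closedBall_zero_iff.2 hv'.le⟩, h'⟩) hv'
  have hpos : 0 < ‖v₀‖ := norm_pos_iff.2 fun e => by
    rw [e, add_zero, sub_self, norm_zero] at h₀'
    exact h₀'.not_gt hδ
  have h1 : ∀ y ∈ K, ∀ v : Cm n, ‖v‖ < ‖v₀‖ → ‖h (y + v) - h y‖ ≤ δ := fun y hy v hv => by
    by_contra H
    exact hv.not_ge (hmin (a := (y, v))
      ⟨⟨hy, mem_closedBall_zero_iff.2 (hv.trans hlt).le⟩, (not_le.1 H).le⟩)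
  have h2 : ∀ y ∈ K, ∀ v : Cm n, ‖v‖ ≤ ‖v₀‖ → ‖h (y + v) - h y‖ ≤ δ := fun y hy v hv => by
    refine le_on_closure (s := ball 0 ‖v₀‖) (f := fun v => ‖h (y + v) - h y‖) (g := fun _ => δ)
      (fun w hw => h1 y hy w (mem_ball_zero_iff.1 hw)) ?_ continuousOn_const ?_
    · rw [closure_ball _ hpos.ne']
      exact hc.comp (f := fun w => (y, w)) (continuousOn_const.prodMk continuousOn_id)
        fun w hw => ⟨hy, closedBall_subset_closedBall hlt.le hw⟩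
    · rw [closure_ball _ hpos.ne']
      exact mem_closedBall_zero_iff.2 hv
  refine ⟨y₀, hy₀, v₀, hpos, hlt, le_antisymm (h2 y₀ hy₀ v₀ le_rfl) h₀',
    hB _ hpos (hA y₁ hy₁ _ hpos hlt.le (h1 y₁ hy₁)), fun y hy => ⟨h2 y hy, fun v => ?_⟩⟩
  have := (fderiv ℂ h y).le_of_opNorm_le (hA y hy _ hpos hlt.le (h1 y hy)) v
  rwa [div_mul_eq_mul_div, le_div_iff₀ hpos, mul_comm] at this

end Vale.Agent.P253W.D
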