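import Vale.Agent.P253W.D.Spec

/-!
# P253W, block D: the limit of the slices is biholomorphic
-/

open scoped Manifold ContDiff Bundle ENNReal Topology Matrix ComplexOrder
open Bundle IsManifold MeasureTheory Set Metric Filter Vale.Agent.P253.Mfd Vale.Agent.P253Z
open Vale.Agent.P272.K (Cm jacM Chart)
open Vale.Agent.P253W.C (ex)

noncomputable section

namespace Vale.Agent.P253W.D

variable {n : ℕ} {M : Type} [MetricSpace M] [ChartedSpace (Cm n) M]
  [RiemannianBundle fun x : M => TangentSpace 𝓘(ℝ, Cm n) x] {F : Flow n M} [MeasurableSpace M]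
  {μ : Measure M} {T : F.TA μ}

theorem nat_ex (ρ : ℝ) : ∀ᶠ k : ℕ in atTop, (k : ℂ) ∈ ex ρ :=
  (tendsto_natCast_atTop_atTop.eventually_gt_atTop ρ).mono fun k h => by simpa [ex] using h

/-- the slices are eventually defined and etale on every ball -/
theorem Dt.big (D : Dt T) (R : ℝ) : ∀ᶠ k : ℕ in uf, Hn (Th D.Φ D.B k) (ball 0 R) ∧
    InjOn (Th D.Φ D.B k) (ball 0 R) ∧ ∀ y ∈ ball (0 : Cm n) R, (jm (Th D.Φ D.B k) y).det ≠ 0 := by
  obtain ⟨ρ, h1⟩ := D.thb.et
  obtain ⟨κ, ρ', h2, -, h3⟩ := D.thb.big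
  refine Eventually.filter_mono Nat.hyperfilter_le_atTop ?_
  filter_upwards [nat_ex ρ, nat_ex ρ', nat_ex D.B.ρ, ((tendsto_rpow_atTop h2).comp
    tendsto_natCast_atTop_atTop).eventually_ge_atTop R] with k a b c d
  have e : ball (0 : Cm n) R ⊆ Flow.sl D.B.k D.B.ε k :=
    (ball_subset_ball (by simpa using d)).trans (h3 _ b)
  obtain ⟨-, -, -, c1, c2⟩ := D.thb.sl _ c
  exact ⟨c1.mono e, c2.mono e, fun y hy => (h1 _ a y (e hy)).2⟩

/-- **FIN** -/
theorem fin (t : Tools T) : FIN T := fun D Θ hL hD => by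
  obtain ⟨h1, h2, h3⟩ := t.hur _ Θ hL.hol D.big hL.lim hL.et
  obtain ⟨C, N, gro⟩ := hL.gro
  have zs := fun i => t.zc.sec _ (T.z_mem i)
  have cz : Continuous (zv T.z) := continuous_pi fun i => (zs i).2.continuous
  have cΘ : Continuous Θ := continuousOn_univ.1 hL.hol.continuousOn
  choose R R0 hR using t.dep.dep (fun y => zv T.z (Θ y)) C N (differentiable_pi.2 fun i =>
    differentiableOn_univ.1 (t.map.holn _ Θ univ (zs i).1 hL.hol)) gro
  have lc := fun j => Polynomial.leadingCoeff_ne_zero.2 (R0 j)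
  have sur : range Θ = univ := by
    refine t.prop _ (isOpen_iff_mem_nhds.2 ?_) (range_nonempty Θ) (fun x₀ => ?_) ?_
    · rintro _ ⟨y, rfl⟩
      exact (t.df.loc Θ univ isOpen_univ hL.hol y trivial (h1 y)).2 range_mem_map
    · obtain ⟨x₁, hx⟩ := t.zc.ind _ (Finset.prod_ne_zero_iff.2 fun j (_ : j ∈ Finset.univ) => lc j)
      refine ⟨_, (t.zc.sec _ (t.zc.mem (∏ j, (R j).leadingCoeff))).1, fun e => hx (congrFun e x₁),
        univ, univ_mem, fun x _ h hx => ?_⟩
      obtain ⟨K, k1, k2, k3⟩ := exists_compact_subset (isOpen_ne_fun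
        (MvPolynomial.continuous_eval (∏ j, (R j).leadingCoeff)) continuous_const) h
      choose B c c0 hB using fun j => t.dep.far (R j) K k1 fun ζ hζ =>
        Finset.prod_ne_zero_iff.1 ((map_prod (MvPolynomial.eval ζ) _ _).symm.trans_ne (k3 hζ)) j
          (Finset.mem_univ j)
      have cl := ((isCompact_univ_pi fun j => isCompact_closedBall (0 : ℂ) (B j)).image cΘ).isClosed
      refine image_subset_range _ _ (cl.closure_subset (closure_mono ?_
        ((isOpen_interior.preimage cz).inter_closure ⟨k2, hx⟩)))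
      rintro _ ⟨a, y, rfl⟩
      refine ⟨y, fun j _ => mem_closedBall_zero_iff.2 (le_of_not_gt fun b => ?_), rfl⟩
      have := hB j _ (interior_subset a) _ b.le
      rw [hR, norm_zero] at this
      exact this.not_gt (c0 j)
    · intro x₀ e v δ ⟨a1, a2, a3, a4⟩ h
      have m := mem_closedBall_self (x := e x₀) a3.le
      have af : Differentiable ℂ fun τ : ℂ => e x₀ + τ • v := by fun_prop
      have an : ann (1 / 4) 4 ⊆ closedBall 0 4 := fun τ hτ => mem_closedBall_zero_iff.2 hτ.2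
      obtain ⟨ρ, hρ⟩ := h3 ((fun τ : ℂ => e.symm (e x₀ + τ • v)) '' ann (1 / 4) 4)
        (((isCompact_closedBall (0 : ℂ) 4).of_isClosed_subset ((isClosed_le continuous_const
          continuous_norm).inter (isClosed_le continuous_norm continuous_const)) an).image_of_continuousOn
          (e.continuousOn_symm.comp af.continuous.continuousOn fun τ hτ => a4 _ m τ (an hτ)))
        (by rintro _ ⟨τ, hτ, rfl⟩; exact h _ m τ hτ)
      simpa [a2] using hD (fun τ : ℂ => e.symm (e x₀ + τ • v)) ρ ((t.df.symm e a1).1.comp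
        af.mdifferentiable.mdifferentiableOn fun τ hτ => a4 _ m τ (ball_subset_closedBall.trans
          (closedBall_subset_closedBall (by norm_num)) hτ))
        (hρ.mono fun k hk τ b1 b2 => hk ⟨τ, ⟨by linarith, by linarith⟩, rfl⟩)
  obtain ⟨Φ, hΦ⟩ := t.bih Θ hL.hol h1 ⟨h2, range_eq_univ.1 sur⟩
  refine ⟨Φ, fun i => ⟨(R i).natDegree + 1,
    fun j x => MvPolynomial.eval (zv T.z x) ((R i).coeff j), fun j => t.zc.mem _, ?_, fun x => ?_⟩⟩
  · obtain ⟨x, hx⟩ := t.zc.ind _ (lc i)
    exact ⟨Fin.last _, fun e => hx (congrFun e x)⟩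
  · obtain ⟨y, rfl⟩ := range_eq_univ.1 sur x
    have := hR i y
    rw [ev, Polynomial.eval_map, Polynomial.eval₂_eq_sum_range, Finset.sum_range] at this
    rwa [hΦ]

end Vale.Agent.P253W.D
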