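import Vale.Agent.P253W.D.Spec

/-!
# P253W, block D, rows GEN and THB: generic orbits and the slices of their tubes
-/

open scoped Manifold ContDiff Bundle Topology Matrix
open Bundle IsManifold MeasureTheory Set Metric Filter Vale.Agent.P253.Mfd Vale.Agent.P253Z
open Vale.Agent.P272.K (Cm)
open Vale.Agent.P253W.C (ex)

noncomputable section

namespace Vale.Agent.P253W.D

variable {n : ℕ} {M : Type} [MetricSpace M] [ChartedSpace (Cm n) M]
  [RiemannianBundle fun x : M => TangentSpace 𝓘(ℝ, Cm n) x] [MeasurableSpace M] {μ : Measure M}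
  {F : Flow n M} {T : F.TA μ} {Φ : ℂ → M → M} {N : ℕ}

theorem Act0.md (h : Act0 T Φ N) (σ : ℂ) : MDifferentiable 𝓘(ℂ, Cm n) 𝓘(ℂ, Cm n) (Φ σ) :=
  h.hol.comp (mdifferentiable_const.prodMk mdifferentiable_id)

theorem Act0.orb (h : Act0 T Φ N) (x : M) : H1 n (fun σ => Φ σ x) univ :=
  (h.hol.comp (mdifferentiable_id.prodMk mdifferentiable_const)).mdifferentiableOn

theorem Act0.inv (h : Act0 T Φ N) (σ : ℂ) (x : M) : Φ σ (Φ (-σ) x) = x := by
  rw [← h.add, add_neg_cancel, h.zero]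

/-- the orbits through `Q(z) ≠ 0` are polynomial curves -/
theorem Act0.tm (t : Tools T) (h : Act0 T Φ N) {x : M} (hx : Qz T x ≠ 0) {φ : M → ℝ}
    (hφ : F.Tm T.ga φ) : ∃ C : ℝ, ∀ τ, φ (Φ τ x) ≤ C * (1 + Real.log (1 + ‖τ‖)) := by
  obtain ⟨C₀, N₁, N', hN, hN', hl⟩ := T.log φ hφ
  obtain ⟨C, hC⟩ := h.deg x
  obtain ⟨B, m, B1, hB⟩ := t.dep.root (Polynomial.C T.Q)
  simp only [Polynomial.leadingCoeff_C] at hB
  have hf := h.orb x
  have le (s : ℝ) : s ≤ Real.exp s := by linarith [Real.add_one_le_exp s]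
  obtain ⟨K₁, k1⟩ : ∃ K, K = |C| + 4 * N := ⟨_, rfl⟩
  have k0 : 0 ≤ K₁ := by rw [k1]; positivity
  refine ⟨20 * (1 + N') * (B + m * K₁ + (|C₀| + N₁ * K₁) + ‖Qz T x‖⁻¹), fun τ => ?_⟩
  have l0 : 0 ≤ Real.log (1 + ‖τ‖) := Real.log_nonneg (by simp)
  have l1 : 1 + ‖τ‖ = Real.exp (Real.log (1 + ‖τ‖)) := (Real.exp_log (by positivity)).symm
  generalize Real.log (1 + ‖τ‖) = l at l0 l1 ⊢
  have a1 (σ : ℂ) (hσ : σ ∈ ball (0 : ℂ) (4 * (1 + ‖τ‖))) :
      1 + ‖zv T.z (Φ σ x)‖ ≤ Real.exp (K₁ * (1 + l)) := by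
    have b1 : 1 + ‖σ‖ ≤ Real.exp (4 * (1 + l)) := by
      have b2 := mem_ball_zero_iff.1 hσ
      have b3 := Real.add_one_le_exp 4
      calc _ ≤ Real.exp 4 * Real.exp l := by nlinarith [norm_nonneg τ]
        _ ≤ _ := by rw [← Real.exp_add]; gcongr; linarith
    have b4 : (1 + ‖σ‖) ^ N ≤ Real.exp (4 * N * (1 + l)) := by
      rw [mul_comm 4, mul_assoc, Real.exp_nat_mul]; gcongr
    have b5 : 1 ≤ Real.exp (4 * N * (1 + l)) := Real.one_le_exp (by positivity)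
    calc _ ≤ (|C| + 1) * Real.exp (4 * N * (1 + l)) := by
          have := (hC σ).trans (mul_le_mul (le_abs_self C) b4 (by positivity) (abs_nonneg C))
          linarith
      _ ≤ Real.exp (|C| * (1 + l)) * Real.exp (4 * N * (1 + l)) := by
          gcongr
          exact (Real.add_one_le_exp _).trans (by gcongr; nlinarith [abs_nonneg C])
      _ = _ := by rw [← Real.exp_add, k1]; ring_nf
  have c1 : 0 ≤ (B + m * K₁) * (1 + l) := by positivity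
  have c2 : 0 ≤ (|C₀| + N₁ * K₁) * (1 + l) := by positivity
  have c3 : ‖Qz T x‖⁻¹ ≤ ‖Qz T x‖⁻¹ * (1 + l) := le_mul_of_one_le_right (by positivity) (by linarith)
  have c4 : 0 ≤ ‖Qz T x‖⁻¹ := by positivity
  rw [mul_assoc]
  refine t.jb.jen (fun τ => φ (Φ τ x)) (fun τ => Qz T (Φ τ x)) (4 * (1 + ‖τ‖)) _ N' (by positivity)
    (by positivity) hN' (hφ.1.1.comp_continuousOn (hf.continuousOn.mono (subset_univ _)))
    (fun c r hr _ => hφ.1.2 _ c r hr (hf.continuousOn.mono (subset_univ _))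
      (hf.mono (subset_univ _)))
    (t.map.hol _ _ _ (t.zc.sec _ (t.zc.mem T.Q)).1 (hf.mono (subset_univ _))) (fun σ hσ => ?_) ?_
    (fun σ hσ q => (hl _ q).trans (sub_le_sub_right ?_ _)) τ (by simp)
  · calc _ ≤ B * (1 + ‖zv T.z (Φ σ x)‖) ^ m := (hB _ 0).1
      _ ≤ Real.exp (B * (1 + l)) * Real.exp (K₁ * (1 + l)) ^ m := by
          gcongr
          · exact (le B).trans (by gcongr; nlinarith)
          · exact a1 σ hσ
      _ ≤ _ := by rw [← Real.exp_nat_mul, ← Real.exp_add]; gcongr; linarith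
  · simp only [h.zero]
    rw [Real.exp_neg]
    exact inv_le_of_inv_le₀ (norm_pos_iff.2 hx) (le_trans (by linarith) (le _))
  · have d1 : Real.log (1 + ‖zv T.z (Φ σ x)‖) ≤ K₁ * (1 + l) :=
      (Real.log_le_iff_le_exp (by positivity)).2 (a1 σ hσ)
    have d2 := mul_le_mul_of_nonneg_left d1 hN
    have d3 : C₀ ≤ |C₀| * (1 + l) := (le_abs_self _).trans
      (le_mul_of_one_le_right (abs_nonneg _) (by linarith))
    change C₀ + N₁ * Real.log (1 + ‖zv T.z (Φ σ x)‖) ≤ _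
    linarith

theorem gen [CompleteSpace M] (t : Tools T) : GEN T := by
  intro Φ N h
  refine ⟨fun W hW hne => ?_, fun x hx =>
    ⟨h.orb x, by simpa only [h.zero] using hx.ne, fun φ hφ => h.tm t hx.Q hφ⟩⟩
  have pol (P : Pz n) (hP : ∃ x, MvPolynomial.eval (zv T.z x) P ≠ 0) :=
    t.zc.dense _ (t.zc.sec _ (t.zc.mem P)).1 (Function.ne_iff.2 hP)
  obtain ⟨σ, x₀, h0⟩ := h.ne
  obtain ⟨a, ha, ha0⟩ := T.sep _ _ h0
  have sa := (t.zc.sec a ha).2
  obtain ⟨o1, d1⟩ := t.zc.dense (fun x => a (Φ σ x) - a x)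
    ((t.all.a.sec_zero _).2 ((sa.comp (h.md σ)).sub sa)) (Function.ne_iff.2 ⟨x₀, sub_ne_zero.2 ha0⟩)
  obtain ⟨o2, d2⟩ := pol T.Q T.Q_ne
  choose R R0 hR using h.alg
  have d3 (q : Fin n × Fin (N + 1)) := pol (R q.1 (q.2 : ℕ)).leadingCoeff
    (t.zc.ind _ (Polynomial.leadingCoeff_ne_zero.2 (R0 _ _)))
  have o4 := isOpen_iInter_of_finite fun q => (d3 q).1
  have d4 := dense_iInter_of_isOpen (fun q => (d3 q).1) fun q => (d3 q).2
  refine ⟨_, hW.inter ((o1.inter o2).inter o4),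
    ((d1.inter_of_isOpen_left d2 o1).inter_of_isOpen_right d4 o4).inter_open_nonempty W hW hne,
    inter_subset_left, fun x hx => ⟨hx.2.1.2, ⟨σ, fun e => hx.2.1.1 (by simp only [e, sub_self])⟩,
      fun i l hl => ⟨R i l, hR i l, mem_iInter.1 hx.2.2 (i, ⟨l, Nat.lt_succ_of_le hl⟩)⟩⟩⟩

theorem sq_sum (v : Cm n) : ‖v‖ ^ 2 ≤ ∑ i, ‖v i‖ ^ 2 ∧ ∑ i, ‖v i‖ ^ 2 ≤ n * ‖v‖ ^ 2 := by
  constructor
  · rw [← Real.le_sqrt (norm_nonneg _) (by positivity), pi_norm_le_iff_of_nonneg (by positivity)]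
    exact fun i => Real.le_sqrt_of_sq_le (Finset.single_le_sum (f := fun i => ‖v i‖ ^ 2)
      (fun _ _ => by positivity) (Finset.mem_univ i))
  · refine (Finset.sum_le_card_nsmul _ _ (‖v‖ ^ 2) fun i _ => ?_).trans_eq (by simp)
    gcongr
    exact norm_le_pi_norm v i

theorem thb (t : Tools T) : THB T := by
  intro Φ N h f ν B
  have k0 (i) : 0 < B.k i - B.ε := sub_pos.2 (B.ε_lt i)
  have op : IsOpen {q : ℂ × Cm n | B.ρ < ‖q.1‖ ∧ q.2 ∈ Flow.sl B.k B.ε q.1} := by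
    simp only [Flow.sl, mem_ofPred_eq]
    simp only [ofPred_and, ofPred_forall]
    exact (isOpen_lt continuous_const (by fun_prop)).inter (isOpen_iInter_of_finite fun i =>
      isOpen_lt (by fun_prop) ((Real.continuous_rpow_const (k0 i).le).comp (by fun_prop)))
  have one {σ : ℂ} (hσ : σ ∈ ex B.ρ) : 1 < ‖σ‖ := B.ρ_ge.trans_lt hσ
  have so (σ) (hσ : σ ∈ ex B.ρ) : IsOpen (Flow.sl B.k B.ε σ) := by
    have := op.preimage (f := fun y : Cm n => (σ, y)) (by fun_prop)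
    simp only [preimage_ofPred_eq, show B.ρ < ‖σ‖ from hσ, true_and] at this
    exact this
  have sh (σ) (hσ : σ ∈ ex B.ρ) : Hn (B.Ξ σ) (Flow.sl B.k B.ε σ) :=
    B.hol.comp (f := fun y : Cm n => (σ, y))
      (by fun_prop : Differentiable ℂ fun y : Cm n => (σ, y)).mdifferentiable.mdifferentiableOn
      fun y hy => ⟨hσ, hy⟩
  refine ⟨op, ?_, fun σ hσ => ⟨so σ hσ, fun i => ?_, sh σ hσ,
    (h.md (-σ)).comp_mdifferentiableOn (sh σ hσ), fun y hy y' hy' e => B.inj σ hσ hy hy' ?_⟩,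
    ?_, ?_, fun η hη => ?_⟩
  · exact h.hol.comp_mdifferentiableOn (f := fun q : ℂ × Cm n => (-q.1, B.Ξ q.1 q.2))
      ((by fun_prop : Differentiable ℂ fun q : ℂ × Cm n =>
        -q.1).mdifferentiable.mdifferentiableOn.prodMk B.hol)
  · simpa using Real.rpow_pos_of_pos (one_pos.trans (one hσ)) _
  · simpa only [Th, h.inv] using congrArg (Φ σ) e
  · obtain ⟨ρ, hρ⟩ := B.met 1 one_pos
    refine ⟨max ρ B.ρ, fun σ hσ y hy => ?_⟩
    obtain ⟨s1, s2⟩ := max_lt_iff.1 (show _ < ‖σ‖ from hσ)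
    have s3 := one s2
    have e := t.mt.et 1 (‖σ‖ ^ (-1 : ℝ) * ‖σ‖ ^ (-2 : ℝ)) (B.Ξ σ) y (by positivity) fun v => by
      refine le_trans ?_ (hρ σ s1 y hy v).1
      rw [mul_assoc, wn]
      gcongr
      refine (mul_le_mul_of_nonneg_left (sq_sum v).1 (by positivity)).trans ?_
      rw [Finset.mul_sum]
      refine Finset.sum_le_sum fun i _ => ?_
      rw [mul_comm]
      gcongr
      · exact s3.le
      · linarith [B.k_le i]
    exact ⟨e, t.df.comp _ y (Φ (-σ)) (Φ σ) ((sh σ s2).mdifferentiableAt ((so σ s2).mem_nhds hy))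
      (h.md _) (h.md _) (h.inv σ) e⟩
  · obtain ⟨κ, h1, h2⟩ := ((eventually_all.2 fun i => (ge_mem_nhds (k0 i) : ∀ᶠ κ in 𝓝 (0 : ℝ),
      κ ≤ B.k i - B.ε).filter_mono nhdsWithin_le_nhds).and
        (self_mem_nhdsWithin (s := Ioi (0 : ℝ)) (a := 0))).exists
    refine ⟨κ, 1, h2, h1, fun σ hσ y hy i => ?_⟩
    exact ((norm_le_pi_norm y i).trans_lt (mem_ball_zero_iff.1 hy)).trans_le
      (Real.rpow_le_rpow_of_exponent_le (le_of_lt hσ) (h1 i))
  obtain ⟨ρ, hρ⟩ := B.met (η / 2) (half_pos hη)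
  obtain ⟨ρ', hρ'⟩ := eventually_atTop.1 ((tendsto_rpow_atTop (half_pos hη)).eventually_ge_atTop n)
  refine ⟨max (max ρ ρ') B.ρ, fun σ hσ => ?_⟩
  obtain ⟨s1, s2⟩ := max_lt_iff.1 (show _ < ‖σ‖ from hσ)
  obtain ⟨s0, s1⟩ := max_lt_iff.1 s1
  have s3 := one s2
  have s4 : 0 < ‖σ‖ := by linarith
  set L : Mx n := Matrix.diagonal fun i => ((‖σ‖ ^ (B.k i - B.ε) : ℝ) : ℂ) with hL
  have e0 (w : Cm n) : (fun i => ((‖σ‖ ^ (B.k i - B.ε) : ℝ) : ℂ) * w i) = L *ᵥ w :=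
    funext fun i => by rw [hL, Matrix.mulVec_diagonal]
  have e1 : scl B σ = fun w => B.Ξ σ (L *ᵥ w) := funext fun w => by rw [scl, e0]
  have e2 (w : Cm n) (i) : ‖(L *ᵥ w) i‖ = ‖σ‖ ^ (B.k i - B.ε) * ‖w i‖ := by
    rw [← e0, norm_mul, Complex.norm_real, Real.norm_of_nonneg (by positivity)]
  have m (w : Cm n) (hw : w ∈ ball (0 : Cm n) 1) : L *ᵥ w ∈ Flow.sl B.k B.ε σ := fun i => by
    rw [e2]
    exact mul_lt_of_lt_one_right (by positivity)
      ((norm_le_pi_norm w i).trans_lt (mem_ball_zero_iff.1 hw))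
  have e3 (v : Cm n) : wn B.k σ (L *ᵥ v) = ‖σ‖ ^ (-(2 * B.ε)) * ∑ i, ‖v i‖ ^ 2 := by
    rw [wn, Finset.mul_sum]
    refine Finset.sum_congr rfl fun i _ => ?_
    rw [e2, mul_pow, mul_right_comm, sq, ← Real.rpow_add s4, ← Real.rpow_add s4]
    ring_nf
  obtain ⟨l1, l2⟩ := t.map.lin _ _ L (so σ s2) (sh σ s2)
  rw [e1]
  refine ⟨l1.mono m, fun w hw w' hw' e => funext fun i => ?_, fun w hw => ⟨e0 w ▸ m w hw, fun v => ?_⟩⟩
  · have := congrFun (B.inj σ s2 (m w hw) (m w' hw') e) i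
    rw [← e0, ← e0] at this
    exact mul_left_cancel₀ (Complex.ofReal_ne_zero.2 (by positivity)) this
  obtain ⟨a1, a2⟩ := hρ σ s0 _ (m w hw) (L *ᵥ v)
  rw [e3, ← mul_assoc, ← Real.rpow_add s4] at a1 a2
  rw [l2 w (m w hw)]
  refine ⟨le_trans ?_ a1, a2.trans ?_⟩
  · gcongr
    · exact s3.le
    · linarith
    · exact (sq_sum v).1
  · calc _ ≤ ‖σ‖ ^ (η / 2 + -(2 * B.ε)) * (‖σ‖ ^ (η / 2) * ‖v‖ ^ 2) := by
          gcongr
          exact (sq_sum v).2.trans (by gcongr; exact hρ' _ s1.le)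
      _ = _ := by rw [← mul_assoc, ← Real.rpow_add s4]; ring_nf

end Vale.Agent.P253W.D
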