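import Vale.Agent.P253W.D.Spec

/-!
# P253W, block D, rows GRO and CPA: growth and compactness of the translations
-/

open scoped Manifold ContDiff Bundle Topology Matrix
open Bundle IsManifold MeasureTheory Set Metric Filter Vale.Agent.P253Z
open Vale.Agent.P272.K (Cm jacM Chart)

noncomputable section

namespace Vale.Agent.P253W.D

namespace Gr

theorem uf_le : uf ≤ atTop := Nat.hyperfilter_le_atTop

/-- the worst parameter -/
theorem diag {α : Type} [Nonempty α] {P : ℕ → α → ℝ → Prop}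
    (hm : ∀ k a B B', B ≤ B' → P k a B → P k a B')
    (h : ∀ σ : ℕ → α, ∃ B, ∀ᶠ k in uf, P k (σ k) B) : ∃ B, ∀ᶠ k in uf, ∀ a, P k a B := by
  classical
  by_contra hc
  have h1 : ∀ m : ℕ, ∀ᶠ k in uf, ∃ a, ¬P k a m := fun m => by
    simpa only [not_forall] using Ultrafilter.eventually_not.2 fun h => hc ⟨m, h⟩
  have h2 : ∀ k, ∃ a, (∃ a, ¬P k a (Nat.findGreatest (fun m => ∃ a, ¬P k a m) k : ℕ)) →
      ¬P k a (Nat.findGreatest (fun m => ∃ a, ¬P k a m) k : ℕ) := fun k => by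
    by_cases h : ∃ a, ¬P k a (Nat.findGreatest (fun m => ∃ a, ¬P k a m) k : ℕ)
    · exact h.imp fun _ ha _ => ha
    · exact ⟨Classical.arbitrary α, fun h' => (h h').elim⟩
  choose σ hσ using h2
  obtain ⟨B, hB⟩ := h σ
  obtain ⟨k, a, b, c⟩ := (hB.and ((h1 ⌈B⌉₊).and (uf_le (eventually_ge_atTop ⌈B⌉₊)))).exists
  exact hσ k (Nat.findGreatest_spec (P := fun m => ∃ a, ¬P k a m) c b) (hm _ _ _ _
    ((Nat.le_ceil B).trans (Nat.cast_le.2 (Nat.le_findGreatest c b))) a)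

variable {n : ℕ} {M : Type} [MetricSpace M] [ChartedSpace (Cm n) M]
  [RiemannianBundle fun x : M => TangentSpace 𝓘(ℝ, Cm n) x] [MeasurableSpace M]
  {F : Flow n M} {μ : Measure M} {T : F.TA μ} (t : Tools T) (X : Ex T) {v : ℕ → Cm n}
  {W : Set M} (d : X.Dir v W)

include t d

theorem v_small {δ : ℝ} (hδ : 0 < δ) : ∀ᶠ k in atTop, ‖v k‖ ≤ δ := by
  obtain ⟨c, hc, h⟩ := d.small
  have := Real.tendsto_exp_neg_atTop_nhds_zero.comp ((t.uh X.p).2.1.const_mul_atTop hc)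
  filter_upwards [h, this.eventually_le_const hδ] with k a b using a.2.trans b

omit d in
theorem hol_line (k : ℕ) (i : Fin n) {V : Type} [NormedAddCommGroup V] [NormedSpace ℂ V]
    {g : V → Cm n} {S : Set V} (hg : Differentiable ℂ g) (h : MapsTo g S (ball 0 1)) :
    DifferentiableOn ℂ (fun σ => T.z i (X.Ψ k (g σ))) S :=
  (t.map.holn _ _ _ (t.zc.sec _ (T.z_mem i)).1 (X.ch.hol k)).comp hg.differentiableOn h

theorem unit (hd : X.Dbl) (i : Fin n) (R : ℝ) : ∃ B : ℝ, ∀ᶠ k in uf,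
    ∀ σ : closedBall (0 : ℂ) 1, ∀ x ∈ ball X.p R, ‖T.z i (X.tr v k σ x)‖ ≤ B := by
  have : Nonempty (closedBall (0 : ℂ) 1) := ⟨⟨0, mem_closedBall_self zero_le_one⟩⟩
  refine diag (fun k a B B' hB h x hx => (h x hx).trans hB) fun σ => ?_
  obtain ⟨K, hK, h1⟩ := d.cap
  obtain ⟨B, hB⟩ := hK.exists_bound_of_continuousOn
    (t.zc.sec _ (T.z_mem i)).2.continuous.continuousOn
  obtain ⟨C, hC⟩ := X.bnd _ (T.z_mem i)
  have hr := X.ch.r_pos
  have hr1 := X.ch.r_le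
  refine hd (fun k y => T.z i (X.Ψ k (y + (σ k : ℂ) • v k))) ⟨X.r / 32, C, by positivity, ?_⟩ W B
    d.op d.ne (uf_le (h1.mono fun k a x hx => hB _ (a x hx _ (σ k).2))) R
  filter_upwards [uf_le hC, uf_le (v_small t X d (δ := X.r / 32) (by positivity))] with k a b
  have hm : ∀ y ∈ ball (0 : Cm n) (X.r / 32),
      y + (σ k : ℂ) • v k ∈ ball (0 : Cm n) (X.r / 16) := fun y hy => by
    have h2 : ‖(σ k : ℂ) • v k‖ ≤ X.r / 32 := by
      rw [norm_smul]
      exact (mul_le_of_le_one_left (norm_nonneg _) (mem_closedBall_zero_iff.1 (σ k).2)).trans b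
    rw [mem_ball_zero_iff] at hy ⊢
    linarith [norm_add_le y ((σ k : ℂ) • v k)]
  exact ⟨hol_line t X k i (by fun_prop) fun y hy => ball_subset_ball (by linarith) (hm y hy),
    fun y hy => a _ (hm y hy)⟩

omit t d in
theorem mem_one {y w : Cm n} {σ : ℂ} {R : ℝ} (hR : 0 < R) (hy : ‖y‖ ≤ 1 / 2) (hσ : ‖σ‖ < R)
    (hw : ‖w‖ ≤ 1 / (4 * R)) : y + σ • w ∈ ball (0 : Cm n) 1 := by
  have h1 : ‖σ‖ * ‖w‖ ≤ R * (1 / (4 * R)) := by gcongr
  have h2 : R * (1 / (4 * R)) = 1 / 4 := by field_simp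
  rw [mem_ball_zero_iff]
  linarith [norm_add_le y (σ • w), norm_smul σ w]

variable (v) in
omit t d in
/-- the translations of the points of `V` stay in compact sets -/
def Cp (V : Set M) : Prop := ∀ R : ℝ, 0 < R → ∃ K, IsCompact K ∧ ∀ᶠ k in uf,
  ∀ x ∈ V, ∀ σ ∈ ball (0 : ℂ) R, X.tr v k σ x ∈ K

omit t d in
theorem cp_cpt {A : Set M} (hA : IsCompact A) (h : ∀ x ∈ A, ∃ V ∈ 𝓝 x, Cp X v V) : Cp X v A := by
  refine hA.induction_on (p := Cp X v)
    (fun _ _ => ⟨∅, isCompact_empty, Eventually.of_forall fun _ _ h => h.elim⟩)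
    (fun s s' hs h R hR => (h R hR).imp fun _ a => ⟨a.1, a.2.mono fun _ b x hx => b x (hs hx)⟩)
    (fun s s' h h' R hR => ?_) fun x hx => ?_
  · obtain ⟨K, a, b⟩ := h R hR
    obtain ⟨K', a', b'⟩ := h' R hR
    refine ⟨K ∪ K', a.union a', (b.and b').mono fun k c x hx σ hσ => ?_⟩
    exact hx.imp (fun hx => c.1 x hx σ hσ) fun hx => c.2 x hx σ hσ
  · obtain ⟨V, a, b⟩ := h x hx
    exact ⟨V, mem_nhdsWithin_of_mem_nhds a, b⟩

theorem cp_off [ProperSpace M] (g : X.Gro v) {x : M} (hx : Qz T x ≠ 0) :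
    ∃ V ∈ 𝓝 x, Cp X v V := by
  have hc : Continuous (Qz T) := (t.zc.sec _ (t.zc.mem T.Q)).2.continuous
  obtain ⟨δ, hδ, h1⟩ := nhds_basis_closedBall.mem_iff.1 (hc.continuousAt.eventually_ne hx)
  refine ⟨closedBall x δ, closedBall_mem_nhds x hδ, fun R hR => ?_⟩
  obtain ⟨R₀, hR₀⟩ := (isBounded_closedBall (x := x) (r := δ)).subset_ball X.p
  obtain ⟨N, g⟩ := g
  obtain ⟨B, g⟩ := g R₀
  obtain ⟨K, hK, h2⟩ := t.cpt _ (isCompact_closedBall x δ) h1 (8 * R) (|B| * (1 + 8 * R) ^ N)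
    (by positivity)
  refine ⟨K, hK, ?_⟩
  filter_upwards [g (8 * R), uf_le (X.sec R₀ (1 / 2) one_half_pos),
    uf_le (v_small t X d (δ := 1 / (4 * (8 * R))) (by positivity))] with k a b c y hy σ hσ
  refine h2 (fun σ => X.tr v k σ y) ((X.ch.hol k).comp
    (Differentiable.mdifferentiable (by fun_prop)).mdifferentiableOn fun τ hτ =>
      mem_one (by positivity) (b.2.2 y (hR₀ hy)).2 (mem_ball_zero_iff.1 hτ) c) ?_
    (fun τ hτ => (a y (hR₀ hy) τ hτ).trans ?_) σ (by rwa [mul_div_cancel_left₀ _ (by norm_num)])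
  · simpa only [Ex.tr, zero_smul, add_zero, (b.2.2 y (hR₀ hy)).1] using hy
  · have := (mem_ball_zero_iff.1 hτ).le
    gcongr
    exact le_abs_self B

theorem cp_disc {x₀ : M} {e : Chart n M} {u : Cm n} {δ : ℝ} (h : Discs e x₀ u δ)
    (h1 : ∀ w ∈ closedBall (e x₀) δ, ∀ τ ∈ ann (1 / 4) 4, ∃ V ∈ 𝓝 (e.symm (w + τ • u)), Cp X v V) :
    ∃ V ∈ 𝓝 x₀, Cp X v V := by
  obtain ⟨he, hx, hδ, hs⟩ := h
  have cpt : ∀ S ⊆ closedBall (0 : ℂ) 4, IsCompact S → IsCompact
      ((fun q : Cm n × ℂ => e.symm (q.1 + q.2 • u)) '' (closedBall (e x₀) δ ×ˢ S)) :=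
    fun S hS hc => ((isCompact_closedBall _ _).prod hc).image_of_continuousOn
      (e.continuousOn_symm.comp (by fun_prop) fun q hq => hs _ hq.1 _ (hS hq.2))
  have a1 : ann 1 3 ⊆ closedBall (0 : ℂ) 4 := fun τ hτ =>
    mem_closedBall_zero_iff.2 (hτ.2.trans (by norm_num))
  have a2 : IsCompact (ann 1 3) := (isCompact_closedBall 0 4).of_isClosed_subset
    ((isClosed_le continuous_const continuous_norm).inter
      (isClosed_le continuous_norm continuous_const)) a1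
  have c1 := cp_cpt X (cpt _ a1 a2) (by
    rintro _ ⟨q, hq, rfl⟩
    exact h1 _ hq.1 _ ⟨le_trans (by norm_num) hq.2.1, hq.2.2.trans (by norm_num)⟩)
  obtain ⟨R₀, hR₀⟩ := (cpt _ subset_rfl (isCompact_closedBall _ _)).isBounded.subset_ball X.p
  refine ⟨_, inter_mem (e.open_source.mem_nhds hx)
    ((e.continuousAt hx).preimage_mem_nhds (closedBall_mem_nhds _ hδ)), fun R hR => ?_⟩
  obtain ⟨K, hK, h2⟩ := c1 R hR
  obtain ⟨K', hK', h3⟩ := t.cpe K hK
  refine ⟨K', hK', ?_⟩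
  filter_upwards [h2, uf_le (X.sec R₀ (1 / 2) one_half_pos),
    uf_le (v_small t X d (δ := 1 / (4 * R)) (by positivity))] with k a b c y hy σ hσ
  have hm : ∀ τ ∈ ball (0 : ℂ) 4, e.symm (e y + τ • u) ∈ ball X.p R₀ := fun τ hτ =>
    hR₀ ⟨(e y, τ), ⟨hy.2, ball_subset_closedBall hτ⟩, rfl⟩
  have b1 : MDifferentiableOn 𝓘(ℂ, ℂ) 𝓘(ℂ, Cm n) (fun τ : ℂ => X.s k (e.symm (e y + τ • u)))
      (ball 0 4) := b.2.1.comp ((t.df.symm e he).1.comp
    (Differentiable.mdifferentiable (by fun_prop)).mdifferentiableOn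
      fun τ hτ => hs _ hy.2 _ (ball_subset_closedBall hτ)) hm
  have := h3 (fun τ => X.tr v k σ (e.symm (e y + τ • u))) ((X.ch.hol k).comp
    (mdifferentiableOn_iff_differentiableOn.2
      ((mdifferentiableOn_iff_differentiableOn.1 b1).add_const _)) fun τ hτ =>
      mem_one hR (b.2.2 _ (hm τ hτ)).2 (mem_ball_zero_iff.1 hσ) c)
    fun τ hτ => a _ ⟨(e y, τ), ⟨hy.2, hτ⟩, rfl⟩ σ hσ
  simpa only [zero_smul, add_zero, e.left_inv hy.1] using this

end Gr

variable {n : ℕ} {M : Type} [MetricSpace M] [ChartedSpace (Cm n) M]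
  [RiemannianBundle fun x : M => TangentSpace 𝓘(ℝ, Cm n) x] [MeasurableSpace M]
  {F : Flow n M} {μ : Measure M} {T : F.TA μ}

open Gr in
theorem gro (t : Tools T) : GRO T := by
  intro X v W hd d
  obtain ⟨c, hc, h1⟩ := d.small
  choose C hC using fun i => X.bnd _ (T.z_mem i)
  obtain ⟨C', hC'⟩ := Finite.exists_le C
  refine ⟨⌈2 * C' / c⌉₊, fun R => ?_⟩
  choose B hB using fun i => unit t X d hd i R
  obtain ⟨B', hB'⟩ := Finite.exists_le B
  refine ⟨max B' 1, fun R' => ?_⟩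
  have hr := X.ch.r_pos
  have hr1 := X.ch.r_le
  have hU := Real.tendsto_exp_atTop.comp ((t.uh X.p).2.1.const_mul_atTop (half_pos hc))
  filter_upwards [eventually_all.2 hB, uf_le h1, uf_le (eventually_all.2 hC),
    uf_le (X.sec R (X.r / 64) (by positivity)), uf_le (hU.eventually_ge_atTop (64 / X.r)),
    uf_le (hU.eventually_ge_atTop R')] with k a1 a2 a3 a4 a5 a6 x hx σ hσ
  simp only [Function.comp_apply] at a5 a6
  have hU0 : 0 ≤ Uk F X.p k := zero_le_one.trans ((t.uh X.p).1 k)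
  generalize Uk F X.p k = U at *
  have hv := a2.1
  have b1 : Real.exp (c / 2 * U) ≤ X.r / (64 * ‖v k‖) := by
    have e : Real.exp (-(c * U)) * (Real.exp (c / 2 * U) * Real.exp (c / 2 * U)) = 1 := by
      rw [← Real.exp_add, ← Real.exp_add, ← Real.exp_zero]
      congr 1
      ring
    have p := Real.exp_pos (c / 2 * U)
    have b : ‖v k‖ * (Real.exp (c / 2 * U) * Real.exp (c / 2 * U)) ≤ 1 :=
      (mul_le_mul_of_nonneg_right a2.2 (by positivity)).trans_eq e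
    rw [div_le_iff₀ hr] at a5
    rw [le_div_iff₀ (by positivity)]
    nlinarith [mul_le_mul_of_nonneg_left a5 (mul_pos p hv).le, mul_le_mul_of_nonneg_left b hr.le]
  have hm : ∀ τ ∈ closedBall (0 : ℂ) (X.r / (64 * ‖v k‖)),
      X.s k x + τ • v k ∈ ball (0 : Cm n) (X.r / 16) := fun τ hτ => by
    rw [mem_closedBall_zero_iff, le_div_iff₀ (by positivity)] at hτ
    rw [mem_ball_zero_iff]
    linarith [norm_add_le (X.s k x) (τ • v k), norm_smul τ (v k), (a4.2.2 x hx).2]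
  have b2 : 1 ≤ Real.exp (c / 2 * U) := Real.one_le_exp (by positivity)
  refine (pi_norm_le_iff_of_nonneg (by positivity)).2 fun i => ?_
  refine t.jb.three (fun τ => T.z i (X.tr v k τ x)) _ _ _ (b2.trans b1) (le_max_right _ _)
    (DifferentiableOn.diffContOnCl ?_)
    (fun τ hτ => (a1 i ⟨τ, hτ⟩ x hx).trans ((hB' i).trans (le_max_left _ _))) (fun τ hτ => ?_) σ
    (mem_closedBall_zero_iff.2 ((mem_ball_zero_iff.1 hσ).le.trans (a6.trans b1)))
  · rw [closure_ball _ (by positivity)]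
    exact hol_line t X k i (by fun_prop) fun τ hτ => ball_subset_ball (by linarith) (hm τ hτ)
  · refine (a3 i _ (hm τ (sphere_subset_closedBall hτ))).trans ?_
    refine le_trans ?_ (le_mul_of_one_le_left (by positivity) (le_max_right _ _))
    refine le_trans ?_ (pow_le_pow_left₀ (by positivity) b1 _)
    rw [← Real.exp_nat_mul, Real.exp_le_exp, ← mul_assoc]
    refine mul_le_mul_of_nonneg_right ((hC' i).trans ?_) hU0
    have := Nat.le_ceil (2 * C' / c)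
    rw [div_le_iff₀ hc] at this
    linarith

open Gr in
theorem cpa [ProperSpace M] (t : Tools T) : CPA T := by
  intro X v W d g R
  have key := t.prop {x | ∃ V ∈ 𝓝 x, Cp X v V} (isOpen_iff_mem_nhds.2 fun x ⟨V, a, b⟩ =>
      (eventually_mem_nhds_iff.2 a).mono fun _ hy => ⟨V, hy, b⟩)
    (T.Q_ne.imp fun _ hx => cp_off t X d g hx)
    (fun _ => ⟨Qz T, (t.zc.sec _ (t.zc.mem T.Q)).1, Function.ne_iff.2 T.Q_ne, univ, univ_mem,
      fun _ _ hx _ => cp_off t X d g hx⟩) fun _ _ _ _ h h1 => cp_disc t X d h h1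
  obtain ⟨K, hK, h⟩ := cp_cpt X (isCompact_closedBall X.p R)
    (fun x _ => eq_univ_iff_forall.1 key x) (max R 1) (by positivity)
  exact ⟨K, hK, h.mono fun k a x hx σ hσ =>
    a x (ball_subset_closedBall hx) σ (ball_subset_ball (le_max_left _ _) hσ)⟩

end Vale.Agent.P253W.D
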