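import Vale.Agent.P253W.D.Spec
import Vale.Agent.P253Z.B1a.Ch

/-!
# P253W, block D: limits of injective maps
-/

set_option linter.all false

open scoped Manifold ContDiff Topology Matrix
open IsManifold Set Metric Filter Vale.Agent.P253.Mfd Vale.Agent.P253Z
open Vale.Agent.P272.K (Cm jacM Chart)

noncomputable section

namespace Vale.Agent.P253W.D

namespace Hur

variable {n : ℕ}

section pure

variable {l : Filter ℕ} {g : ℕ → Cm n → Cm n} {g₀ : Cm n → Cm n} {c : Cm n} {r s : ℝ}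

theorem sub_ball {y : Cm n} (hy : y ∈ ball c (r / 2)) : ball y (r / 2) ⊆ ball c r :=
  ball_subset_ball' (by linarith [mem_ball.1 hy])

/-- the derivatives converge -/
theorem dlim (hr : 0 < r) (h0 : DifferentiableOn ℂ g₀ (ball c r))
    (h : ∀ᶠ k in l, DifferentiableOn ℂ (g k) (ball c r)) (ht : TendstoUniformlyOn g g₀ l (ball c r)) :
    TendstoUniformlyOn (fun k y => fderiv ℂ (g k) y) (fun y => fderiv ℂ g₀ y) l (ball c (r / 2)) := by
  refine Metric.tendstoUniformlyOn_iff.2 fun ε hε => ?_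
  filter_upwards [h, Metric.tendstoUniformlyOn_iff.1 ht (ε * r / 4) (by positivity)] with k k1 k2 y hy
  have m : ball c r ∈ 𝓝 y := isOpen_ball.mem_nhds (ball_subset_ball (by linarith) hy)
  have b := P268.norm_fderiv_le_of_ball (f := fun w => g₀ w - g k w) (half_pos hr)
    ((h0.sub k1).mono (sub_ball hy)) fun w hw => by
      rw [← dist_eq_norm]
      exact (k2 w (sub_ball hy hw)).le
  rw [fderiv_fun_sub (h0.differentiableAt m) (k1.differentiableAt m), ← dist_eq_norm] at b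
  refine b.trans_lt ?_
  rw [div_lt_iff₀ (half_pos hr)]
  nlinarith [mul_pos hε hr]

theorem cont_det : Continuous fun L : Cm n →L[ℂ] Cm n => (mx L).det := by
  refine Continuous.matrix_det (continuous_pi fun i => continuous_pi fun j => ?_)
  simp only [mx, LinearMap.toMatrix'_apply, ContinuousLinearMap.coe_coe]
  fun_prop

/-- the determinants converge -/
theorem jlim (hr : 0 < r) (h0 : DifferentiableOn ℂ g₀ (ball c r)) (b0 : ∀ y ∈ ball c r, ‖g₀ y‖ ≤ s)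
    (h : ∀ᶠ k in l, DifferentiableOn ℂ (g k) (ball c r) ∧ ∀ y ∈ ball c r, ‖g k y‖ ≤ s)
    (ht : TendstoUniformlyOn g g₀ l (ball c r)) :
    TendstoUniformlyOn (fun k y => (mx (fderiv ℂ (g k) y)).det) (fun y => (mx (fderiv ℂ g₀ y)).det)
      l (ball c (r / 2)) := by
  have key : ∀ f : Cm n → Cm n, DifferentiableOn ℂ f (ball c r) → (∀ y ∈ ball c r, ‖f y‖ ≤ s) →
      ∀ y ∈ ball c (r / 2), fderiv ℂ f y ∈ closedBall (0 : Cm n →L[ℂ] Cm n) (s / (r / 2)) :=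
    fun f hf hb y hy => mem_closedBall_zero_iff.2 (P268.norm_fderiv_le_of_ball (half_pos hr)
      (hf.mono (sub_ball hy)) fun w hw => hb w (sub_ball hy hw))
  have : ProperSpace (Cm n →L[ℂ] Cm n) := FiniteDimensional.proper ℂ _
  exact ((isCompact_closedBall _ _).uniformContinuousOn_of_continuous
    cont_det.continuousOn).comp_tendstoUniformlyOn_eventually
      (h.mono fun k hk => key _ hk.1 hk.2) (key _ h0 b0) (dlim hr h0 (h.mono fun k hk => hk.1) ht)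

theorem hurd [l.NeBot] (o : OPN n) (hr : 0 < r) (h0 : DifferentiableOn ℂ g₀ (ball c r))
    (b0 : ∀ y ∈ ball c r, ‖g₀ y‖ ≤ s)
    (h : ∀ᶠ k in l, DifferentiableOn ℂ (g k) (ball c r) ∧ (∀ y ∈ ball c r, ‖g k y‖ ≤ s) ∧
      ∀ y ∈ ball c r, (mx (fderiv ℂ (g k) y)).det ≠ 0)
    (ht : TendstoUniformlyOn g g₀ l (ball c r))
    (e : ∃ y ∈ ball c (r / 2), (mx (fderiv ℂ g₀ y)).det ≠ 0) :
    ∀ y ∈ ball c (r / 2), (mx (fderiv ℂ g₀ y)).det ≠ 0 := by
  have sb : ball c (r / 2) ⊆ ball c r := ball_subset_ball (by linarith)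
  refine o.hur l (fun k y => (mx (fderiv ℂ (g k) y)).det) _ c (r / 2) inferInstance
    (h.mono fun k hk => ⟨fun y hy => ?_, fun y hy => hk.2.2 y (sb hy)⟩)
    (jlim hr h0 b0 (h.mono fun k hk => ⟨hk.1, hk.2.1⟩) ht).tendstoLocallyUniformlyOn e
  exact (B1aP.analyticAt_det (P268.analyticAt_of_differentiableOn isOpen_ball hk.1
    (sb hy))).differentiableAt.differentiableWithinAt

/-- the images contain a fixed ball -/
theorem cover (o : OPN n) (hr : 0 < r) (h0 : DifferentiableOn ℂ g₀ (ball c r))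
    (h : ∀ᶠ k in l, DifferentiableOn ℂ (g k) (ball c r) ∧ ∀ y ∈ ball c r, ‖g k y‖ ≤ s)
    (ht : TendstoUniformlyOn g g₀ l (ball c r)) (hi : Function.Injective (fderiv ℂ g₀ c))
    {δ : ℝ} (hδ : 0 < δ) : ∃ ρ : ℝ, 0 < ρ ∧ ∀ᶠ k in l,
      ball (g₀ c) ρ ⊆ g k '' (ball c δ ∩ ball c r) := by
  obtain ⟨K, K0, hK⟩ := (fderiv ℂ g₀ c : Cm n →ₗ[ℂ] Cm n).exists_antilipschitzWith
    (LinearMap.ker_eq_bot.2 hi)
  have K1 : (0 : ℝ) < K := K0
  have hK' : ∀ v, ‖v‖ ≤ K * ‖fderiv ℂ g₀ c v‖ := fun v => by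
    simpa using hK.le_mul_dist v 0
  obtain ⟨ρ, ρ0, H⟩ := o.img r (max (2 * K) (2 * s)) δ hr hδ
  refine ⟨ρ / 2, half_pos ρ0, ?_⟩
  filter_upwards [h, Metric.tendstoUniformlyOn_iff.1 ht (ρ / 2) (half_pos ρ0),
    Metric.tendstoUniformlyOn_iff.1 (dlim hr h0 (h.mono fun k hk => hk.1) ht) (1 / (2 * K))
      (by positivity)] with k k1 k2 k3
  refine Subset.trans (ball_subset_ball' ?_) (H (g k) c k1.1 (fun y hy => ?_) fun v => ?_)
  · linarith [k2 c (mem_ball_self hr)]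
  · exact (norm_sub_le_of_le (k1.2 y hy) (k1.2 c (mem_ball_self hr))).trans
      (le_max_of_le_right (by linarith))
  · have a1 := (k3 c (mem_ball_self (half_pos hr))).le
    rw [dist_eq_norm, le_div_iff₀ (by positivity)] at a1
    have a2 := (fderiv ℂ g₀ c - fderiv ℂ (g k) c).le_opNorm v
    rw [ContinuousLinearMap.sub_apply] at a2
    have a3 := norm_sub_norm_le (fderiv ℂ g₀ c v) (fderiv ℂ (g k) c v)
    have a4 := hK' v
    have a5 := mul_le_mul_of_nonneg_left (a3.trans a2) K1.le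
    have a6 := mul_le_mul_of_nonneg_right a1 (norm_nonneg v)
    refine le_trans ?_ (mul_le_mul_of_nonneg_right (le_max_left _ _) (norm_nonneg _))
    linarith

end pure

variable {M : Type} [MetricSpace M] [ChartedSpace (Cm n) M] {Θ : ℕ → Cm n → M} {Θ₀ : Cm n → M}

theorem det_iff (df : DF n M) (a : B1a n M) {Ψ : Cm n → M} {y : Cm n} {e : Chart n M}
    (h : MDifferentiableAt 𝓘(ℂ, Cm n) 𝓘(ℂ, Cm n) Ψ y) (he : Hc e) (hy : Ψ y ∈ e.source) :
    (jm Ψ y).det ≠ 0 ↔ (mx (fderiv ℂ (fun w => e (Ψ w)) y)).det ≠ 0 := by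
  rw [(df.ch Ψ y e h he hy).2.1, Matrix.det_mul, mul_ne_zero_iff]
  exact and_iff_right (a.jac_ne _ _ he (a.chart _) _ hy (mem_chart_source _ _))

/-- all maps go into one chart -/
theorem loc (df : DF n M) (a : B1a n M) (h0 : Hn Θ₀ univ)
    (h : ∀ R : ℝ, ∀ᶠ k in uf, Hn (Θ k) (ball 0 R) ∧ InjOn (Θ k) (ball 0 R) ∧
      ∀ y ∈ ball (0 : Cm n) R, (jm (Θ k) y).det ≠ 0)
    (ht : TendstoLocallyUniformly Θ Θ₀ uf) (c : Cm n) : ∃ (e : Chart n M) (r s : ℝ), Hc e ∧ 0 < r ∧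
      (∀ y ∈ ball c r, Θ₀ y ∈ e.source) ∧ DifferentiableOn ℂ (fun w => e (Θ₀ w)) (ball c r) ∧
      (∀ y ∈ ball c r, ‖e (Θ₀ y)‖ ≤ s) ∧
      (∀ᶠ k in uf, (∀ y ∈ ball c r, Θ k y ∈ e.source) ∧
        DifferentiableOn ℂ (fun w => e (Θ k w)) (ball c r) ∧ (∀ y ∈ ball c r, ‖e (Θ k y)‖ ≤ s) ∧
        ∀ y ∈ ball c r, (mx (fderiv ℂ (fun w => e (Θ k w)) y)).det ≠ 0) ∧
      TendstoUniformlyOn (fun k w => e (Θ k w)) (fun w => e (Θ₀ w)) uf (ball c r) := by
  have : LocallyCompactSpace M := ChartedSpace.locallyCompactSpace (Cm n) M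
  have d0 := mdifferentiableOn_univ.1 h0
  set e := chartAt (Cm n) (Θ₀ c) with he
  have hc : Hc e := a.chart _
  obtain ⟨K, K1, K2, K3⟩ := exists_compact_subset e.open_source (mem_chart_source (Cm n) (Θ₀ c))
  obtain ⟨η, η0, hη⟩ := Metric.mem_nhds_iff.1 (mem_interior_iff_mem_nhds.1 K2)
  obtain ⟨s, hs⟩ := K1.exists_bound_of_continuousOn (e.continuousOn.mono K3)
  obtain ⟨r₀, r0, hr⟩ := Metric.mem_nhds_iff.1 (d0.continuous.continuousAt.preimage_mem_nhds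
    (ball_mem_nhds (Θ₀ c) (half_pos η0)))
  have r1 : 0 < min r₀ 1 := lt_min r0 one_pos
  have m0 : ∀ y ∈ ball c (min r₀ 1), Θ₀ y ∈ ball (Θ₀ c) (η / 2) := fun y hy =>
    hr (ball_subset_ball (min_le_left _ _) hy)
  have m1 : ∀ y ∈ ball c (min r₀ 1), Θ₀ y ∈ K := fun y hy =>
    hη (ball_subset_ball (by linarith) (m0 y hy))
  have u : TendstoUniformlyOn Θ Θ₀ uf (ball c (min r₀ 1)) :=
    ((tendstoLocallyUniformlyOn_iff_tendstoUniformlyOn_of_compact (isCompact_closedBall c _)).1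
      ht.tendstoLocallyUniformlyOn).mono ball_subset_closedBall
  have m2 : ∀ᶠ k in uf, ∀ y ∈ ball c (min r₀ 1), Θ k y ∈ K := by
    filter_upwards [Metric.tendstoUniformlyOn_iff.1 u _ (half_pos η0)] with k hk y hy
    refine hη (mem_ball.2 ?_)
    linarith [dist_triangle_left (Θ k y) (Θ₀ c) (Θ₀ y), hk y hy, mem_ball.1 (m0 y hy)]
  refine ⟨e, min r₀ 1, s, hc, r1, fun y hy => K3 (m1 y hy), fun y hy =>
    (df.ch Θ₀ y e (d0 y) hc (K3 (m1 y hy))).1.differentiableWithinAt, fun y hy => hs _ (m1 y hy),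
    ?_, (K1.uniformContinuousOn_of_continuous
      (e.continuousOn.mono K3)).comp_tendstoUniformlyOn_eventually m2 m1 u⟩
  have sb : ball c (min r₀ 1) ⊆ ball 0 (‖c‖ + 1) :=
    ball_subset_ball' (by rw [dist_zero_right]; linarith [min_le_right r₀ 1])
  filter_upwards [m2, h (‖c‖ + 1)] with k k1 k2
  have dk : ∀ y ∈ ball c (min r₀ 1), MDifferentiableAt 𝓘(ℂ, Cm n) 𝓘(ℂ, Cm n) (Θ k) y :=
    fun y hy => k2.1.mdifferentiableAt (isOpen_ball.mem_nhds (sb hy))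
  exact ⟨fun y hy => K3 (k1 y hy), fun y hy =>
    (df.ch _ y e (dk y hy) hc (K3 (k1 y hy))).1.differentiableWithinAt, fun y hy => hs _ (k1 y hy),
    fun y hy => (det_iff df a (dk y hy) hc (K3 (k1 y hy))).1 (k2.2.2 y (sb hy))⟩

end Hur

open Hur

variable {n : ℕ} {M : Type} [MetricSpace M] [ChartedSpace (Cm n) M]

/-- **HUR** -/
theorem hur (df : DF n M) (o : OPN n) (a : B1a n M) : HUR n M := fun Θ Θ₀ h0 h ht e0 => by
  have d0 := mdifferentiableOn_univ.1 h0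
  have L := loc df a h0 h ht
  have key : ∀ c : Cm n, ∃ r > 0, (∃ y ∈ ball c r, (jm Θ₀ y).det ≠ 0) →
      ∀ y ∈ ball c r, (jm Θ₀ y).det ≠ 0 := fun c => by
    obtain ⟨e, r, s, hc, r0, s0, g0, b0, ev, u⟩ := L c
    have sb : ball c (r / 2) ⊆ ball c r := ball_subset_ball (by linarith)
    refine ⟨r / 2, half_pos r0, fun ⟨z, hz, k⟩ y hy => ?_⟩
    exact (det_iff df a (d0 y) hc (s0 y (sb hy))).2 (hurd o r0 g0 b0 (ev.mono fun k hk => hk.2) u
      ⟨z, hz, (det_iff df a (d0 z) hc (s0 z (sb hz))).1 k⟩ y hy)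
  have cl : IsClopen {y | (jm Θ₀ y).det ≠ 0} := by
    constructor
    · refine isOpen_compl_iff.1 (Metric.isOpen_iff.2 fun c hc => ?_)
      obtain ⟨r, r0, k⟩ := key c
      exact ⟨r, r0, fun y hy i => hc (k ⟨y, hy, i⟩ c (mem_ball_self r0))⟩
    · refine Metric.isOpen_iff.2 fun c hc => ?_
      obtain ⟨r, r0, k⟩ := key c
      exact ⟨r, r0, k ⟨c, mem_ball_self r0, hc⟩⟩
  have et : ∀ y, (jm Θ₀ y).det ≠ 0 := eq_univ_iff_forall.1 (cl.eq_univ ⟨0, e0⟩)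
  have cov : ∀ (c : Cm n) (δ : ℝ), 0 < δ → ∃ N ∈ 𝓝 (Θ₀ c), ∀ᶠ k in uf, N ⊆ Θ k '' ball c δ :=
    fun c δ hδ => by
    obtain ⟨e, r, s, hc, r0, s0, g0, b0, ev, u⟩ := L c
    have m := s0 c (mem_ball_self r0)
    obtain ⟨ρ, ρ0, H⟩ := cover o r0 g0 (ev.mono fun k hk => ⟨hk.2.1, hk.2.2.1⟩) u
      ((df.ch Θ₀ c e (d0 c) hc m).2.2.1 (et c)) hδ
    refine ⟨e.source ∩ e ⁻¹' ball (e (Θ₀ c)) ρ, inter_mem (e.open_source.mem_nhds m)
      ((e.continuousAt m).preimage_mem_nhds (ball_mem_nhds _ ρ0)), ?_⟩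
    filter_upwards [H, ev] with k k1 k2 x hx
    obtain ⟨y, hy, k3⟩ := k1 hx.2
    exact ⟨y, hy.1, e.injOn (k2.1 y hy.2) hx.1 k3⟩
  refine ⟨et, fun y y' hy => by_contra fun ne => ?_, fun K hK sK => ?_⟩
  · have δ0 : 0 < dist y y' / 2 := half_pos (dist_pos.2 ne)
    obtain ⟨N, N1, N2⟩ := cov y _ δ0
    obtain ⟨N', N1', N2'⟩ := cov y' _ δ0
    obtain ⟨k, ⟨k1, k2⟩, k3⟩ := ((N2.and N2').and (h (‖y‖ + ‖y'‖ + dist y y' / 2))).exists
    obtain ⟨z, hz, z1⟩ := k1 (mem_of_mem_nhds N1)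
    obtain ⟨z', hz', z2⟩ := k2 (mem_of_mem_nhds N1')
    have e := k3.2.1 (ball_subset_ball' (by rw [dist_zero_right]; linarith [norm_nonneg y']) hz)
      (ball_subset_ball' (by rw [dist_zero_right]; linarith [norm_nonneg y]) hz')
      (z1.trans (hy.trans z2.symm))
    exact disjoint_left.1 (ball_disjoint_ball (add_halves _).le) hz (e ▸ hz')
  · refine hK.induction_on (p := fun S => ∃ R : ℝ, ∀ᶠ k in uf, S ⊆ Θ k '' ball 0 R)
      ⟨0, .of_forall fun _ => empty_subset _⟩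
      (fun S S' hS ⟨R, k⟩ => ⟨R, k.mono fun _ i => hS.trans i⟩)
      (fun S S' ⟨R, k⟩ ⟨R', k'⟩ => ⟨max R R', (k.and k').mono fun _ i => union_subset
        (i.1.trans (image_mono (ball_subset_ball (le_max_left _ _))))
        (i.2.trans (image_mono (ball_subset_ball (le_max_right _ _))))⟩) fun x hx => ?_
    obtain ⟨c, rfl⟩ := sK hx
    obtain ⟨N, N1, N2⟩ := cov c 1 one_pos
    exact ⟨N, mem_nhdsWithin_of_mem_nhds N1, ‖c‖ + 1, N2.mono fun _ i => i.trans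
      (image_mono (ball_subset_ball' (by rw [dist_zero_right]; linarith)))⟩

end Vale.Agent.P253W.D
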