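import Vale.Agent.P253W.D.Spec
import Vale.Agent.P268.Hol

/-!
# P253W, rows D.INV, D.BIH: the implicit function theorem on the manifold
-/

open scoped Manifold ContDiff Topology
open Set Filter Vale.Agent.P253Z
open Vale.Agent.P272.K (Cm)

noncomputable section

namespace Vale.Agent.P253W.D

variable {n : ℕ} {M : Type} [MetricSpace M] [ChartedSpace (Cm n) M]

/-- a holomorphic map is analytic in a chart -/
theorem an_ch (df : DF n M) {V : Type} [NormedAddCommGroup V] [NormedSpace ℂ V]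
    [FiniteDimensional ℂ V] {f : V → M} {D : Set V} (hD : IsOpen D)
    (hf : MDifferentiableOn 𝓘(ℂ, V) 𝓘(ℂ, Cm n) f D) {e : P272.K.Chart n M} (he : Hc e) {q : V}
    (hq : q ∈ D) (hs : f q ∈ e.source) : AnalyticAt ℂ (fun q => e (f q)) q :=
  P268.analyticOnNhd_of_differentiableOn (hf.continuousOn.isOpen_inter_preimage hD e.open_source)
    (mdifferentiableOn_iff_differentiableOn.1
      ((df.symm e he).2.1.comp (hf.mono inter_subset_left) inter_subset_right)) q ⟨hq, hs⟩

theorem loc_inv {V E : Type} [NormedAddCommGroup V] [NormedSpace ℂ V] [FiniteDimensional ℂ V]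
    [NormedAddCommGroup E] [NormedSpace ℂ E] [FiniteDimensional ℂ E] {f : V × E → E} {a : V} {b : E}
    (h : AnalyticAt ℂ f (a, b)) (i : Function.Injective (fderiv ℂ (fun w => f (a, w)) b)) :
    ∃ Ψ : V × E → V × E, DifferentiableAt ℂ Ψ (a, f (a, b)) ∧ Ψ (a, f (a, b)) = (a, b) ∧
      (∀ᶠ q in 𝓝 (a, b), Ψ (q.1, f q) = q) ∧ ∀ᶠ p in 𝓝 (a, f (a, b)), ((Ψ p).1, f (Ψ p)) = p := by
  have := FiniteDimensional.complete ℂ (V × E)
  have d1 := h.hasStrictFDerivAt
  have d2 := (hasStrictFDerivAt_fst (𝕜 := ℂ) (p := (a, b))).prodMk d1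
  rw [show fderiv ℂ (fun w => f (a, w)) b = _ from
    (d1.hasFDerivAt.comp b (hasFDerivAt_prodMk_right a b)).fderiv] at i
  obtain ⟨L, hL⟩ : ∃ L : (V × E) ≃L[ℂ] V × E, HasStrictFDerivAt
      (fun q : V × E => (q.1, f q)) (L : V × E →L[ℂ] V × E) (a, b) := by
    refine ⟨(LinearEquiv.ofInjectiveEndo
      ((ContinuousLinearMap.fst ℂ V E).prod (fderiv ℂ f (a, b))).toLinearMap
      ((injective_iff_map_eq_zero _).2 ?_)).toContinuousLinearEquiv, d2⟩
    rintro ⟨u, v⟩ h
    obtain rfl : u = 0 := congrArg Prod.fst h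
    rw [(injective_iff_map_eq_zero _).1 i v (congrArg Prod.snd h)]
    rfl
  exact ⟨_, hL.to_localInverse.hasFDerivAt.differentiableAt, hL.localInverse_apply_image,
    hL.eventually_left_inverse, hL.eventually_right_inverse⟩

theorem inv (a : B1a n M) (df : DF n M) : INV n M := by
  intro V _ _ _ X D g S y hD hX hj hS hg hy hc τ₀ h₀
  obtain ⟨m₀, e₀⟩ := hy τ₀ h₀
  obtain ⟨e, he, s₀⟩ : ∃ e : P272.K.Chart n M, Hc e ∧ g τ₀ ∈ e.source :=
    ⟨_, a.chart _, mem_chart_source _ _⟩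
  have s₁ : X τ₀ (y τ₀) ∈ e.source := e₀ ▸ s₀
  have m1 : MDifferentiableAt 𝓘(ℂ, Cm n) 𝓘(ℂ, Cm n) (X τ₀) (y τ₀) :=
    (hX.mdifferentiableAt (hD.mem_nhds m₀)).comp (f := fun w => (τ₀, w)) (y τ₀)
      (mdifferentiableAt_iff_differentiableAt.2 (by fun_prop))
  have a1 : AnalyticAt ℂ (fun q : V × Cm n => e (X q.1 q.2)) (τ₀, y τ₀) := an_ch df hD hX he m₀ s₁
  have i1 := (df.ch (X τ₀) (y τ₀) e m1 he s₁).2.2.1 (hj (τ₀, y τ₀) m₀)
  obtain ⟨Ψ, d4, p0, p1, p2⟩ := loc_inv a1 i1
  simp only [e₀] at d4 p0 p2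
  have d3 : DifferentiableAt ℂ (fun τ => (τ, e (g τ))) τ₀ :=
    differentiableAt_id.prodMk (an_ch df hS hg he h₀ s₀).differentiableAt
  have d5 : DifferentiableAt ℂ (fun τ => Ψ (τ, e (g τ))) τ₀ := d4.comp (f := fun τ => (τ, e (g τ))) τ₀ d3
  refine (d5.snd.congr_of_eventuallyEq ?_).differentiableWithinAt
  have nS := hS.mem_nhds h₀
  rcases hc with c | c
  · filter_upwards [(continuousAt_id.prodMk (c.continuousAt nS)).eventually p1, nS] with τ h1 h2
    simp only [id, (hy τ h2).2] at h1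
    rw [h1]
  · have nb : D ∩ (fun q : V × Cm n => X q.1 q.2) ⁻¹' e.source ∈ 𝓝 (Ψ (τ₀, e (g τ₀))) :=
      p0 ▸ (hX.continuousOn.isOpen_inter_preimage hD e.open_source).mem_nhds ⟨m₀, s₁⟩
    filter_upwards [d3.continuousAt.eventually p2, d5.continuousAt.eventually nb, nS,
      (hg.continuousOn.continuousAt nS).eventually (e.open_source.mem_nhds s₀)] with τ h1 h2 h3 h4
    generalize Ψ (τ, e (g τ)) = q at h1 h2 ⊢
    obtain ⟨σ, w⟩ := q
    obtain rfl : σ = τ := congrArg Prod.fst h1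
    exact c σ h3 (hy σ h3).1 h2.1
      ((hy σ h3).2.trans (e.injOn h2.2 h4 (congrArg Prod.snd h1)).symm)

theorem bih (a : B1a n M) (df : DF n M) : BIH n M := by
  intro Θ h hj hb
  let E := Equiv.ofBijective Θ hb
  refine ⟨⟨E.symm, fun x => ?_, fun y => ?_⟩, E.symm_apply_apply⟩
  · set e := pc n x
    have s : x ∈ e.source := mem_chart_source _ _
    have d := P268.analyticOnNhd_of_differentiableOn e.open_target (inv a df (Cm n) (fun _ => Θ) univ
      e.symm e.target (fun w => E.symm (e.symm w)) isOpen_univ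
      (h.comp (f := Prod.snd) (mdifferentiableOn_iff_differentiableOn.2 differentiableOn_snd)
        (mapsTo_univ _ _)) (fun q _ => hj q.2) e.open_target (df.symm e (a.chart x)).1
      (fun w _ => ⟨trivial, E.apply_symm_apply _⟩) (.inr fun _ _ => hb.1.injOn)) _ (e.map_source s)
    refine contMDiffAt_iff.2 ⟨(d.continuousAt.comp (e.continuousAt s)).congr
      ((e.eventually_left_inverse s).mono fun z hz => congrArg E.symm hz), ?_⟩
    simpa [contDiffWithinAt_univ, chartAt_self_eq, Function.comp_def] using d.contDiffAt (n := 1)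
  · refine contMDiffAt_iff.2 ⟨h.continuousOn.continuousAt univ_mem, ?_⟩
    simpa [contDiffWithinAt_univ, chartAt_self_eq, Function.comp_def, E] using
      (an_ch df isOpen_univ h (a.chart (Θ y)) trivial (mem_chart_source _ _)).contDiffAt (n := 1)

end Vale.Agent.P253W.D
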