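import Vale.Agent.P253W.D.Spec

/-!
# P253W, block D: lifting through an etale map
-/

open scoped Manifold ContDiff Bundle ENNReal Topology Matrix ComplexOrder
open Bundle IsManifold MeasureTheory Set Metric Filter Vale.Agent.P253.Mfd Vale.Agent.P253Z
open Vale.Agent.P272.K (Cm jacM Chart)

noncomputable section

namespace Vale.Agent.P253W.D

variable {n : ℕ} {M : Type}

namespace Lift

/-- holomorphic lifts on an open set -/
structure Lf (Ψ g : Cm n → M) (U D S : Set (Cm n)) (s : Cm n → Cm n) : Prop where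
  op : IsOpen S
  sub : S ⊆ D
  hol : DifferentiableOn ℂ s S
  val : ∀ w ∈ S, s w ∈ U ∧ Ψ (s w) = g w

/-- a convex open tube around a segment -/
theorem tube {S : Set (Cm n)} (hS : IsOpen S) {c w : Cm n} (h : segment ℝ c w ⊆ S) :
    ∃ A : Set (Cm n), IsOpen A ∧ Convex ℝ A ∧ segment ℝ c w ⊆ A ∧ A ⊆ S := by
  have hc : IsCompact (segment ℝ c w) := by
    rw [segment_eq_image_lineMap]
    exact isCompact_Icc.image AffineMap.lineMap_continuous
  obtain ⟨δ, hδ, h1⟩ := hc.exists_thickening_subset_open hS h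
  exact ⟨_, isOpen_thickening, (convex_segment c w).thickening δ, self_subset_thickening hδ _, h1⟩

/-- continuation along rays -/
theorem rays [TopologicalSpace M] [T2Space M] {Ψ g : Cm n → M} {U K : Set (Cm n)} {c y₀ : Cm n}
    {r : ℝ} (hr : 0 < r) (hU : IsOpen U) (hK : IsCompact K) (hKU : K ⊆ U) (hΨ : ContinuousOn Ψ U)
    (hg : ContinuousOn g (ball c r)) (hy : y₀ ∈ U) (h0 : Ψ y₀ = g c)
    (loc : ∀ y ∈ U, ∀ w ∈ ball c r, Ψ y = g w → ∃ W ∈ 𝓝 y, InjOn Ψ W ∧ ∃ δ : ℝ, 0 < δ ∧ ∃ s,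
      Lf Ψ g U (ball c r) (ball w δ) s ∧ ∀ w' ∈ ball w δ, s w' ∈ W)
    (unq : ∀ (S : Set (Cm n)) (s s' : Cm n → Cm n), IsPreconnected S → ContinuousOn s S →
      ContinuousOn s' S → MapsTo s S U → MapsTo s' S U → (∀ v ∈ S, Ψ (s v) = Ψ (s' v)) →
      ∀ v ∈ S, s v = s' v → EqOn s s' S)
    (bd : ∀ S s w, Lf Ψ g U (ball c r) S s → s c = y₀ → segment ℝ c w ⊆ S → s w ∈ K) :
    ∃ s, Lf Ψ g U (ball c r) (ball c r) s ∧ s c = y₀ := by
  classical
  have uq : ∀ {S S' s s'} (A : Set (Cm n)), Lf Ψ g U (ball c r) S s → Lf Ψ g U (ball c r) S' s' →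
      Convex ℝ A → A ⊆ S → A ⊆ S' → ∀ v ∈ A, s v = s' v → EqOn s s' A :=
    fun A h h' hA h1 h2 => unq A _ _ hA.isPreconnected (h.hol.continuousOn.mono h1)
      (h'.hol.continuousOn.mono h2) (fun v hv => (h.val v (h1 hv)).1)
      (fun v hv => (h'.val v (h2 hv)).1)
      fun v hv => (h.val v (h1 hv)).2.trans (h'.val v (h2 hv)).2.symm
  let G : Set (Cm n) := {w | ∃ p : Set (Cm n) × (Cm n → Cm n),
    Lf Ψ g U (ball c r) p.1 p.2 ∧ p.2 c = y₀ ∧ segment ℝ c w ⊆ p.1}
  let σ : Cm n → Cm n := fun w => if h : w ∈ G then h.choose.2 w else 0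
  have key : ∀ S s w, Lf Ψ g U (ball c r) S s → s c = y₀ → segment ℝ c w ⊆ S → σ w = s w := by
    intro S s w h1 h2 h3
    have hw : w ∈ G := ⟨(S, s), h1, h2, h3⟩
    obtain ⟨k1, k2, k3⟩ := hw.choose_spec
    simp only [σ, dif_pos hw]
    exact uq _ k1 h1 (convex_segment c w) k3 h3 c (left_mem_segment _ _ _) (k2.trans h2.symm)
      (right_mem_segment _ _ _)
  have near : ∀ w ∈ G, ∃ S s, Lf Ψ g U (ball c r) S s ∧ s c = y₀ ∧ Convex ℝ S ∧ c ∈ S ∧ w ∈ S ∧
      S ⊆ G ∧ EqOn σ s S := by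
    rintro w ⟨⟨S, s⟩, h1, h2, h3⟩
    obtain ⟨A, a1, a2, a3, a4⟩ := tube h1.op h3
    have hc := a3 (left_mem_segment _ _ _)
    have h4 : Lf Ψ g U (ball c r) A s :=
      ⟨a1, a4.trans h1.sub, h1.hol.mono a4, fun v hv => h1.val v (a4 hv)⟩
    exact ⟨A, s, h4, h2, a2, hc, a3 (right_mem_segment _ _ _),
      fun v hv => ⟨(A, s), h4, h2, a2.segment_subset hc hv⟩,
      fun v hv => key A s v h4 h2 (a2.segment_subset hc hv)⟩
  have hG : IsOpen G := isOpen_iff_mem_nhds.2 fun w hw => by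
    obtain ⟨S, s, h1, -, -, -, h5, h6, -⟩ := near w hw
    exact mem_of_superset (h1.op.mem_nhds h5) h6
  have hc : c ∈ G := by
    obtain ⟨W, hW, h1, δ, hδ, s, h2, h3⟩ := loc y₀ hy c (mem_ball_self hr) h0
    have h4 := mem_ball_self (x := c) hδ
    exact ⟨(_, s), h2, h1 (h3 c h4) (mem_of_mem_nhds hW) ((h2.val c h4).2.trans h0.symm),
      by rw [segment_same]; exact singleton_subset_iff.2 h4⟩
  have all : ball c r ⊆ G := by
    intro w hw
    let ray : ℝ →ᵃ[ℝ] Cm n := AffineMap.lineMap c w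
    have rc : Continuous ray := AffineMap.lineMap_continuous
    have r0 : ray 0 = c := AffineMap.lineMap_apply_zero _ _
    have hs : Icc (0 : ℝ) 1 ⊆ ray ⁻¹' G := by
      refine isPreconnected_Icc.subset_of_closure_inter_subset (hG.preimage rc)
        ⟨0, by simp, by simpa [r0] using hc⟩ ?_
      rintro τ₀ ⟨h1, h2⟩
      have hb : ray τ₀ ∈ ball c r := (convex_ball c r).segment_subset (mem_ball_self hr) hw
        (by rw [segment_eq_image_lineMap]; exact mem_image_of_mem _ h2)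
      have := mem_closure_iff_nhdsWithin_neBot.1 h1
      let u := Ultrafilter.of (𝓝[ray ⁻¹' G] τ₀)
      have u1 : ∀ᶠ τ in (u : Filter ℝ), ray τ ∈ G :=
        Ultrafilter.of_le _ self_mem_nhdsWithin
      have u2 : Tendsto ray u (𝓝 (ray τ₀)) :=
        (rc.tendsto τ₀).mono_left ((Ultrafilter.of_le _).trans nhdsWithin_le_nhds)
      obtain ⟨y₁, k1, k2⟩ := hK.ultrafilter_le_nhds (u.map fun τ => σ (ray τ)) (by
        rw [Ultrafilter.coe_map, le_principal_iff, mem_map]
        filter_upwards [u1] with τ hτ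
        obtain ⟨S, s, h3, h4, h5, h6, h7, -, h9⟩ := near _ hτ
        show σ (ray τ) ∈ K
        rw [h9 h7]
        exact bd S s _ h3 h4 (h5.segment_subset h6 h7))
      have k3 : Tendsto (fun τ => σ (ray τ)) u (𝓝 y₁) := k2
      have k4 : Ψ y₁ = g (ray τ₀) := by
        refine tendsto_nhds_unique (((hΨ.continuousAt (hU.mem_nhds (hKU k1))).tendsto.comp
          k3).congr' ?_) ((hg.continuousAt (isOpen_ball.mem_nhds hb)).tendsto.comp u2)
        filter_upwards [u1] with τ hτ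
        obtain ⟨S, s, h3, -, -, -, h7, -, h9⟩ := near _ hτ
        simp only [Function.comp, h9 h7, (h3.val _ h7).2]
      obtain ⟨W, hW, h3, δ, hδ, s', h4, h5⟩ := loc y₁ (hKU k1) _ hb k4
      obtain ⟨τ, t1, t2, t3⟩ := (u1.and ((k3.eventually hW).and
        (u2.eventually (ball_mem_nhds _ hδ)))).exists
      obtain ⟨A, s, a1, a2, a3, a4, a5, -, a7⟩ := near _ t1
      have e1 : s (ray τ) = s' (ray τ) := h3 (a7 a5 ▸ t2) (h5 _ t3)
        ((a1.val _ a5).2.trans (h4.val _ t3).2.symm)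
      have e2 := uq (A ∩ ball (ray τ₀) δ) a1 h4 (a3.inter (convex_ball _ _)) inter_subset_left
        inter_subset_right _ ⟨a5, t3⟩ e1
      have p1 : EqOn (A.piecewise s s') s A := piecewise_eqOn _ _ _
      have p2 : EqOn (A.piecewise s s') s' (ball (ray τ₀) δ) := fun v hv => by
        by_cases h : v ∈ A
        · rw [p1 h, e2 ⟨h, hv⟩]
        · exact piecewise_eq_of_notMem _ _ _ h
      refine ⟨(A ∪ ball (ray τ₀) δ, A.piecewise s s'), ⟨a1.op.union isOpen_ball,
        union_subset a1.sub h4.sub, ?_, ?_⟩, (p1 a4).trans a2, ?_⟩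
      · rintro v (hv | hv)
        · exact ((a1.hol.congr p1).differentiableAt (a1.op.mem_nhds hv)).differentiableWithinAt
        · exact ((h4.hol.congr p2).differentiableAt
            (isOpen_ball.mem_nhds hv)).differentiableWithinAt
      · rintro v (hv | hv)
        · simpa only [p1 hv] using a1.val v hv
        · simpa only [p2 hv] using h4.val v hv
      · show segment ℝ c (ray τ₀) ⊆ A ∪ ball (ray τ₀) δ
        rw [← r0, ← image_segment, segment_eq_uIcc]
        refine (image_mono (uIcc_subset_uIcc_union_uIcc (b := τ))).trans ?_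
        rw [image_union, ← segment_eq_uIcc, ← segment_eq_uIcc, image_segment, image_segment, r0]
        exact union_subset_union (a3.segment_subset a4 a5)
          ((convex_ball _ _).segment_subset t3 (mem_ball_self hδ))
    simpa [ray] using hs (right_mem_Icc.2 zero_le_one)
  refine ⟨σ, ⟨isOpen_ball, Subset.rfl, fun w hw => ?_, fun w hw => ?_⟩, ?_⟩
  · obtain ⟨S, s, h1, -, -, -, h5, -, h7⟩ := near w (all hw)
    exact ((h1.hol.congr h7).differentiableAt (h1.op.mem_nhds h5)).differentiableWithinAt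
  · obtain ⟨S, s, h1, -, -, -, h5, -, h7⟩ := near w (all hw)
    exact h7 h5 ▸ h1.val w h5
  · obtain ⟨S, s, -, h2, -, h4, -, -, h7⟩ := near c hc
    exact (h7 h4).trans h2

end Lift

variable [MetricSpace M] [ChartedSpace (Cm n) M]
  [RiemannianBundle fun x : M => TangentSpace 𝓘(ℝ, Cm n) x] {F : Flow n M}

/-- **LIFT** -/
theorem lift (df : DF n M) (inv : INV n M) (mt : MT F) : LIFT F := by
  intro t l a r Ψ g c y₀ ht hl ha hr hΨ lo hg up h0 hy
  have et : ∀ y ∈ ball (0 : Cm n) 1, (jm Ψ y).det ≠ 0 := fun y hy =>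
    mt.et t (l ^ 2) Ψ y (by positivity) (lo y hy)
  have har : 0 ≤ a * r / l := by positivity
  have bd : ∀ S s w, Lift.Lf Ψ g (ball 0 1) (ball c r) S s → s c = y₀ → segment ℝ c w ⊆ S →
      s w ∈ closedBall y₀ (a * r / l) := by
    intro S s w h1 h2 h3
    have hd : ∀ x ∈ segment ℝ c w, DifferentiableAt ℂ s x := fun x hx =>
      h1.hol.differentiableAt (h1.op.mem_nhds (h3 hx))
    have h4 := (convex_segment c w).norm_image_sub_le_of_norm_fderiv_le (𝕜 := ℂ) (C := a / l) hd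
      (fun x hx => ?_) (left_mem_segment _ _ _) (right_mem_segment _ _ _)
    · rw [mem_closedBall, dist_eq_norm, ← h2]
      have h5 : ‖w - c‖ ≤ r := by
        rw [← dist_eq_norm]
        exact (mem_ball.1 (h1.sub (h3 (right_mem_segment _ _ _)))).le
      calc _ ≤ a / l * ‖w - c‖ := h4
        _ ≤ a / l * r := by gcongr
        _ = _ := by ring
    · refine ContinuousLinearMap.opNorm_le_bound _ (by positivity) fun v => ?_
      have hx' := h1.val x (h3 hx)
      have e1 : (fun w => Ψ (s w)) =ᶠ[𝓝 x] g :=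
        eventually_of_mem (h1.op.mem_nhds (h3 hx)) fun w hw => (h1.val w hw).2
      have e2 := (df.chain Ψ s x (hΨ.mdifferentiableAt (isOpen_ball.mem_nhds hx'.1))
        (hd x hx)).2 v
      have e3 : dn (fun w => Ψ (s w)) x v = dn g x v := by rw [dn, dn, df.congr _ _ _ e1]
      have e4 := lo _ hx'.1 (fderiv ℂ s x v)
      rw [← e2, e3, hx'.2] at e4
      have e5 := e4.trans (up x (h1.sub (h3 hx)) v)
      rw [← mul_pow, ← mul_pow] at e5
      have e6 := le_of_sq_le_sq e5 (by positivity)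
      rw [div_mul_eq_mul_div, le_div_iff₀ hl]
      linarith
  have H := Lift.rays (K := closedBall y₀ (a * r / l)) hr isOpen_ball
    (isCompact_closedBall _ _) (fun y hy' => ?_) hΨ.continuousOn hg.continuousOn
    (mem_ball_zero_iff.2 (by linarith)) h0 (fun y hy' w hw h => ?_)
    (fun S => df.unq Ψ _ isOpen_ball hΨ et _ S) bd
  · obtain ⟨s, h1, h2⟩ := H
    exact ⟨s, h1.hol, h2, fun w hw => ⟨(h1.val w hw).2, by
      simpa [dist_eq_norm] using bd _ s w h1 h2
        ((convex_ball c r).segment_subset (mem_ball_self hr) hw)⟩⟩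
  · rw [mem_closedBall, dist_eq_norm] at hy'
    rw [mem_ball_zero_iff]
    linarith [norm_le_insert' y y₀]
  · obtain ⟨⟨W₀, w1, w2⟩, w3⟩ := df.loc Ψ _ isOpen_ball hΨ y hy' (et y hy')
    obtain ⟨W, v1, v2, v3⟩ := _root_.mem_nhds_iff.1 (inter_mem w1 (isOpen_ball.mem_nhds hy'))
    have v4 : InjOn Ψ W := w2.mono fun x hx => (v1 hx).1
    have v5 : W ⊆ ball 0 1 := fun x hx => (v1 hx).2
    have v6 : g ⁻¹' (Ψ '' W) ∈ 𝓝 w := (hg.continuousOn.continuousAt (isOpen_ball.mem_nhds hw))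
      (h ▸ w3 (image_mem_map (v2.mem_nhds v3)))
    obtain ⟨δ, hδ, v7⟩ := Metric.mem_nhds_iff.1 (inter_mem v6 (isOpen_ball.mem_nhds hw))
    have v8 : ∀ w' ∈ ball w δ, Function.invFunOn Ψ W (g w') ∈ W ∧
        Ψ (Function.invFunOn Ψ W (g w')) = g w' := fun w' hw' =>
      Function.invFunOn_pos (v7 hw').1
    refine ⟨W, v2.mem_nhds v3, v4, δ, hδ, fun w' => Function.invFunOn Ψ W (g w'),
      ⟨isOpen_ball, fun x hx => (v7 hx).2, ?_, fun x hx => ⟨v5 (v8 x hx).1, (v8 x hx).2⟩⟩,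
      fun x hx => (v8 x hx).1⟩
    refine inv (Cm n) (fun _ => Ψ) (univ ×ˢ W) g _ _ (isOpen_univ.prod v2) ?_
      (fun q hq => et _ (v5 hq.2)) isOpen_ball (hg.mono fun x hx => (v7 hx).2)
      (fun x hx => ⟨⟨trivial, (v8 x hx).1⟩, (v8 x hx).2⟩)
      (Or.inr fun x _ => v4.mono fun y hy => hy.2)
    exact hΨ.comp (differentiable_snd (𝕜 := ℂ)).mdifferentiable.mdifferentiableOn
      fun q hq => v5 hq.2

end Vale.Agent.P253W.D
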