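import Vale.Agent.P253W.D.Spec

/-!
# P253W, block D: the row LMT
-/

open scoped Manifold ContDiff Bundle ENNReal Topology Matrix ComplexOrder
open Bundle IsManifold MeasureTheory Set Metric Filter Vale.Agent.P253.Mfd Vale.Agent.P253Z
open Vale.Agent.P272.K (Cm jacM Chart)
open Vale.Agent.P253W.C (ex)

noncomputable section

namespace Vale.Agent.P253W.D

namespace Lmt

variable {n : ℕ}

/-- three circles on the lines through the origin -/
theorem grow (jb : C.JB) {g : Cm n → ℂ} {r S B : ℝ} {N : ℕ} (hr : 0 < r) (hS : r ≤ S) (hB : 1 ≤ B)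
    (hd : DifferentiableOn ℂ g (ball 0 (2 * S))) (h1 : ∀ y ∈ closedBall (0 : Cm n) r, ‖g y‖ ≤ B)
    (h2 : ∀ y ∈ ball (0 : Cm n) (2 * S), ‖g y‖ ≤ (S / r) ^ N) {y : Cm n} (hy : ‖y‖ ≤ S) :
    ‖g y‖ ≤ B * (1 + ‖y‖ / r) ^ N := by
  by_cases y0 : y = 0
  · simpa [y0] using h1 0 (mem_closedBall_self hr.le)
  have y1 : 0 < ‖y‖ := norm_pos_iff.2 y0
  have e : ∀ τ : ℂ, ‖τ • ((r / ‖y‖ : ℝ) : ℂ) • y‖ = ‖τ‖ * r := fun τ => by
    rw [norm_smul, norm_smul, Complex.norm_of_nonneg (by positivity), div_mul_cancel₀ _ y1.ne']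
  have m : ∀ τ ∈ closedBall (0 : ℂ) (S / r), τ • ((r / ‖y‖ : ℝ) : ℂ) • y ∈ ball 0 (2 * S) :=
    fun τ hτ => by
      rw [mem_closedBall_zero_iff, le_div_iff₀ hr] at hτ
      rw [mem_ball_zero_iff, e]
      linarith
  have e1 : ‖((‖y‖ / r : ℝ) : ℂ)‖ = ‖y‖ / r := Complex.norm_of_nonneg (by positivity)
  have k := jb.three (fun τ => g (τ • ((r / ‖y‖ : ℝ) : ℂ) • y)) (S / r) B N
    ((one_le_div hr).2 hS) hB (DifferentiableOn.diffContOnCl (hd.comp (by fun_prop) fun τ hτ =>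
      m τ (closure_ball_subset_closedBall hτ)))
    (fun τ hτ => h1 _ (by
      rw [mem_closedBall_zero_iff] at hτ ⊢
      rw [e]
      exact mul_le_of_le_one_left hr.le hτ))
    (fun τ hτ => (h2 _ (m τ (sphere_subset_closedBall hτ))).trans
      (le_mul_of_one_le_left (pow_nonneg (div_nonneg (by linarith) hr.le) _) hB))
    ((‖y‖ / r : ℝ) : ℂ) (by rw [mem_closedBall_zero_iff, e1]; gcongr)
  rwa [e1, smul_smul, ← Complex.ofReal_mul, div_mul_div_cancel₀' y1.ne',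
    div_self hr.ne', Complex.ofReal_one, one_smul] at k

theorem arith {κ r : ℝ} (hκ : 0 < κ) (hr : 0 < r) (C : ℝ) : ∃ N : ℕ, ∀ R : ℝ, ∀ᶠ k : ℕ in atTop,
    R ≤ (k : ℝ) ^ κ / 2 ∧ (k : ℝ) ^ C ≤ ((k : ℝ) ^ κ / 2 / r) ^ N := by
  obtain ⟨N, hN⟩ := exists_nat_ge (C / κ)
  have h : Tendsto (fun k : ℕ => (k : ℝ) ^ κ) atTop atTop :=
    (tendsto_rpow_atTop hκ).comp tendsto_natCast_atTop_atTop
  refine ⟨2 * N, fun R => ?_⟩
  filter_upwards [h.eventually_ge_atTop (2 * R), h.eventually_ge_atTop ((2 * r) ^ 2),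
    eventually_ge_atTop 1] with k h1 h2 h3
  have h4 : (1 : ℝ) ≤ k := by exact_mod_cast h3
  have h5 : 0 ≤ (k : ℝ) ^ κ := by positivity
  refine ⟨by linarith, ?_⟩
  calc (k : ℝ) ^ C ≤ (k : ℝ) ^ (κ * N) :=
        Real.rpow_le_rpow_of_exponent_le h4 (by rwa [div_le_iff₀' hκ] at hN)
    _ = ((k : ℝ) ^ κ) ^ N := Real.rpow_mul_natCast (by positivity) _ _
    _ ≤ _ := by
      rw [pow_mul]
      refine pow_le_pow_left₀ h5 ?_ N
      rw [div_div, div_pow, le_div_iff₀ (by positivity), sq ((k : ℝ) ^ κ)]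
      exact mul_le_mul_of_nonneg_left h2 h5

theorem ev_ex (ρ : ℝ) : ∀ᶠ k : ℕ in atTop, (k : ℂ) ∈ ex ρ :=
  (tendsto_natCast_atTop_atTop.eventually_gt_atTop ρ).mono fun k hk => by
    simpa [ex] using hk

variable {M : Type} [MetricSpace M] [ChartedSpace (Cm n) M]

/-- the limit of maps on larger and larger balls -/
theorem glue (nf : NF n M) {g : ℕ → Cm n → M} (h : ∀ R : ℝ, ∃ K, IsCompact K ∧ ∀ᶠ k in uf,
    Hn (g k) (ball 0 R) ∧ MapsTo (g k) (ball 0 R) K) :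
    ∃ Θ, Hn Θ univ ∧ TendstoLocallyUniformly g Θ uf := by
  choose K hK hg using h
  choose G h1 h2 using fun R : ℝ => nf (Cm n) (hyperfilter ℕ) g (ball 0 R) (K R) isOpen_ball
    (hK R) (hg R)
  have m : ∀ y : Cm n, y ∈ ball (0 : Cm n) (‖y‖ + 1) := fun y => by simp
  have e : ∀ R, EqOn (G R) (fun y => G (‖y‖ + 1) y) (ball 0 R) := fun R y hy =>
    tendsto_nhds_unique ((h2 R).tendsto_at hy) ((h2 _).tendsto_at (m y))
  refine ⟨fun y => G (‖y‖ + 1) y, fun y _ => ?_, ?_⟩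
  · exact (((h1 _).congr fun w hw => (e _ hw).symm).mdifferentiableAt
      (isOpen_ball.mem_nhds (m y))).mdifferentiableWithinAt
  · exact tendstoLocallyUniformly_iff_forall_tendsto.2 fun y =>
      isOpen_ball.tendstoLocallyUniformlyOn_iff_forall_tendsto.1 ((h2 _).congr_right (e _)) y (m y)

variable [RiemannianBundle fun x : M => TangentSpace 𝓘(ℝ, Cm n) x] [MeasurableSpace M]
  {μ : Measure M} {F : Flow n M} {T : F.TA μ}

theorem cont_z (t : Tools T) : Continuous (zv T.z) :=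
  continuous_pi fun i => (t.zc.sec _ (T.z_mem i)).2.continuous

theorem th_zero (D : Dt T) {σ : ℂ} (h : σ ∈ ex D.B.ρ) : Th D.Φ D.B σ 0 = D.p := by
  rw [Th, D.B.zero σ h, ← D.act.add, neg_add_cancel, D.act.zero]

/-- polynomial growth on large balls -/
theorem bound (t : Tools T) (D : Dt T) (h1 : D.Ent) (h2 : D.Rgh) : ∃ (B : ℝ) (N : ℕ), 0 ≤ B ∧
    ∀ R : ℝ, ∀ᶠ k : ℕ in atTop, Hn (Th D.Φ D.B k) (ball 0 R) ∧
      ∀ y ∈ ball (0 : Cm n) R, ‖zv T.z (Th D.Φ D.B k y)‖ ≤ B * (1 + ‖y‖) ^ N := by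
  obtain ⟨ρ₁, r, hr, h1⟩ := h1
  obtain ⟨κ, C, ρ₂, hκ, h2⟩ := h2
  obtain ⟨B, hB⟩ := ((isCompact_closedBall _ _).image_of_continuousOn
    (D.e.continuousOn_symm.mono D.sub)).exists_bound_of_continuousOn (cont_z t).continuousOn
  obtain ⟨N, hN⟩ := arith hκ (half_pos hr) C
  refine ⟨max B 1 * (1 + (r / 2)⁻¹) ^ N, N, by positivity, fun R => ?_⟩
  filter_upwards [hN R, hN (r / 2), ev_ex ρ₁, ev_ex ρ₂, ev_ex D.B.ρ] with k k1 k2 k3 k4 k5
  have e : 2 * ((k : ℝ) ^ κ / 2) = ‖(k : ℂ)‖ ^ κ := by rw [Complex.norm_natCast]; ring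
  have hol : Hn (Th D.Φ D.B k) (ball 0 (2 * ((k : ℝ) ^ κ / 2))) :=
    (D.thb.sl _ k5).2.2.2.1.mono fun y hy => (h2 _ k4 y (e ▸ hy)).1
  refine ⟨hol.mono (ball_subset_ball (by linarith [k1.1, k2.1])), fun y hy => ?_⟩
  refine (pi_norm_le_iff_of_nonneg (by positivity)).2 fun i => ?_
  refine (grow t.jb (g := fun y => T.z i (Th D.Φ D.B k y)) (N := N) (half_pos hr) k2.1
    (le_max_right B 1) (t.map.holn _ _ _ (t.zc.sec _ (T.z_mem i)).1 hol) (fun w hw => ?_)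
    (fun w hw => ?_) ((mem_ball_zero_iff.1 hy).le.trans k1.1)).trans ?_
  · exact (norm_le_pi_norm (zv T.z _) i).trans ((hB _ (h1 _ k3 w
      (closedBall_subset_ball (half_lt_self hr) hw))).trans (le_max_left _ _))
  · refine (norm_le_pi_norm (zv T.z _) i).trans ((h2 _ k4 w (e ▸ hw)).2.trans ?_)
    rw [Complex.norm_natCast]
    exact k1.2
  · rw [mul_assoc, ← mul_pow]
    have : 0 < (r / 2)⁻¹ := by positivity
    gcongr
    rw [div_eq_mul_inv]
    nlinarith [norm_nonneg y]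

end Lmt

open Lmt

variable {n : ℕ} {M : Type} [MetricSpace M] [ChartedSpace (Cm n) M]
  [RiemannianBundle fun x : M => TangentSpace 𝓘(ℝ, Cm n) x] [MeasurableSpace M]
  {μ : Measure M} {F : Flow n M} {T : F.TA μ}

/-- **LMT** -/
theorem lmt (t : Tools T) : LMT T := by
  intro D h1 h2
  obtain ⟨B, N, B0, hb⟩ := bound t D h1 h2
  have U : uf ≤ atTop := Nat.hyperfilter_le_atTop
  obtain ⟨Θ, hol, lim⟩ := glue t.nf (g := fun k => Th D.Φ D.B k) fun R => by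
    obtain ⟨K, hK, h⟩ := t.cpt {D.p} isCompact_singleton (fun x hx => hx ▸ D.good.Q) 9
      (B * (1 + 9 * R) ^ N) (by norm_num)
    refine ⟨K, hK, U ?_⟩
    filter_upwards [hb R, hb (9 * R), ev_ex D.B.ρ] with k k1 k2 k3
    refine ⟨k1.1, fun y hy => ?_⟩
    have m : ∀ τ ∈ ball (0 : ℂ) 9, τ • y ∈ ball (0 : Cm n) (9 * R) := fun τ hτ => by
      rw [mem_ball_zero_iff] at hτ hy ⊢
      rw [norm_smul]
      exact mul_lt_mul'' hτ hy (norm_nonneg _) (norm_nonneg _)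
    have d : Differentiable ℂ fun τ : ℂ => τ • y := by fun_prop
    simpa using h (fun τ => Th D.Φ D.B k (τ • y)) (k2.1.comp d.mdifferentiable.mdifferentiableOn m)
      (by simp [th_zero D k3]) (fun τ hτ => (k2.2 _ (m τ hτ)).trans (by
        gcongr
        exact (mem_ball_zero_iff.1 (m τ hτ)).le)) 1 (by norm_num)
  have pt := fun y => (tendstoLocallyUniformlyOn_univ.2 lim).tendsto_at (mem_univ y)
  refine ⟨Θ, hol, lim, ?_, B, N, fun y => le_of_tendsto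
    ((((cont_z t).tendsto _).comp (pt y)).norm) (U ((hb (‖y‖ + 1)).mono fun k h => h.2 y (by simp)))⟩
  obtain ⟨c, ρ, c0, hc⟩ := D.dm
  obtain ⟨a, a0, ha⟩ := t.mt.cmp 0 le_rfl D.e D.he _ isCompact_singleton
    (singleton_subset_iff.2 (D.e.map_source D.src))
  have d : Differentiable ℂ fun q : ℂ × Cm n => q.2 := differentiable_snd
  have cv := t.conv 0 le_rfl ℕ uf (fun k _ => Th D.Φ D.B k) (fun _ => Θ)
    {q | q.2 ∈ ball (0 : Cm n) 1} (fun _ => (0, 0)) (0, 0) (isOpen_ball.preimage continuous_snd)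
    (U ((hb 1).mono fun k h => h.1.comp d.mdifferentiable.mdifferentiableOn fun _ h => h))
    (hol.comp d.mdifferentiable.mdifferentiableOn fun _ _ => trivial)
    (lim.comp _ continuous_snd).tendstoLocallyUniformlyOn (by simp) tendsto_const_nhds
  refine t.mt.et 0 (a * c ^ 2) Θ 0 (by positivity) fun v => ?_
  have cq : Continuous fun A : Mx n => qf A v := by unfold qf; fun_prop
  rw [← F.qf_pull]
  refine ge_of_tendsto ((cq.tendsto _).comp cv) (U ?_)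
  filter_upwards [hb 1, ev_ex D.B.ρ, ev_ex ρ] with k k1 k2 k3
  have z := th_zero D k2
  show _ ≤ qf (F.pull (Th D.Φ D.B k) 0 0) v
  rw [F.qf_pull, (t.mt.ch 0 le_rfl _ 0 D.e (k1.1.mdifferentiableAt (ball_mem_nhds _ one_pos)) D.he
    (by rw [z]; exact D.src)).2, z]
  refine le_trans ?_ (ha _ rfl _).1
  rw [mul_assoc, ← mul_pow]
  gcongr
  exact (hc _ k3 v).1

end Vale.Agent.P253W.D
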