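import Mathlib

/-!
# P253W, block D: monodromy, sections of a sequence of local homeomorphisms
-/

open Set Filter Metric Topology

noncomputable section

namespace Vale.Agent.P253W.D.Mono

/-- a locally constant family of sets -/
structure LC {M Z : Type} [TopologicalSpace M] (F : M → Set Z) (V : M → Set M)
    (σ : M → Z → M → Z) : Prop where
  op : ∀ x, IsOpen (V x)
  mem : ∀ x, x ∈ V x
  bij : ∀ x₀, ∀ x ∈ V x₀, BijOn (fun a => σ x₀ a x) (F x₀) (F x)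
  cmp : ∀ x₀, ∀ x ∈ V x₀, ∀ a ∈ F x₀, ∀ᶠ x' in 𝓝 x, σ x₀ a x' = σ x (σ x₀ a x) x'
  self : ∀ x, ∀ a ∈ F x, σ x a x = a

/-- the total space -/
def Et {M Z : Type} (F : M → Set Z) (_ : M → Z → M → Z) : Type := {q : M × Z // q.2 ∈ F q.1}

instance {M Z : Type} [TopologicalSpace M] (F : M → Set Z) (σ : M → Z → M → Z) :
    TopologicalSpace (Et F σ) where
  IsOpen W := ∀ q ∈ W, ∀ᶠ x' in 𝓝 q.1.1, ∀ h : σ q.1.1 q.1.2 x' ∈ F x',
    (⟨(x', σ q.1.1 q.1.2 x'), h⟩ : Et F σ) ∈ W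
  isOpen_univ := fun _ _ => Eventually.of_forall fun _ _ => trivial
  isOpen_inter := fun _ _ h1 h2 q hq => by
    filter_upwards [h1 q hq.1, h2 q hq.2] with x' a b h using ⟨a h, b h⟩
  isOpen_sUnion := fun _ h q ⟨W, hW, hq⟩ => by
    filter_upwards [h W hW q hq] with x' a h using ⟨W, hW, a h⟩

variable {M Z : Type} [TopologicalSpace M] {F : M → Set Z} {V : M → Set M} {σ : M → Z → M → Z}

/-- a sheet -/
def sh (V : M → Set M) (x₀ : M) (a : Z) : Set (Et F σ) :=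
  {q | q.1.1 ∈ V x₀ ∧ q.1.2 = σ x₀ a q.1.1}

theorem LC.open_iff (h : LC F V σ) {x₀ : M} {a : Z} (ha : a ∈ F x₀) {W : Set M} (hW : W ⊆ V x₀) :
    IsOpen W ↔ IsOpen ((fun q : Et F σ => q.1.1) ⁻¹' W ∩ sh V x₀ a) := by
  constructor
  · rintro ho q ⟨h1, h2, h3⟩
    filter_upwards [ho.mem_nhds h1, h.cmp x₀ _ h2 a ha] with x' b c _
    exact ⟨b, hW b, (congrArg (fun b => σ q.1.1 b x') h3).trans c.symm⟩
  · intro ho
    refine isOpen_iff_mem_nhds.2 fun x hx => ?_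
    have h1 := (h.bij x₀ x (hW hx)).1 ha
    filter_upwards [ho ⟨(x, σ x₀ a x), h1⟩ ⟨hx, hW hx, rfl⟩, (h.op x).mem_nhds (h.mem x)]
      with x' b c
    exact (b ((h.bij x x' c).1 h1)).1

theorem LC.cov (h : LC F V σ) : IsCoveringMap fun q : Et F σ => q.1.1 := by
  intro x₀
  rcases (F x₀).eq_empty_or_nonempty with h0 | ⟨a₀, ha₀⟩
  · refine .to_isEvenlyCovered_preimage (.of_preimage_eq_empty Empty
      ((h.op x₀).mem_nhds (h.mem x₀)) (eq_empty_of_forall_notMem fun q hq => ?_))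
    obtain ⟨a, ha, -⟩ := (h.bij x₀ _ hq).2.2 q.2
    rw [h0] at ha
    exact ha
  let _ : TopologicalSpace (F x₀) := ⊥
  have : DiscreteTopology (F x₀) := ⟨rfl⟩
  have : Nonempty (F x₀) := ⟨⟨a₀, ha₀⟩⟩
  have : Nonempty (Et F σ) := ⟨⟨(x₀, a₀), ha₀⟩⟩
  refine .to_isEvenlyCovered_preimage (.of_trivialization
    (t := (h.op x₀).trivializationDiscrete (fun a : F x₀ => sh V x₀ a.1) _
      (fun a W hW => h.open_iff a.2 hW) (fun a q hq q' hq' e => ?_) (fun a x hx => ?_)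
      (fun a b hab => ?_) fun q hq => ?_) (h.mem x₀))
  · have e' : q.1.1 = q'.1.1 := e
    exact Subtype.ext (Prod.ext e' (by rw [hq.2, hq'.2, e']))
  · exact ⟨⟨(x, σ x₀ a x), (h.bij x₀ x hx).1 a.2⟩, ⟨hx, rfl⟩, rfl⟩
  · refine Set.disjoint_left.2 fun q h1 h2 => hab (Subtype.ext ?_)
    exact (h.bij x₀ _ h1.1).2.1 a.2 b.2 (h1.2.symm.trans h2.2)
  · obtain ⟨a, ha, e⟩ := (h.bij x₀ _ hq).2.2 q.2
    exact mem_iUnion.2 ⟨⟨a, ha⟩, hq, e.symm⟩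

/-- **monodromy** -/
theorem LC.mono [SimplyConnectedSpace M] [LocallyPathConnectedSpace M] (h : LC F V σ) {p : M}
    {a : Z} (ha : a ∈ F p) : ∃ g : M → Z, g p = a ∧ (∀ x, g x ∈ F x) ∧
      ∀ x, ∀ᶠ x' in 𝓝 x, g x' = σ x (g x) x' := by
  obtain ⟨G, ⟨h1, h2⟩, -⟩ := h.cov.existsUnique_continuousMap_lifts (ContinuousMap.id M) p
    ⟨(p, a), ha⟩ rfl
  have h3 : ∀ x, (G x).1.1 = x := fun x => congrFun h2 x
  have h4 : ∀ x, (G x).1.2 ∈ F x := fun x => by simpa [h3] using (G x).2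
  refine ⟨fun x => (G x).1.2, by simp [h1], h4, fun x => ?_⟩
  have h5 := ((h.open_iff (h4 x) subset_rfl).1 (h.op x)).preimage G.continuous
  have h6 : x ∈ G ⁻¹' ((fun q : Et F σ => q.1.1) ⁻¹' V x ∩ sh V x (G x).1.2) :=
    ⟨by simpa [h3] using h.mem x, by simpa [h3] using h.mem x,
      by rw [h3]; exact (h.self x _ (h4 x)).symm⟩
  filter_upwards [h5.mem_nhds h6] with x' b
  have := b.2.2
  rwa [h3] at this

/-! ### sections -/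

variable {E : Type} [NormedAddCommGroup E]

/-- uniqueness of lifts -/
theorem uq {X A : Type*} [TopologicalSpace A] {Ψ : E → X} {B : Set E}
    (hΨ : ∀ y ∈ B, ∃ W ∈ 𝓝 y, InjOn Ψ W) {N : Set A} (hN : IsPreconnected N) {s s' : A → E}
    (hs : ContinuousOn s N) (hs' : ContinuousOn s' N) (hb : MapsTo s N B)
    (he : ∀ x ∈ N, Ψ (s x) = Ψ (s' x)) {x₀ : A} (h0 : x₀ ∈ N) (e0 : s x₀ = s' x₀) :
    EqOn s s' N := by
  have := isPreconnected_iff_preconnectedSpace.1 hN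
  have c1 : Continuous fun x : N => s x := continuousOn_iff_continuous_domRestrict.1 hs
  have c2 : Continuous fun x : N => s' x := continuousOn_iff_continuous_domRestrict.1 hs'
  have h1 : IsClopen {x : N | s x = s' x} := by
    refine ⟨isClosed_eq c1 c2, isOpen_iff_mem_nhds.2 fun x hx => ?_⟩
    obtain ⟨W, hW, hi⟩ := hΨ _ (hb x.2)
    have hx' : s x = s' x := hx
    filter_upwards [c1.continuousAt hW, c2.continuousAt (hx' ▸ hW)] with y a b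
    exact hi a b (he y y.2)
  intro x hx
  have h2 : (⟨x, hx⟩ : N) ∈ {x : N | s x = s' x} := by
    rw [h1.eq_univ ⟨⟨x₀, h0⟩, e0⟩]; trivial
  exact h2

/-- a section over `V` -/
def Sc (Ψ : E → M) (V : Set M) (s : M → E) : Prop :=
  ContinuousOn s V ∧ ∀ x ∈ V, Ψ (s x) = x ∧ ‖s x‖ < 1

open Classical in
/-- the section through a point -/
def tp (Ψ : E → M) (V : Set M) (x₁ : M) (y : E) : M → E :=
  if h : ∃ s, Sc Ψ V s ∧ s x₁ = y then h.choose else 0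

theorem tp_spec {Ψ : E → M} {V : Set M} {x₁ : M} {y : E} (h : ∃ s, Sc Ψ V s ∧ s x₁ = y) :
    Sc Ψ V (tp Ψ V x₁ y) ∧ tp Ψ V x₁ y x₁ = y := by
  rw [tp, dif_pos h]; exact h.choose_spec

theorem Sc.eqOn {Ψ : E → M} (hΨ : ∀ y ∈ ball (0 : E) 1, ∃ W ∈ 𝓝 y, InjOn Ψ W) {V V' N : Set M}
    (hN : IsPreconnected N) (h1 : N ⊆ V) (h2 : N ⊆ V') {s s' : M → E} (hs : Sc Ψ V s)
    (hs' : Sc Ψ V' s') {x₀ : M} (h0 : x₀ ∈ N) (e0 : s x₀ = s' x₀) : EqOn s s' N :=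
  uq hΨ hN (hs.1.mono h1) (hs'.1.mono h2) (fun x hx => mem_ball_zero_iff.2 (hs.2 x (h1 hx)).2)
    (fun x hx => (hs.2 x (h1 hx)).1.trans (hs'.2 x (h2 hx)).1.symm) h0 e0

/-- small local sections exist over `V` -/
def Loc (l : Filter ℕ) (Ψ : ℕ → E → M) (V : Set M) : Prop :=
  ∀ ε : ℝ, 0 < ε → ∀ᶠ k in l, ∀ x₁ ∈ V, ∀ y : E, ‖y‖ < 1 / 2 → Ψ k y = x₁ →
    ∃ s : M → E, ContinuousOn s V ∧ s x₁ = y ∧ ∀ x ∈ V, Ψ k (s x) = x ∧ ‖s x - y‖ < ε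

theorem Loc.tp {l : Filter ℕ} {Ψ : ℕ → E → M} {V : Set M} (h : Loc l Ψ V) (hV : IsPreconnected V)
    (hΨ : ∀ᶠ k in l, ∀ y ∈ ball (0 : E) 1, ∃ W ∈ 𝓝 y, InjOn (Ψ k) W) {x₁ : M} (h1 : x₁ ∈ V)
    {y : ℕ → E} (hy : ∀ᶠ k in l, Ψ k (y k) = x₁) (h0 : Tendsto y l (𝓝 0)) {ε : ℝ} (hε : 0 < ε) :
    ∀ᶠ k in l, Sc (Ψ k) V (tp (Ψ k) V x₁ (y k)) ∧ tp (Ψ k) V x₁ (y k) x₁ = y k ∧
      ∀ x ∈ V, ‖tp (Ψ k) V x₁ (y k) x‖ < ε := by
  have h2 : 0 < min (ε / 2) (1 / 2) := lt_min (half_pos hε) one_half_pos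
  filter_upwards [h _ h2, hΨ, hy, h0 (ball_mem_nhds 0 h2)] with k a b c d
  have d' : ‖y k‖ < min (ε / 2) (1 / 2) := mem_ball_zero_iff.1 d
  obtain ⟨s, s1, s2, s3⟩ := a x₁ h1 (y k) (d'.trans_le (min_le_right _ _)) c
  have s4 : ∀ x ∈ V, ‖s x‖ < 2 * min (ε / 2) (1 / 2) := fun x hx => by
    linarith [norm_le_norm_sub_add (s x) (y k), (s3 x hx).2]
  have s5 : Sc (Ψ k) V s := ⟨s1, fun x hx => ⟨(s3 x hx).1, by
    linarith [s4 x hx, min_le_right (ε / 2) (1 / 2)]⟩⟩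
  obtain ⟨t1, t2⟩ := tp_spec ⟨s, s5, s2⟩
  refine ⟨t1, t2, fun x hx => ?_⟩
  rw [t1.eqOn b hV subset_rfl subset_rfl s5 h1 (t2.trans s2.symm) hx]
  linarith [s4 x hx, min_le_left (ε / 2) (1 / 2)]

/-- the germs of sequences of points over `x` which tend to zero -/
def fb (l : Filter ℕ) (Ψ : ℕ → E → M) (x : M) : Set (Germ l E) :=
  {a | ∃ y : ℕ → E, a = (y : Germ l E) ∧ (∀ᶠ k in l, Ψ k (y k) = x) ∧ Tendsto y l (𝓝 0)}

/-- the transport -/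
def tr (l : Filter ℕ) (Ψ : ℕ → E → M) (V : M → Set M) (x₀ : M) (a : Germ l E) (x : M) :
    Germ l E :=
  Germ.map₂ (fun (f : E → E) y => f y) ((fun k y => tp (Ψ k) (V x₀) x₀ y x : ℕ → E → E) :
    Germ l (E → E)) a

theorem tr_coe (l : Filter ℕ) (Ψ : ℕ → E → M) (V : M → Set M) (x₀ : M) (y : ℕ → E) (x : M) :
    tr l Ψ V x₀ (y : Germ l E) x = ((fun k => tp (Ψ k) (V x₀) x₀ (y k) x : ℕ → E) : Germ l E) :=
  rfl

theorem lc [LocallyConnectedSpace M] {l : Filter ℕ} {Ψ : ℕ → E → M}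
    (hΨ : ∀ᶠ k in l, ∀ y ∈ ball (0 : E) 1, ∃ W ∈ 𝓝 y, InjOn (Ψ k) W)
    (hV : ∀ x, IsOpen (V x) ∧ x ∈ V x ∧ IsPreconnected (V x) ∧ Loc l Ψ (V x)) :
    LC (fb l Ψ) V (tr l Ψ V) := by
  have T := fun x₀ {x₁} (h1 : x₁ ∈ V x₀) {y : ℕ → E} (hy : ∀ᶠ k in l, Ψ k (y k) = x₁)
    (h0 : Tendsto y l (𝓝 0)) {ε : ℝ} (hε : 0 < ε) =>
    (hV x₀).2.2.2.tp (hV x₀).2.2.1 hΨ h1 hy h0 hε
  have T0 : ∀ x₀ {x₁} (_ : x₁ ∈ V x₀) {y : ℕ → E} (_ : ∀ᶠ k in l, Ψ k (y k) = x₁)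
      (_ : Tendsto y l (𝓝 0)), ∀ x ∈ V x₀, (∀ᶠ k in l, Ψ k (tp (Ψ k) (V x₀) x₁ (y k) x) = x) ∧
        Tendsto (fun k => tp (Ψ k) (V x₀) x₁ (y k) x) l (𝓝 0) := by
    intro x₀ x₁ h1 y hy h0 x hx
    refine ⟨(T x₀ h1 hy h0 one_pos).mono fun k a => (a.1.2 x hx).1, ?_⟩
    refine Metric.tendsto_nhds.2 fun ε hε => (T x₀ h1 hy h0 hε).mono fun k a => ?_
    rw [dist_zero_right]; exact a.2.2 x hx
  refine ⟨fun x => (hV x).1, fun x => (hV x).2.1, fun x₀ x hx => ⟨?_, ?_, ?_⟩, fun x₀ x hx => ?_,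
    ?_⟩
  · rintro _ ⟨y, rfl, hy, h0⟩
    exact ⟨_, tr_coe .., T0 x₀ (hV x₀).2.1 hy h0 x hx⟩
  · rintro _ ⟨y, rfl, hy, h0⟩ _ ⟨y', rfl, hy', h0'⟩ e
    simp only [tr_coe, Germ.coe_eq] at e ⊢
    filter_upwards [e, T x₀ (hV x₀).2.1 hy h0 one_pos, T x₀ (hV x₀).2.1 hy' h0' one_pos, hΨ]
      with k a b c d
    rw [← b.2.1, ← c.2.1]
    exact b.1.eqOn d (hV x₀).2.2.1 subset_rfl subset_rfl c.1 hx a (hV x₀).2.1
  · rintro _ ⟨w, rfl, hw, h0⟩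
    obtain ⟨h1, h2⟩ := T0 x₀ hx hw h0 x₀ (hV x₀).2.1
    refine ⟨_, ⟨_, rfl, h1, h2⟩, ?_⟩
    simp only [tr_coe, Germ.coe_eq]
    filter_upwards [T x₀ hx hw h0 one_pos, T x₀ (hV x₀).2.1 h1 h2 one_pos, hΨ] with k b c d
    exact (c.1.eqOn d (hV x₀).2.2.1 subset_rfl subset_rfl b.1 (hV x₀).2.1 c.2.1 hx).trans b.2.1
  · obtain ⟨N, ⟨hN, hc⟩, hs⟩ := (LocallyConnectedSpace.open_connected_basis x).mem_iff.1
      (inter_mem ((hV x₀).1.mem_nhds hx) ((hV x).1.mem_nhds (hV x).2.1))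
    rintro _ ⟨y, rfl, hy, h0⟩
    filter_upwards [hN.mem_nhds hc.1] with x' hx'
    obtain ⟨h1, h2⟩ := T0 x₀ (hV x₀).2.1 hy h0 x hx
    simp only [tr_coe, Germ.coe_eq]
    filter_upwards [T x₀ (hV x₀).2.1 hy h0 one_pos, T x (hV x).2.1 h1 h2 one_pos, hΨ]
      with k b c d
    exact b.1.eqOn d hc.2.isPreconnected (hs.trans inter_subset_left)
      (hs.trans inter_subset_right) c.1 hc.1 c.2.1.symm hx'
  · rintro x _ ⟨y, rfl, hy, h0⟩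
    simp only [tr_coe, Germ.coe_eq]
    exact (T x (hV x).2.1 hy h0 one_pos).mono fun k a => a.2.1

/-- sections over a compact set -/
theorem sec_cpt [SimplyConnectedSpace M] [LocallyPathConnectedSpace M] [T2Space M]
    [LocallyCompactSpace M] {l : Filter ℕ} {Ψ : ℕ → E → M} {p : M}
    (hΨ : ∀ᶠ k in l, ∀ y ∈ ball (0 : E) 1, ∃ W ∈ 𝓝 y, InjOn (Ψ k) W)
    (hp : ∀ᶠ k in l, Ψ k 0 = p) (hl : ∀ x, ∃ V ∈ 𝓝 x, Loc l Ψ V) {K : Set M} (hK : IsCompact K)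
    (hpK : p ∈ K) : ∃ (O : Set M) (s : ℕ → M → E), IsOpen O ∧ K ⊆ O ∧ ∀ ε : ℝ, 0 < ε →
      ∀ᶠ k in l, ContinuousOn (s k) O ∧ s k p = 0 ∧ ∀ x ∈ O, Ψ k (s k x) = x ∧ ‖s k x‖ < ε := by
  classical
  have hV : ∀ x, ∃ V : Set M, IsOpen V ∧ x ∈ V ∧ IsPreconnected V ∧ Loc l Ψ V := fun x => by
    obtain ⟨V, h1, h2⟩ := hl x
    obtain ⟨N, ⟨hN, hc⟩, hs⟩ := (LocallyConnectedSpace.open_connected_basis x).mem_iff.1 h1
    refine ⟨N, hN, hc.1, hc.2.isPreconnected, fun ε hε => (h2 ε hε).mono fun k a x₁ h1 y b c => ?_⟩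
    obtain ⟨s, s1, s2, s3⟩ := a x₁ (hs h1) y b c
    exact ⟨s, s1.mono hs, s2, fun x hx => s3 x (hs hx)⟩
  choose V hV using hV
  obtain ⟨g, g0, g1, g2⟩ := (lc hΨ hV).mono (p := p) (a := ((fun _ => 0 : ℕ → E) : Germ l E))
    ⟨_, rfl, hp, tendsto_const_nhds⟩
  choose y y1 y2 y3 using g1
  set t : M → ℕ → M → E := fun x k => tp (Ψ k) (V x) x (y x k) with ht
  have T := fun x {ε : ℝ} (hε : 0 < ε) =>
    (hV x).2.2.2.tp (hV x).2.2.1 hΨ (hV x).2.1 (y2 x) (y3 x) hε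
  have hC : ∀ x, ∃ C ∈ 𝓝 x, IsCompact C ∧ C ⊆ V x ∧ ∀ w ∈ C, ∀ᶠ k in l, y w k = t x k w := by
    intro x
    obtain ⟨C, h1, h2, h3⟩ := local_compact_nhds (inter_mem ((hV x).1.mem_nhds (hV x).2.1) (g2 x))
    refine ⟨C, h1, h3, h2.trans inter_subset_left, fun w hw => ?_⟩
    have h4 : g w = _ := (h2 hw).2
    rw [y1 w, y1 x, tr_coe, Germ.coe_eq] at h4
    exact h4
  choose C c1 c2 c3 c4 using hC
  have hpair : ∀ x x', ∀ᶠ k in l, ∀ w ∈ C x ∩ C x', t x k w = t x' k w := by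
    intro x x'
    have h1 : {q : ℕ × M | t x q.1 q.2 = t x' q.1 q.2} ∈ l ×ˢ 𝓝ˢ (C x ∩ C x') := by
      refine ((c2 x).inter (c2 x')).mem_prod_nhdsSet_of_forall fun w hw => ?_
      obtain ⟨N, ⟨hN, hc⟩, hs⟩ := (LocallyConnectedSpace.open_connected_basis w).mem_iff.1
        (inter_mem ((hV x).1.mem_nhds (c3 x hw.1)) ((hV x').1.mem_nhds (c3 x' hw.2)))
      have h2 : ∀ᶠ k in l, EqOn (t x k) (t x' k) N := by
        filter_upwards [c4 x w hw.1, c4 x' w hw.2, T x one_pos, T x' one_pos, hΨ] with k a b c d e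
        exact c.1.eqOn e hc.2.isPreconnected (hs.trans inter_subset_left)
          (hs.trans inter_subset_right) d.1 hc.1 (a.symm.trans b)
      exact mem_of_superset (prod_mem_prod h2 (hN.mem_nhds hc.1)) fun q hq => hq.1 hq.2
    obtain ⟨A, hA, B, hB, hAB⟩ := mem_prod_iff.1 h1
    filter_upwards [hA] with k hk w hw
    exact hAB (mk_mem_prod hk (subset_of_mem_nhdsSet hB hw))
  obtain ⟨S, -, hS⟩ := hK.elim_nhds_subcover (fun x => interior (C x))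
    fun x _ => interior_mem_nhds.2 (c1 x)
  have hO : ∀ w : M, w ∈ ⋃ x ∈ S, interior (C x) → ∃ x ∈ S, w ∈ interior (C x) := fun w hw => by
    simpa using hw
  choose! j j1 j2 using hO
  refine ⟨⋃ x ∈ S, interior (C x), fun k w => t (j w) k w,
    isOpen_biUnion fun _ _ => isOpen_interior, hS, fun ε hε => ?_⟩
  have e1 : ∀ᶠ k in l, ∀ x ∈ S, ∀ x' ∈ S, ∀ w ∈ C x ∩ C x', t x k w = t x' k w :=
    (eventually_all_finset S).2 fun x _ => (eventually_all_finset S).2 fun x' _ => hpair x x'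
  have e2 := (eventually_all_finset S).2 fun x (_ : x ∈ S) => T x hε
  have e3 : ∀ᶠ k in l, y p k = 0 := by
    have := (y1 p).symm.trans g0
    rwa [Germ.coe_eq] at this
  filter_upwards [e1, e2, e3, c4 (j p) p (interior_subset (j2 p (hS hpK)))] with k a b c d
  refine ⟨fun w hw => ?_, d.symm.trans c, fun w hw => ?_⟩
  · have h1 := j1 w hw
    have h2 := j2 w hw
    have h3 : ContinuousAt (t (j w) k) w :=
      (b _ h1).1.1.continuousAt ((hV _).1.mem_nhds (c3 _ (interior_subset h2)))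
    refine (h3.congr ?_).continuousWithinAt
    filter_upwards [isOpen_interior.mem_nhds h2] with w' hw'
    have h4 : w' ∈ ⋃ x ∈ S, interior (C x) := mem_biUnion h1 hw'
    exact a _ h1 _ (j1 w' h4) w' ⟨interior_subset hw', interior_subset (j2 w' h4)⟩
  · have h2 := c3 _ (interior_subset (j2 w hw))
    exact ⟨((b _ (j1 w hw)).1.2 w h2).1, (b _ (j1 w hw)).2.2 w h2⟩

/-- **SEC**: sections over sets which exhaust a simply connected space -/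
theorem sec {M E : Type} [MetricSpace M] [ProperSpace M] [SimplyConnectedSpace M]
    [LocallyPathConnectedSpace M] [NormedAddCommGroup E] {l : Filter ℕ} (hl : l ≤ atTop)
    {Ψ : ℕ → E → M} {p : M} (hΨ : ∀ᶠ k in l, ∀ y ∈ ball (0 : E) 1, ∃ W ∈ 𝓝 y, InjOn (Ψ k) W)
    (hp : ∀ᶠ k in l, Ψ k 0 = p) (hL : ∀ x, ∃ V ∈ 𝓝 x, Loc l Ψ V) :
    ∃ s : ℕ → M → E, ∀ R ε : ℝ, 0 < ε → ∀ᶠ k in l, ContinuousOn (s k) (ball p R) ∧ s k p = 0 ∧
      ∀ x ∈ ball p R, Ψ k (s k x) = x ∧ ‖s k x‖ < ε := by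
  classical
  choose O s o1 o2 o3 using fun m : ℕ => sec_cpt hΨ hp hL (isCompact_closedBall p (m : ℝ))
    (mem_closedBall_self (Nat.cast_nonneg m))
  set P : ℕ → ℕ → Prop := fun k m => ContinuousOn (s m k) (O m) ∧ s m k p = 0 ∧
    ∀ x ∈ O m, Ψ k (s m k x) = x ∧ ‖s m k x‖ < 1 / ((m : ℝ) + 1) with hP
  refine ⟨fun k => s (Nat.findGreatest (P k) k) k, fun R ε hε => ?_⟩
  obtain ⟨m, hm⟩ := ((tendsto_natCast_atTop_atTop (R := ℝ)).eventually_ge_atTop R).and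
    (tendsto_one_div_add_atTop_nhds_zero_nat.eventually_lt_const hε) |>.exists
  filter_upwards [o3 m _ Nat.one_div_pos_of_nat, hl (eventually_ge_atTop m)] with k a b
  have h1 : m ≤ Nat.findGreatest (P k) k := Nat.le_findGreatest b a
  have h2 : P k (Nat.findGreatest (P k) k) := Nat.findGreatest_spec b a
  have h3 : (m : ℝ) ≤ Nat.findGreatest (P k) k := Nat.cast_le.2 h1
  have h4 : ball p R ⊆ O (Nat.findGreatest (P k) k) :=
    (ball_subset_closedBall.trans (closedBall_subset_closedBall (hm.1.trans h3))).trans (o2 _)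
  refine ⟨h2.1.mono h4, h2.2.1, fun x hx => ⟨(h2.2.2 x (h4 hx)).1, ?_⟩⟩
  refine ((h2.2.2 x (h4 hx)).2.trans_le ?_).trans hm.2
  gcongr

end Vale.Agent.P253W.D.Mono
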