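import Vale.Agent.P253W.D.Pure
import Vale.Agent.P253W.D.Mono

/-!
# P253W, block D: the monodromy theorem
-/

open Set Filter Topology

namespace Vale.Agent.P253W.D

/-- **MONO** -/
theorem mono : MONO := by
  intro X G _ _ _ Co Ad h1 h2 h3 x₀ g₀ h0
  choose V v1 v2 v3 v4 using h3
  have h4 : ∀ x g, ∃ σ : X → G, Ad x g → Co (V x) σ ∧ σ x = g := fun x g => by
    by_cases h : Ad x g
    · exact (v3 x x (v1 x) g h).imp fun _ a _ => a
    · exact ⟨fun _ => g, fun a => (h a).elim⟩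
  choose σ s using h4
  have lc : Mono.LC (fun x => {g | Ad x g}) V σ := by
    refine ⟨v2, v1, fun x y hy => ⟨fun a ha => (h1 _ _ (s x a ha).1).2 y hy,
      fun a ha b hb e => ?_, fun g hg => ?_⟩, fun x y hy a ha => ?_, fun x a ha => (s x a ha).2⟩
    · rw [← (s x a ha).2, ← (s x b hb).2]
      exact v4 x _ _ (s x a ha).1 (s x b hb).1 y hy e (v1 x)
    · obtain ⟨τ, t1, t2⟩ := v3 x y hy g hg
      have ha := (h1 _ _ t1).2 x (v1 x)
      exact ⟨τ x, ha, (v4 x _ _ (s x _ ha).1 t1 x (v1 x) (s x _ ha).2 hy).trans t2⟩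
    · have hb := (h1 _ _ (s x a ha).1).2 y hy
      exact h2 _ _ _ _ (s x a ha).1 (s y _ hb).1 y ⟨hy, v1 y⟩ (s y _ hb).2.symm
  obtain ⟨τ, t1, t2, t3⟩ := lc.mono (p := x₀) (a := g₀) h0
  exact ⟨τ, t1, fun x => ⟨V x, σ x (τ x), (s x _ (t2 x)).1, v1 x, t3 x⟩⟩

end Vale.Agent.P253W.D
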