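import Vale.Agent.P253W.D.Spec
import Vale.Agent.P253W.V.Alg
import Vale.Agent.P253W.X.Je

/-!
# P253W, row D.MT: the metric along holomorphic maps
-/

open scoped Manifold ContDiff Bundle ENNReal Topology Matrix ComplexOrder
open Bundle IsManifold MeasureTheory Set Metric Filter Vale.Agent.P253.Mfd Vale.Agent.P253Z
open Vale.Agent.P272.K (Cm jacM Chart)
open Vale.Agent.P253W.V.Alg

noncomputable section

namespace Vale.Agent.P253W.D

namespace Mt

variable {n : ℕ} {P P' : Mx n}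

theorem qf_zero (P : Mx n) : qf P 0 = 0 := by simp [qf]

theorem qf_smul (P : Mx n) (c : ℝ) (v : Cm n) : qf P ((c : ℂ) • v) = c ^ 2 * qf P v := by
  simp [qf, Matrix.mulVec_smul, sq, mul_assoc]

theorem qf_sub (P P' : Mx n) (v : Cm n) : qf (P - P') v = qf P v - qf P' v := by
  simp [qf, Matrix.sub_mulVec]

theorem qf_pos (h : P.PosDef) {v : Cm n} (hv : v ≠ 0) : 0 < qf P v := by
  simpa [qf] using h.re_dotProduct_pos (star_ne_zero.2 hv)

theorem hq_nonneg (h : P.PosDef) (ξ : Cm n) : 0 ≤ hq P ξ :=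
  h.inv.posSemidef.re_dotProduct_nonneg ξ

theorem re_star (a b : Cm n) : (star a ⬝ᵥ b).re = (star b ⬝ᵥ a).re := by
  rw [Matrix.star_dotProduct, Complex.star_def, Complex.conj_re]

theorem cs (h : P.PosDef) (ξ v : Cm n) : ‖ξ ⬝ᵥ v‖ ^ 2 ≤ hq P ξ * qf P v := by
  have e : P *ᵥ star (star (P⁻¹ *ᵥ ξ)) = ξ := by
    rw [star_star, Matrix.mulVec_mulVec, Matrix.mul_nonsing_inv _ h.det_pos.ne'.isUnit,
      Matrix.one_mulVec]
  have k := pow_le_pow_left₀ (norm_nonneg _) (X.Je.cs h.posSemidef v (star (P⁻¹ *ᵥ ξ))) 2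
  rwa [mul_pow, sq (X.nr _ _), sq (X.nr _ _), X.Je.nr_sq h.posSemidef, X.Je.nr_sq h.posSemidef,
    X.hf, qf.eq_1 _ (star _), e, re_star, dotProduct_comm, mul_comm] at k

theorem undual (h : P.PosDef) (h' : P'.PosDef) {B : ℝ} (k : ∀ ξ, hq P ξ ≤ B * hq P' ξ)
    (v : Cm n) : qf P' v ≤ B * qf P v := by
  rcases eq_or_ne v 0 with rfl | hv
  · simp [qf_zero]
  have e : hq P' (P' *ᵥ star v) = qf P' v := by
    rw [hq, Matrix.mulVec_mulVec, Matrix.nonsing_inv_mul _ h'.det_pos.ne'.isUnit,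
      Matrix.one_mulVec, re_star, star_star, qf]
  have k1 := (cs h (P' *ᵥ star v) v).trans
    (mul_le_mul_of_nonneg_right (k _) (qf_pos h hv).le)
  have k2 : qf P' v ≤ ‖P' *ᵥ star v ⬝ᵥ v‖ := dotProduct_comm v _ ▸ Complex.re_le_norm _
  have k3 := qf_pos h' hv
  rw [e] at k1
  exact le_of_mul_le_mul_left (by nlinarith) k3

/-- a continuous family of positive matrices on a compact set -/
theorem cmp {G : Cm n → Mx n} {K : Set (Cm n)} (hK : IsCompact K) (c : ContinuousOn G K)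
    (h : ∀ w ∈ K, (G w).PosDef) : ∃ c : ℝ, 0 < c ∧ ∀ w ∈ K, ∀ v,
      c * ‖v‖ ^ 2 ≤ qf (G w) v ∧ c * qf (G w) v ≤ ‖v‖ ^ 2 := by
  have c1 : Continuous fun q : Mx n × Cm n => qf q.1 q.2 := by unfold qf; fun_prop
  have c2 : ContinuousOn (fun q : Cm n × Cm n => qf (G q.1) q.2) (K ×ˢ sphere 0 1) :=
    Continuous.comp_continuousOn (f := fun q : Cm n × Cm n => (G q.1, q.2)) c1
      ((c.comp continuousOn_fst fun _ hq => hq.1).prodMk continuousOn_snd)
  have p : ∀ q ∈ K ×ˢ sphere (0 : Cm n) 1, 0 < qf (G q.1) q.2 := fun q hq =>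
    qf_pos (h _ hq.1) (ne_zero_of_mem_unit_sphere ⟨_, hq.2⟩)
  obtain ⟨a, a0, ha⟩ := (hK.prod (isCompact_sphere 0 1)).exists_forall_le'
    (c2.inf (c2.inv₀ fun q hq => (p q hq).ne')) fun q hq => lt_min (p q hq) (inv_pos.2 (p q hq))
  refine ⟨a, a0, fun w hw v => ?_⟩
  rcases eq_or_ne v 0 with rfl | hv
  · simp [qf_zero]
  have v0 := norm_pos_iff.2 hv
  have m : (w, ((‖v‖⁻¹ : ℝ) : ℂ) • v) ∈ K ×ˢ sphere (0 : Cm n) 1 :=
    ⟨hw, by simp [norm_smul, v0.ne']⟩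
  obtain ⟨k1, k2⟩ := le_min_iff.1 (ha _ m)
  replace k2 := (le_div_iff₀ (p _ m)).1 (k2.trans_eq (one_div _).symm)
  simp only [qf_smul, inv_pow] at k1 k2
  rw [le_inv_mul_iff₀ (by positivity)] at k1
  rw [mul_left_comm, inv_mul_le_iff₀ (by positivity)] at k2
  exact ⟨by linarith, by linarith⟩

theorem sum_le (v : Cm n) : ∑ i, ‖v i‖ ^ 2 ≤ (n + 1) * ‖v‖ ^ 2 := by
  have := Finset.sum_le_card_nsmul Finset.univ (fun i => ‖v i‖ ^ 2) (‖v‖ ^ 2) fun i _ =>
    pow_le_pow_left₀ (norm_nonneg _) (norm_le_pi_norm v i) 2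
  simp only [Finset.card_univ, Fintype.card_fin, nsmul_eq_mul] at this
  nlinarith [sq_nonneg ‖v‖]

end Mt

variable {n : ℕ} {M : Type} [MetricSpace M] [ChartedSpace (Cm n) M] [IsManifold 𝓘(ℂ, Cm n) 1 M]
  [IsManifold 𝓘(ℝ, Cm n) ∞ M] [RiemannianBundle fun x : M => TangentSpace 𝓘(ℝ, Cm n) x]
  [ConnectedSpace M] [NoncompactSpace M] [MeasurableSpace M] {μ : Measure M} {F : Flow n M}
  {A : Fam F} {T : F.TA μ}

open Mt in
/-- **MT** -/
theorem mt (p : P3 A T) (df : DF n M) (eig : C.EIG n) : MT F := by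
  have hc : ∀ x : M, Hc (pc n x) := fun x => chart_mem_maximalAtlas x
  have gp : ∀ t, 0 ≤ t → ∀ x, (F.gx t x).PosDef := fun t ht x =>
    p.is.pos t ht _ (hc x) _ (mem_chart_target _ x)
  have gc : ∀ t, 0 ≤ t → ∀ e : Chart n M, Hc e → ContinuousOn (F.g t e) e.target :=
    fun t ht e he => continuousOn_pi.2 fun j => continuousOn_pi.2 fun k z hz =>
      (p.b1.g_at t ht e he z hz j k).continuousAt.continuousWithinAt
  have ch : ∀ t, 0 ≤ t → ∀ (Ψ : Cm n → M) (y : Cm n) (e : Chart n M),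
      MDifferentiableAt 𝓘(ℂ, Cm n) 𝓘(ℂ, Cm n) Ψ y → Hc e → Ψ y ∈ e.source →
      F.pull Ψ t y = pb (mx (fderiv ℂ (fun w => e (Ψ w)) y)) (F.g t e (e (Ψ y))) ∧ ∀ v,
        F.nv t (Ψ y) (dn Ψ y v) = qf (F.g t e (e (Ψ y))) (fderiv ℂ (fun w => e (Ψ w)) y v) := by
    intro t ht Ψ y e h he hy
    have k : F.pull Ψ t y = pb (mx (fderiv ℂ (fun w => e (Ψ w)) y)) (F.g t e (e (Ψ y))) := by
      rw [Flow.pull, (df.ch Ψ y e h he hy).2.1, pb_mul,
        p.b1.g_ch t ht e _ he (hc _) _ hy (mem_chart_source _ _), Flow.gx]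
    exact ⟨k, fun v => by rw [← F.qf_pull, k, qf_pb, mx, LinearMap.toMatrix'_mulVec]; rfl⟩
  refine ⟨ch, fun t ht e he w hw v => ?_, fun t ht Ψ y h => ?_, fun t l Ψ y l0 h h0 => ?_,
    fun t ht x v => X.Je.qf_nonneg (gp t ht x).posSemidef v, fun s t hs hst x v => ?_,
    fun P h => cs h, fun P h ξ B B0 k => eig.dual P ξ B h B0 k, fun P P' h h' B => undual h h',
    fun t ht e he K hK hs => cmp hK ((gc t ht e he).mono hs) fun w hw =>
      p.is.pos t ht e he w (hs hw), fun K hK δ δ0 => ?_, fun e he K hK hs l l0 => ?_⟩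
  · have e1 : (fun w => e (e.symm w)) =ᶠ[𝓝 w] id :=
      (e.open_target.eventually_mem hw).mono fun _ => e.right_inv
    rw [(ch t ht _ w e (((df.symm e he).1 w hw).mdifferentiableAt (e.open_target.mem_nhds hw)) he
      (e.map_target hw)).2, e1.fderiv_eq, e.right_inv hw, fderiv_id]
    rfl
  · rw [Flow.pull, pb_eq]
    exact (gp t ht _).conjTranspose_mul_mul_same (Matrix.mulVec_injective_iff_isUnit.2
      ((Matrix.isUnit_iff_isUnit_det _).2 (unit_conj h)))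
  · obtain ⟨v, hv, k⟩ := Matrix.exists_mulVec_eq_zero_iff.2 h0
    have := h v
    rw [dn, k, Flow.nv, qf_zero] at this
    exact this.not_gt (mul_pos l0 (pow_pos (norm_pos_iff.2 hv) 2))
  · have := X.Je.qf_nonneg (p.s3a.g_anti s t hs hst _ (hc x) _ (mem_chart_target _ x)).1 v
    rw [qf_sub] at this
    exact sub_nonneg.1 this
  · obtain ⟨c, c0, h⟩ := p.s3a.decay K hK
    filter_upwards [eventually_ge_atTop 1, (tendsto_rpow_atTop c0).eventually_ge_atTop δ⁻¹] with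
      t h1 h2 x hx
    refine undual (gp 0 le_rfl x) (gp t (by linarith) x) fun ξ => ?_
    exact (inv_mul_le_iff₀ δ0).1 ((mul_le_mul_of_nonneg_right h2
      (hq_nonneg (gp 0 le_rfl x) ξ)).trans (h t h1 x hx ξ))
  obtain ⟨B, hB⟩ := hK.exists_bound_of_continuousOn
    (continuous_id.matrix_det.comp_continuousOn ((gc 0 le_rfl e he).mono hs))
  obtain ⟨a, a0, ha⟩ : ∃ a, 0 < a ∧ (l / (n + 1)) ^ n = a := ⟨_, by positivity, rfl⟩
  have B0 : 0 < |B| + 1 := by positivity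
  refine ⟨√(a / (|B| + 1)), by positivity, fun t ht Ψ y h h1 h2 k => ?_⟩
  have k1 := (eig.low (F.pull Ψ t y) (l / (n + 1)) (pb_psd _ (gp t ht _).posSemidef).1
    (by positivity) fun v => by
      refine le_trans ?_ ((k v).trans_eq (F.qf_pull Ψ t y v).symm)
      rw [div_mul_eq_mul_div, div_le_iff₀ (by positivity)]
      nlinarith [sum_le v]).2
  have k2 := (Complex.re_le_norm _).trans ((hB _ h2).trans (le_abs_self B))
  have d := fun t ht => det_pos (gp t ht (Ψ y))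
  have k3 : Real.exp (F.u t (Ψ y) - F.u 0 (Ψ y)) * (F.gx t (Ψ y)).det.re =
      (F.gx 0 (Ψ y)).det.re := by
    have := norm_pos_iff.2 (p.is.ne (Ψ y))
    have := d t ht
    have := d 0 le_rfl
    rw [Real.exp_sub, Flow.u, Flow.u, Real.exp_log (by positivity), Real.exp_log (by positivity)]
    field_simp
  have g := fun t ht => congrArg (fun A : Mx n => A.det.re)
    (p.b1.g_ch t ht e _ he (hc _) _ h1 (mem_chart_source _ _))
  simp only [det_pb_re] at g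
  rw [ha, (ch t ht Ψ y e h he h1).1, det_pb_re, g t ht] at k1
  rw [Function.comp_apply, id, g 0 le_rfl] at k2
  refine (sq_le_sq₀ (by positivity) (norm_nonneg _)).1 ?_
  rw [mul_pow, Real.sq_sqrt (by positivity), ← Real.exp_nat_mul, Nat.cast_ofNat,
    mul_div_cancel₀ _ two_ne_zero, div_mul_eq_mul_div, div_le_iff₀ B0]
  have k4 := mul_le_mul_of_nonneg_right k1 (Real.exp_pos (F.u t (Ψ y) - F.u 0 (Ψ y))).le
  have k5 := mul_le_mul_of_nonneg_left (k2.trans (le_add_of_nonneg_right zero_le_one))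
    (sq_nonneg ‖(mx (fderiv ℂ (fun w => e (Ψ w)) y)).det‖)
  refine k4.trans (le_of_eq_of_le ?_ k5)
  rw [← Flow.gx, ← Flow.gx, ← k3]
  ring

end Vale.Agent.P253W.D
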