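import Vale.Agent.P253W.D.Spec
import Mathlib.Analysis.Complex.Schwarz

/-!
# P253W, block D: normal families
-/

open scoped Manifold ContDiff Bundle Topology
open Bundle MeasureTheory Set Metric Filter Vale.Agent.P253Z
open Vale.Agent.P272.K (Cm Chart)

noncomputable section

namespace Vale.Agent.P253W.D

/-- a pointwise limit of bounded holomorphic maps along an ultrafilter is holomorphic -/
theorem Nf.lim_diff {V W ι : Type*} [NormedAddCommGroup V] [NormedSpace ℂ V]
    [FiniteDimensional ℂ V] [NormedAddCommGroup W] [NormedSpace ℂ W] [FiniteDimensional ℂ W]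
    {U : Ultrafilter ι} {h : ι → V → W} {h₀ : V → W} {c : V} {x : W} {r B : ℝ} (hr : 0 < r)
    (hh : ∀ᶠ k in U, DifferentiableOn ℂ (h k) (ball c r) ∧ MapsTo (h k) (ball c r) (ball x B))
    (ht : ∀ w ∈ ball c r, Tendsto (fun k => h k w) U (𝓝 (h₀ w))) : DifferentiableAt ℂ h₀ c := by
  have : ProperSpace (V →L[ℂ] W) := FiniteDimensional.proper ℂ _
  have h1 : ∀ᶠ k in U, MapsTo (h k) (ball c r) (closedBall (h k c) (2 * B)) :=
    hh.mono fun k a w hw => mem_closedBall.2 (by
      linarith [mem_ball.1 (a.2 hw), mem_ball.1 (a.2 (mem_ball_self hr)),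
        dist_triangle_right (h k w) (h k c) x])
  have h2 : ∀ᶠ k in U, ‖fderiv ℂ (h k) c‖ ≤ 2 * B / r := (hh.and h1).mono fun k a =>
    Complex.norm_fderiv_le_div_of_mapsTo_ball a.1.1 a.2 hr
  obtain ⟨L, -, hL⟩ := (isCompact_closedBall (0 : V →L[ℂ] W) (2 * B / r)).ultrafilter_le_nhds
    (U.map fun k => fderiv ℂ (h k) c) (le_principal_iff.2 (h2.mono fun k a =>
      mem_closedBall_zero_iff.2 a))
  replace hL : Tendsto (fun k => fderiv ℂ (h k) c) U (𝓝 L) := hL
  have h3 : ∀ w ∈ ball c r, ‖h₀ w - h₀ c - L (w - c)‖ ≤ 4 * B / r ^ 2 * ‖w - c‖ ^ 2 := by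
    intro w hw
    refine le_of_tendsto (((ht w hw).sub (ht c (mem_ball_self hr))).sub
      (((ContinuousLinearMap.apply ℂ W (w - c)).continuous.tendsto L).comp hL)).norm ?_
    filter_upwards [hh, h1, h2] with k a b d
    have e : ∀ y, dist (h k y - fderiv ℂ (h k) c (y - c)) (h k c - fderiv ℂ (h k) c (c - c)) =
        ‖h k y - h k c - fderiv ℂ (h k) c (y - c)‖ := fun y => by
      rw [dist_eq_norm, sub_self, map_zero, sub_zero, sub_right_comm]
    have := Complex.dist_le_mul_div_pow_of_mapsTo_ball_of_isLittleO (n := 1) (R₂ := 4 * B)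
      (f := fun y => h k y - fderiv ℂ (h k) c (y - c)) (a.1.sub (by fun_prop)) (fun y hy => by
        rw [mem_closedBall, e]
        have k1 : ‖fderiv ℂ (h k) c (y - c)‖ ≤ 2 * B / r * r :=
          ((fderiv ℂ (h k) c).le_opNorm _).trans (mul_le_mul d (mem_ball_iff_norm.1 hy).le
            (norm_nonneg _) ((norm_nonneg _).trans d))
        rw [div_mul_cancel₀ _ hr.ne'] at k1
        linarith [norm_sub_le (h k y - h k c) (fderiv ℂ (h k) c (y - c)),
          mem_closedBall_iff_norm.1 (b hy)])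
      (by simpa [sub_right_comm] using (a.1.differentiableAt
        (ball_mem_nhds c hr)).hasFDerivAt.isLittleO.norm_right) hw
    rw [e, dist_eq_norm, div_pow] at this
    exact this.trans_eq (by ring)
  refine ⟨L, HasFDerivAt.of_isLittleO ((Asymptotics.IsBigO.of_bound (4 * B / r ^ 2) ?_).trans_isLittleO
    (Asymptotics.isLittleO_pow_sub_sub c one_lt_two))⟩
  filter_upwards [ball_mem_nhds c hr] with w hw
  simpa using h3 w hw

variable {n : ℕ} {M : Type} [MetricSpace M] [ChartedSpace (Cm n) M]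

/-- **CPE** -/
theorem cpe [ProperSpace M] (nf : NF n M) (k : KPE n M) : CPE n M := by
  intro K hK
  by_contra hc
  push Not at hc
  obtain ⟨f₀, -⟩ := hc ∅ isCompact_empty
  choose f f1 f2 f3 using fun j : ℕ => hc _ (isCompact_closedBall (f₀ 0) j)
  have ho : IsOpen {τ : ℂ | 1 < ‖τ‖ ∧ ‖τ‖ < 3} :=
    (isOpen_lt continuous_const continuous_norm).inter (isOpen_lt continuous_norm continuous_const)
  obtain ⟨g, -, hg⟩ := nf ℂ (hyperfilter ℕ) f _ K ho hK (.of_forall fun j =>
    ⟨(f1 j).mono fun τ h => mem_ball_zero_iff.2 (by linarith [h.2]),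
      fun τ h => f2 j τ ⟨h.1.le, h.2.le⟩⟩)
  have ha : IsCompact (ann (3 / 2) (5 / 2)) := (isCompact_closedBall (0 : ℂ) (5 / 2)).of_isClosed_subset
    ((isClosed_le continuous_const continuous_norm).inter
      (isClosed_le continuous_norm continuous_const)) fun τ h => mem_closedBall_zero_iff.2 h.2
  have hu := Metric.tendstoUniformlyOn_iff.1 ((tendstoLocallyUniformlyOn_iff_tendstoUniformlyOn_of_compact
    ha).1 (hg.mono fun τ h => ⟨by linarith [h.1], by linarith [h.2]⟩))
  obtain ⟨φ, hφ, h1⟩ := extraction_forall_of_frequently fun m : ℕ =>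
    (hu (1 / (m + 1)) Nat.one_div_pos_of_nat).frequently.filter_mono Nat.hyperfilter_le_atTop
  obtain ⟨g', h2⟩ := k (fun m => f (φ m)) g (3 / 2) (5 / 2) 4 (by norm_num) (by norm_num)
    (by norm_num) (fun m => f1 _) (Metric.tendstoUniformlyOn_iff.2 fun ε hε =>
      (tendsto_one_div_add_atTop_nhds_zero_nat.eventually_lt_const hε).mono fun m a τ b =>
        (h1 m τ b).trans a)
  have h3 := (h2.tendsto_at (mem_closedBall_self (by norm_num))).dist
    (tendsto_const_nhds (x := f₀ 0))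
  refine not_tendsto_atTop_of_tendsto_nhds h3 (tendsto_atTop_mono (fun m => ?_)
    (tendsto_natCast_atTop_atTop.comp hφ.tendsto_atTop))
  exact (not_le.1 (f3 (φ m))).le

variable [RiemannianBundle fun x : M => TangentSpace 𝓘(ℝ, Cm n) x] [MeasurableSpace M]
  {μ : Measure M} {F : Flow n M} {T : F.TA μ}

/-- **NF** -/
theorem nf (z : ZC T) (df : DF n M) : NF n M := by
  intro V _ _ _ U g D K hD hK hg
  have h1 : ∀ w, ∃ x, w ∈ D → Tendsto (fun k => g k w) U (𝓝 x) := fun w => by
    by_cases hw : w ∈ D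
    · obtain ⟨x, -, hx⟩ := hK.ultrafilter_le_nhds (U.map fun k => g k w)
        (le_principal_iff.2 (hg.mono fun k a => a.2 hw))
      exact ⟨x, fun _ => hx⟩
    · exact ⟨g 0 w, fun h => absurd h hw⟩
  choose g₀ h0 using h1
  have key : ∀ c ∈ D, ∀ N ∈ 𝓝 (g₀ c), ∃ δ > 0, ball c δ ⊆ D ∧
      ∀ᶠ k in U, MapsTo (g k) (ball c δ) N := by
    intro c hc N hN
    obtain ⟨a, e, a1, -, a2, a3⟩ := z.ex (g₀ c)
    have ca : Continuous (zv a) := continuous_pi fun i => (z.sec _ (a1 i)).2.continuous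
    obtain ⟨B, hB⟩ := hK.exists_bound_of_continuousOn ca.continuousOn
    obtain ⟨r, hr, b1⟩ := Metric.isOpen_iff.1 hD c hc
    obtain ⟨ρ, hρ, b2⟩ := Metric.mem_nhds_iff.1 (inter_mem (e.open_target.mem_nhds
      (e.map_source a2)) ((e.continuousAt_symm (e.map_source a2)).preimage_mem_nhds
        (by rwa [e.left_inv a2])))
    have c1 : Continuous fun w => 2 * B / r * dist w c := by fun_prop
    obtain ⟨δ, hδ, b3⟩ := Metric.eventually_nhds_iff_ball.1 ((c1.continuousAt.eventually_lt_const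
      (show 2 * B / r * dist c c < ρ / 2 by simpa using hρ)).and (ball_mem_nhds c hr))
    refine ⟨δ, hδ, fun w hw => b1 (b3 w hw).2, ?_⟩
    filter_upwards [hg, h0 c hc (e.open_source.mem_nhds a2),
      (ca.tendsto _).comp (h0 c hc) (ball_mem_nhds _ (half_pos hρ))] with k k1 k2 k3
    have d : DifferentiableOn ℂ (fun w => zv a (g k w)) D := differentiableOn_pi.2 fun i =>
      mdifferentiableOn_iff_differentiableOn.1 ((z.sec _ (a1 i)).2.comp_mdifferentiableOn k1.1)
    have k4 : ∀ w ∈ ball c δ, zv a (g k w) ∈ ball (e (g₀ c)) ρ := fun w hw => by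
      have := Complex.dist_le_div_mul_dist_of_mapsTo_ball (R₂ := 2 * B) (d.mono b1) (fun y hy =>
        mem_closedBall_iff_norm.2 ((norm_sub_le_of_le (hB _ (k1.2 (b1 hy)))
          (hB _ (k1.2 hc))).trans_eq (two_mul B).symm)) (b3 w hw).2
      rw [a3 _ a2, mem_ball]
      linarith [dist_triangle (zv a (g k w)) (zv a (g k c)) (zv a (g₀ c)), (b3 w hw).1,
        show dist (zv a (g k c)) (zv a (g₀ c)) < ρ / 2 from k3]
    have k5 := z.cap a e a1 a3 (g k '' ball c δ) ((convex_ball c δ).isPreconnected.image _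
      (k1.1.continuousOn.mono fun w hw => b1 (b3 w hw).2))
      (forall_mem_image.2 fun w hw => (b2 (k4 w hw)).1) ⟨_, ⟨c, mem_ball_self hδ, rfl⟩, k2⟩
    intro w hw
    have k6 := k5 (mem_image_of_mem _ hw)
    have := (b2 (k4 w hw)).2
    rwa [← a3 _ k6, mem_preimage, e.left_inv k6] at this
  refine ⟨g₀, fun c hc => ?_, Metric.tendstoLocallyUniformlyOn_iff.2 fun ε hε c hc => ?_⟩
  · obtain ⟨-, e, -, a1, a2, -⟩ := z.ex (g₀ c)
    obtain ⟨s1, s2, -⟩ := df.symm e a1
    obtain ⟨N, n1, n2, n3⟩ := exists_mem_nhds_isClosed_subset (inter_mem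
      (e.open_source.mem_nhds a2) ((e.continuousAt a2).preimage_mem_nhds (ball_mem_nhds _ one_pos)))
    obtain ⟨δ, hδ, b1, b2⟩ := key c hc N n1
    have b3 : ∀ w ∈ ball c δ, g₀ w ∈ e.source := fun w hw =>
      (n3 (n2.mem_of_tendsto (h0 w (b1 hw)) (b2.mono fun k a => a hw))).1
    have d : DifferentiableAt ℂ (fun w => e (g₀ w)) c := Nf.lim_diff (h := fun k w => e (g k w))
      hδ ((hg.and b2).mono fun k a => ⟨mdifferentiableOn_iff_differentiableOn.1
        (s2.comp (a.1.1.mono b1) fun w hw => (n3 (a.2 hw)).1), fun w hw => (n3 (a.2 hw)).2⟩)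
      fun w hw => (e.continuousAt (b3 w hw)).tendsto.comp (h0 w (b1 hw))
    refine (((s1.mdifferentiableAt (e.open_target.mem_nhds (e.map_source a2))).comp c
      d.mdifferentiableAt).congr_of_eventuallyEq ?_).mdifferentiableWithinAt
    filter_upwards [ball_mem_nhds c hδ] with w hw
    exact (e.left_inv (b3 w hw)).symm
  · obtain ⟨δ, hδ, b1, b2⟩ := key c hc _ (closedBall_mem_nhds _ (div_pos hε three_pos))
    refine ⟨_, mem_nhdsWithin_of_mem_nhds (ball_mem_nhds c hδ), b2.mono fun k a w hw => ?_⟩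
    have := isClosed_closedBall.mem_of_tendsto (h0 w (b1 hw)) (b2.mono fun k a => a hw)
    linarith [dist_triangle_right (g₀ w) (g k w) (g₀ c), mem_closedBall.1 this,
      mem_closedBall.1 (a hw)]

end Vale.Agent.P253W.D
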