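import Vale.Agent.P253W.D.Pure
import Vale.Agent.P253W.X.Qif

/-!
# P253W, block D: holomorphic maps and functions on balls
-/

open scoped Topology
open Set Metric Filter
open Vale.Agent.P272.K (Cm)

noncomputable section

namespace Vale.Agent.P253W.D.Opn

variable {n : ℕ}

/-- a convex open set minus a countable set is connected -/
theorem cvx {U S : Set ℂ} (hc : Convex ℝ U) (ho : IsOpen U) (hb : Bornology.IsBounded U)
    (hne : U.Nonempty) (hS : S.Countable) : IsPreconnected (U \ S) := by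
  obtain ⟨e, h1, -⟩ := exists_homeomorph_image_interior_closure_frontier_eq_unitBall hc
    (by rwa [ho.interior_eq]) hb
  rw [ho.interior_eq] at h1
  set φ : ℂ → ℂ := fun t => e.symm (Homeomorph.unitBall t : ball (0 : ℂ) 1) with hφ
  have hi : Function.Injective φ :=
    e.symm.injective.comp (Subtype.val_injective.comp Homeomorph.unitBall.injective)
  have hr : U = range φ := by
    rw [← e.injective.preimage_image U, h1, ← e.image_symm]
    ext t
    exact ⟨fun ⟨w, hw, h⟩ => ⟨Homeomorph.unitBall.symm ⟨w, hw⟩, by simpa [hφ] using h⟩,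
      fun ⟨w, h⟩ => ⟨_, (Homeomorph.unitBall w).2, h⟩⟩
  have h2 := (hS.preimage_of_injOn (f := φ) hi.injOn).isConnected_compl_of_one_lt_rank
    (by rw [Complex.rank_real_complex]; norm_num)
  rw [hr, ← image_compl_preimage]
  exact h2.isPreconnected.image _ (by fun_prop)

/-- the part of a complex line in a ball -/
theorem line {c ζ ξ : Cm n} {r : ℝ} (hζ : ζ ∈ ball c r) (hξ : ξ ∈ ball c r) :
    ∃ U : Set ℂ, Convex ℝ U ∧ IsOpen U ∧ Bornology.IsBounded U ∧ 0 ∈ U ∧ 1 ∈ U ∧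
      MapsTo (fun t : ℂ => ζ + t • (ξ - ζ)) U (ball c r) := by
  refine ⟨(fun t : ℂ => ζ + t • (ξ - ζ)) ⁻¹' ball c r ∩ ball 0 2, .inter ?_ (convex_ball _ _),
    .inter (isOpen_ball.preimage (by fun_prop)) isOpen_ball,
    isBounded_ball.subset inter_subset_right, ⟨by simpa using hζ, by simp⟩,
    ⟨by simpa using hξ, by simp⟩, fun _ h => h.1⟩
  exact ((convex_ball c r).translate_preimage_right ζ).is_linear_preimage
    (f := fun t : ℂ => t • (ξ - ζ)) ⟨fun a b => add_smul .., fun a b => smul_assoc ..⟩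

theorem conn (ψ : Cm n → ℂ) (c : Cm n) (r : ℝ) (h : DifferentiableOn ℂ ψ (ball c r)) :
    IsPreconnected (ball c r ∩ {y | ψ y ≠ 0}) := by
  refine isPreconnected_of_forall_pair fun ζ hζ ξ hξ => ?_
  obtain ⟨U, u1, u2, u3, u4, u5, u6⟩ := line hζ.1 hξ.1
  set g : ℂ → ℂ := fun t => ψ (ζ + t • (ξ - ζ)) with hg
  have h0 : g 0 ≠ 0 := by simpa [hg] using hζ.2
  have h1 : g 1 ≠ 0 := by simpa [hg] using hξ.2
  have h2 : AnalyticOnNhd ℂ g U := (h.comp (by fun_prop) u6).analyticOnNhd u2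
  have h3 : (g ⁻¹' {0} ∩ U).Countable :=
    (HereditarilyLindelofSpace.isLindelof _).countable_of_isDiscrete (isDiscrete_of_codiscreteWithin
      (h2.preimage_zero_mem_codiscreteWithin h0 u4 (u1.isConnected ⟨0, u4⟩)))
  refine ⟨_, ?_, ?_, ?_,
    (cvx u1 u2 u3 ⟨0, u4⟩ h3).image (fun t : ℂ => ζ + t • (ξ - ζ)) (by fun_prop)⟩
  exacts [forall_mem_image.2 fun t ht => ⟨u6 ht.1, fun e => ht.2 ⟨e, ht.1⟩⟩,
    ⟨0, ⟨u4, fun e => h0 e.1⟩, by simp⟩, ⟨1, ⟨u5, fun e => h1 e.1⟩, by simp⟩]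

/-- the theorem of Hurwitz in one variable -/
theorem hur1 {l : Filter ℕ} [l.NeBot] {j : ℕ → ℂ → ℂ} {g : ℂ → ℂ} {U : Set ℂ} (ho : IsOpen U)
    (hc : IsPreconnected U) (hj : ∀ᶠ k in l, DifferentiableOn ℂ (j k) U ∧ ∀ y ∈ U, j k y ≠ 0)
    (ht : TendstoLocallyUniformlyOn j g l U) {a b : ℂ} (ha : a ∈ U) (hb : b ∈ U) (h0 : g a ≠ 0) :
    g b ≠ 0 := by
  intro h1
  have hg := ht.differentiableOn (hj.mono fun _ h => h.1) ho
  have h2 := ((hg.analyticOnNhd ho) b hb).eventually_eq_zero_or_eventually_ne_zero.resolve_left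
    fun h => h0 ((hg.analyticOnNhd ho).eqOn_zero_of_preconnected_of_eventuallyEq_zero hc hb h ha)
  obtain ⟨r, hr, h3⟩ := nhds_basis_closedBall.eventually_iff.1
    ((eventually_nhdsWithin_iff.1 h2).and (ho.mem_nhds hb))
  have hs : closedBall b r ⊆ U := fun _ h => (h3 h).2
  obtain ⟨w, hw, hm⟩ := (isCompact_sphere b r).exists_isMinOn (NormedSpace.sphere_nonempty.2 hr.le)
    (hg.continuousOn.mono (sphere_subset_closedBall.trans hs)).norm
  have h4 : 0 < ‖g w‖ / 2 := half_pos (norm_pos_iff.2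
    ((h3 (sphere_subset_closedBall hw)).1 (ne_of_mem_sphere hw hr.ne')))
  obtain ⟨k, ⟨k1, k2⟩, k3⟩ := (hj.and (Metric.tendstoUniformlyOn_iff.1
    ((tendstoLocallyUniformlyOn_iff_forall_isCompact ho).1 ht _ hs (isCompact_closedBall b r))
      _ h4)).exists
  have h5 : ‖(j k b)⁻¹‖ ≤ (‖g w‖ / 2)⁻¹ := by
    refine Complex.norm_le_of_forall_mem_frontier_norm_le (f := fun t => (j k t)⁻¹) isBounded_ball
      (DifferentiableOn.diffContOnCl ((k1.inv k2).mono (closure_ball_subset_closedBall.trans hs)))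
      (fun t h => ?_) (subset_closure (mem_ball_self hr))
    have h' := frontier_ball_subset_sphere h
    have a1 : ‖g w‖ ≤ ‖g t‖ := hm h'
    have a2 := k3 t (sphere_subset_closedBall h')
    rw [dist_eq_norm] at a2
    rw [norm_inv]
    exact inv_anti₀ h4 (by linarith [norm_sub_norm_le (g t) (j k t)])
  have h6 := k3 b (mem_closedBall_self hr.le)
  rw [h1, dist_zero_left] at h6
  rw [norm_inv, inv_le_inv₀ (norm_pos_iff.2 (k2 b hb)) h4] at h5
  linarith

theorem hur (l : Filter ℕ) (j : ℕ → Cm n → ℂ) (j₀ : Cm n → ℂ) (c : Cm n) (r : ℝ) (hl : l.NeBot)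
    (hj : ∀ᶠ k in l, DifferentiableOn ℂ (j k) (ball c r) ∧ ∀ y ∈ ball c r, j k y ≠ 0)
    (ht : TendstoLocallyUniformlyOn j j₀ l (ball c r)) (h0 : ∃ y ∈ ball c r, j₀ y ≠ 0) :
    ∀ y ∈ ball c r, j₀ y ≠ 0 := by
  obtain ⟨ζ, hζ, h0⟩ := h0
  intro ξ hξ
  obtain ⟨U, u1, u2, -, u4, u5, u6⟩ := line hζ hξ
  simpa using hur1 u2 u1.isPreconnected
    (hj.mono fun k h => ⟨h.1.comp (by fun_prop) u6, fun t a => h.2 _ (u6 a)⟩)
    (ht.comp _ u6 (by fun_prop)) u4 u5 (by simpa using h0)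

theorem img (r B δ : ℝ) (hr : 0 < r) (hδ : 0 < δ) : ∃ ρ : ℝ, 0 < ρ ∧ ∀ (g : Cm n → Cm n) (c : Cm n),
    DifferentiableOn ℂ g (ball c r) → (∀ y ∈ ball c r, ‖g y - g c‖ ≤ B) →
    (∀ v, ‖v‖ ≤ B * ‖fderiv ℂ g c v‖) → ball (g c) ρ ⊆ g '' (ball c δ ∩ ball c r) := by
  obtain ⟨c₀, h0, H⟩ := X.qif n
  set A := max B 1 with hA
  have hA0 : 0 < A := lt_max_of_lt_right one_pos
  set ρ := min (min (1 / 4) (c₀ * r / (A * A))) (δ / r) with hρ
  have hρ0 : 0 < ρ := by positivity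
  have r1 : ρ ≤ 1 / 4 := (min_le_left _ _).trans (min_le_left _ _)
  refine ⟨r * ρ / (4 * A), by positivity, fun g c hg hb hv z hz => ?_⟩
  have hv' : ∀ v, ‖v‖ ≤ A * ‖fderiv ℂ g c v‖ := fun v =>
    (hv v).trans (mul_le_mul_of_nonneg_right (le_max_left _ _) (norm_nonneg _))
  have hi : Function.Injective (fderiv ℂ g c) := (injective_iff_map_eq_zero _).2 fun v h =>
    norm_le_zero_iff.1 (by simpa [h] using hv v)
  set L := (LinearEquiv.ofInjectiveEndo (fderiv ℂ g c : Cm n →ₗ[ℂ] Cm n) hi).toContinuousLinearEquiv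
  have hL : ∀ v, L v = fderiv ℂ g c v := fun _ => rfl
  have hL' : ∀ w, ‖L.symm w‖ ≤ A * ‖w‖ := fun w => by
    simpa [← hL] using hv' (L.symm w)
  have hm : ∀ {s : ℝ} {y : Cm n}, y ∈ ball (0 : Cm n) s → c + (r : ℂ) • y ∈ ball c (r * s) :=
    fun hy => by
      rw [mem_ball_iff_norm, add_sub_cancel_left, norm_smul, Complex.norm_real,
        Real.norm_of_nonneg hr.le]
      exact mul_lt_mul_of_pos_left (mem_ball_zero_iff.1 hy) hr
  have hm1 : MapsTo (fun y => c + (r : ℂ) • y) (ball (0 : Cm n) 1) (ball c r) := fun y hy => by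
    simpa only [mul_one] using hm hy
  have hd : HasFDerivAt (fun y => L.symm (g (c + (r : ℂ) • y) - g c))
      ((L.symm : Cm n →L[ℂ] Cm n).comp ((fderiv ℂ g c).comp ((r : ℂ) • .id ℂ _))) 0 := by
    have h1 : HasFDerivAt g (fderiv ℂ g c) (c + (r : ℂ) • (0 : Cm n)) := by
      simpa using (hg.differentiableAt (ball_mem_nhds c hr)).hasFDerivAt
    exact (L.symm : Cm n →L[ℂ] Cm n).hasFDerivAt.comp 0
      ((h1.comp 0 (((hasFDerivAt_id 0).const_smul (r : ℂ)).const_add c)).sub_const _)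
  obtain ⟨-, -, h3⟩ := H (fun y => L.symm (g (c + (r : ℂ) • y) - g c)) r (A * A) ρ hr hρ0 r1
    ((le_div_iff₀ (by positivity)).1 ((min_le_left _ _).trans (min_le_right _ _)))
    (L.symm.differentiable.comp_differentiableOn ((hg.comp (by fun_prop) hm1).sub_const _))
    (fun y hy => (hL' _).trans
      (mul_le_mul_of_nonneg_left ((hb _ (hm1 hy)).trans (le_max_left _ _)) hA0.le))
    (by simp) (fun v => by rw [hd.fderiv]; simp [← hL])
  obtain ⟨y, hy, e, -⟩ := h3 (L.symm (z - g c)) (by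
    have a1 := hL' (z - g c)
    have a2 := (lt_div_iff₀ (by positivity)).1 (mem_ball_iff_norm.1 hz)
    linarith)
  refine ⟨_, ⟨ball_subset_ball ?_ (hm hy), hm1 (ball_subset_ball (by linarith) hy)⟩,
    sub_left_inj.1 (L.symm.injective e)⟩
  exact (le_div_iff₀' hr).1 (min_le_right _ _)

end Vale.Agent.P253W.D.Opn

namespace Vale.Agent.P253W.D

/-- **OPN** -/
theorem opn (n : ℕ) : OPN n := ⟨Opn.img, Opn.conn, Opn.hur⟩

end Vale.Agent.P253W.D
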