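import Vale.Agent.P253W.D.Spec

/-!
# P253W, block D: compact sets are exponentially small in the charts
-/

open scoped Manifold ContDiff Bundle Topology
open Bundle IsManifold MeasureTheory Set Metric Filter Vale.Agent.P253.Mfd Vale.Agent.P253Z
open Vale.Agent.P272.K (Cm Chart)

noncomputable section

namespace Vale.Agent.P253W.D

namespace Pn

/-- exponentially small on `S` -/
def Sm {X : Type} (U : ℕ → ℝ) (f : ℕ → X → ℝ) (S : Set X) : Prop :=
  ∃ c : ℝ, 0 < c ∧ ∀ᶠ k in atTop, ∀ x ∈ S, f k x ≤ Real.exp (-(c * U k))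

theorem ev_exp {U : ℕ → ℝ} (hU : Tendsto U atTop atTop) (A : ℝ) {b : ℝ} (hb : 0 < b) :
    ∀ᶠ k in atTop, A ≤ Real.exp (b * U k) :=
  (Real.tendsto_exp_atTop.comp (hU.const_mul_atTop hb)).eventually_ge_atTop A

theorem exp_le {a b u : ℝ} (h : a ≤ b) (hu : 0 ≤ u) : Real.exp (-(b * u)) ≤ Real.exp (-(a * u)) :=
  Real.exp_le_exp.2 (neg_le_neg (mul_le_mul_of_nonneg_right h hu))

/-- from the oscillation -/
theorem glob {X E : Type} [TopologicalSpace X] [PreconnectedSpace X] [SeminormedAddCommGroup E]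
    {U : ℕ → ℝ} (hU : Tendsto U atTop atTop) {s : ℕ → X → E} {p : X} (hp : ∀ᶠ k in atTop, s k p = 0)
    (h : ∀ x₀, ∃ V ∈ 𝓝 x₀, Sm U (fun k (q : X × X) => ‖s k q.1 - s k q.2‖) (V ×ˢ V)) {K : Set X}
    (hK : IsCompact K) : Sm U (fun k x => ‖s k x‖) K := by
  choose V hV h using h
  have key : ∀ x₀, ∀ x ∈ V x₀, Sm U (fun k x => ‖s k x‖) {x} → Sm U (fun k x => ‖s k x‖) (V x₀) := by
    rintro x₀ x hx ⟨a, a0, ha⟩
    obtain ⟨b, b0, hb⟩ := h x₀
    have m := lt_min a0 b0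
    refine ⟨min a b / 2, by positivity, ?_⟩
    filter_upwards [ha, hb, ev_exp hU 2 (half_pos m), hU.eventually_ge_atTop 0] with k h1 h2 h3 h4
      y hy
    calc ‖s k y‖ ≤ ‖s k x‖ + ‖s k y - s k x‖ := norm_le_norm_add_norm_sub' _ _
      _ ≤ 2 * Real.exp (-(min a b * U k)) := by
        linarith [h1 x rfl, h2 (y, x) ⟨hy, hx⟩, exp_le (min_le_left a b) h4,
          exp_le (min_le_right a b) h4]
      _ ≤ Real.exp (min a b / 2 * U k) * Real.exp (-(min a b * U k)) := by gcongr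
      _ = _ := by rw [← Real.exp_add]; congr 1; ring
  have mono : ∀ ⦃S S' : Set X⦄, S ⊆ S' → Sm U (fun k x => ‖s k x‖) S' →
      Sm U (fun k x => ‖s k x‖) S := fun S S' e ⟨c, c0, hc⟩ =>
    ⟨c, c0, hc.mono fun k hk x hx => hk x (e hx)⟩
  have all : {x | Sm U (fun k x => ‖s k x‖) {x}} = univ := by
    refine IsClopen.eq_univ ⟨isClosed_of_closure_subset fun x hx => ?_,
      isOpen_iff_mem_nhds.2 fun x hx => mem_of_superset (hV x) fun y hy =>
        mono (singleton_subset_iff.2 hy) (key x x (mem_of_mem_nhds (hV x)) hx)⟩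
      ⟨p, 1, one_pos, hp.mono fun k hk x hx => by
        simp only [show x = p from hx, hk, norm_zero]; positivity⟩
    obtain ⟨y, h1, h2⟩ := mem_closure_iff_nhds.1 hx _ (hV x)
    exact mono (singleton_subset_iff.2 (mem_of_mem_nhds (hV x))) (key x y h1 h2)
  refine hK.induction_on ⟨1, one_pos, by simp⟩ mono ?_ fun x _ => ⟨V x, mem_nhdsWithin_of_mem_nhds
    (hV x), key x x (mem_of_mem_nhds (hV x)) (eq_univ_iff_forall.1 all x)⟩
  rintro S S' ⟨a, a0, ha⟩ ⟨b, b0, hb⟩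
  refine ⟨min a b, lt_min a0 b0, ?_⟩
  filter_upwards [ha, hb, hU.eventually_ge_atTop 0] with k h1 h2 h3 x hx
  exact hx.elim (fun hx => (h1 x hx).trans (exp_le (min_le_left _ _) h3))
    fun hx => (h2 x hx).trans (exp_le (min_le_right _ _) h3)

variable {n : ℕ} {M : Type} [MetricSpace M] [ChartedSpace (Cm n) M]
  [RiemannianBundle fun x : M => TangentSpace 𝓘(ℝ, Cm n) x] [MeasurableSpace M] {μ : Measure M}
  {F : Flow n M} {T : F.TA μ}

/-- the oscillation near a point -/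
theorem osc (t : Tools T) {p : M} {Ψ : ℕ → Cm n → M} {l L r : ℝ} {s : ℕ → M → Cm n}
    (ch : Ch F μ p Ψ l L r) (sec : Sec p Ψ s) (pl : Pinl F p) (x₀ : M) :
    ∃ V ∈ 𝓝 x₀, Sm (Uk F p) (fun k (q : M × M) => ‖s k q.1 - s k q.2‖) (V ×ˢ V) := by
  obtain ⟨V, hV, c, hc, h⟩ := pl x₀
  set e := pc n x₀
  have he : Hc e := t.all.a.chart x₀
  have h0 : x₀ ∈ e.source := mem_chart_source _ x₀
  obtain ⟨δ, hδ, hs⟩ := nhds_basis_closedBall.mem_iff.1 (inter_mem (e.open_target.mem_nhds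
    (e.map_source h0)) ((e.tendsto_symm h0) (inter_mem hV (ball_mem_nhds x₀ one_pos))))
  obtain ⟨c₀, hc₀, hK⟩ := t.mt.cmp 0 le_rfl e he _ (isCompact_closedBall _ _)
    (hs.trans inter_subset_left)
  have hl := ch.l_pos
  refine ⟨e.source ∩ e ⁻¹' ball (e x₀) δ, (e.isOpen_inter_preimage isOpen_ball).mem_nhds
    ⟨h0, mem_ball_self hδ⟩, c / 4, by positivity, ?_⟩
  filter_upwards [h, sec (dist x₀ p + 1) (1 / 2) (by norm_num),
    ev_exp (t.uh p).2.1 ((2 * δ) ^ 2 / (l * c₀)) (half_pos hc)] with k h1 h2 h3 q hq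
  have hb : ∀ w ∈ ball (e x₀) δ, w ∈ e.target ∧ e.symm w ∈ V ∧ e.symm w ∈ ball p (dist x₀ p + 1) :=
    fun w hw => by
      obtain ⟨a, b, d⟩ := hs (ball_subset_closedBall hw)
      exact ⟨a, b, by linarith [mem_ball.1 d, dist_triangle (e.symm w) x₀ p] |> mem_ball.2⟩
  have hd : DifferentiableOn ℂ (fun w => s k (e.symm w)) (ball (e x₀) δ) :=
    (h2.2.1.comp ((t.df.symm e he).1.mono fun w hw => (hb w hw).1)
      fun w hw => (hb w hw).2.2).differentiableOn
  have hn : ∀ w ∈ ball (e x₀) δ, ‖fderiv ℂ (fun w => s k (e.symm w)) w‖ ≤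
      Real.exp (-(c / 4 * Uk F p k)) / (2 * δ) := fun w hw => by
    refine ContinuousLinearMap.opNorm_le_bound _ (by positivity) fun v => ?_
    obtain ⟨a, b, d⟩ := hb w hw
    have y1 : s k (e.symm w) ∈ ball (0 : Cm n) 1 :=
      mem_ball_zero_iff.2 (by linarith [(h2.2.2 _ d).2])
    have e1 := (t.df.chain (Ψ k) (fun w => s k (e.symm w)) w ((ch.hol k).mdifferentiableAt
      (isOpen_ball.mem_nhds y1)) (hd.differentiableAt (isOpen_ball.mem_nhds hw))).2 v
    have e2 := t.df.congr (fun w => Ψ k (s k (e.symm w))) e.symm w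
      (mem_of_superset (isOpen_ball.mem_nhds hw) fun w hw => (h2.2.2 _ (hb w hw).2.2).1)
    have e3 := (ch.met k _ y1 (fderiv ℂ (fun w => s k (e.symm w)) w v)).1
    rw [← e1, dn, e2, (h2.2.2 _ d).1] at e3
    have e4 := e3.trans (h1 _ b _)
    rw [← dn, t.mt.symm 0 le_rfl e he w a] at e4
    have e5 := (hK w (ball_subset_closedBall hw) v).2
    refine abs_le_of_sq_le_sq' ?_ (by positivity) |>.2
    have e6 : Real.exp (-(c / 4 * Uk F p k)) ^ 2 =
        Real.exp (c / 2 * Uk F p k) * Real.exp (-(c * Uk F p k)) := by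
      rw [← Real.exp_nat_mul, ← Real.exp_add]; congr 1; push_cast; ring
    rw [mul_pow, div_pow, e6]
    calc _ = (l * c₀)⁻¹ * (c₀ * (l * ‖fderiv ℂ (fun w => s k (e.symm w)) w v‖ ^ 2)) := by
          field_simp
      _ ≤ (l * c₀)⁻¹ * (Real.exp (-(c * Uk F p k)) * ‖v‖ ^ 2) := by
          gcongr _ * ?_
          nlinarith [mul_le_mul_of_nonneg_left e4 hc₀.le,
            mul_le_mul_of_nonneg_left e5 (Real.exp_pos (-(c * Uk F p k))).le]
      _ = (2 * δ) ^ 2 / (l * c₀) * Real.exp (-(c * Uk F p k)) / (2 * δ) ^ 2 * ‖v‖ ^ 2 := by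
          field_simp
      _ ≤ _ := by gcongr
  have := (convex_ball (e x₀) δ).norm_image_sub_le_of_norm_fderiv_le
    (fun w hw => hd.differentiableAt (isOpen_ball.mem_nhds hw)) hn hq.2.2 hq.1.2
  rw [e.left_inv hq.1.1, e.left_inv hq.2.1] at this
  refine this.trans ?_
  rw [div_mul_eq_mul_div, div_le_iff₀ (by positivity), ← dist_eq_norm]
  gcongr
  linarith [dist_triangle_right (e q.1) (e q.2) (e x₀), mem_ball.1 hq.1.2, mem_ball.1 hq.2.2]

end Pn

/-- **PIN** -/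
theorem pin {n : ℕ} {M : Type} [MetricSpace M] [ChartedSpace (Cm n) M]
    [RiemannianBundle fun x : M => TangentSpace 𝓘(ℝ, Cm n) x] [MeasurableSpace M] {μ : Measure M}
    {F : Flow n M} {T : F.TA μ} [ProperSpace M] [PreconnectedSpace M] (t : Tools T) : PIN F μ :=
  fun p _ _ _ _ _ ch sec pl R =>
    let ⟨c, c0, h⟩ := Pn.glob (t.uh p).2.1 ((sec 1 1 one_pos).mono fun _ h => h.1)
      (Pn.osc t ch sec pl) (isCompact_closedBall p R)
    ⟨c, c0, h.mono fun _ h x hx => h x (ball_subset_closedBall hx)⟩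

end Vale.Agent.P253W.D
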