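import Vale.Agent.P253W.D.Pure
import Vale.Agent.P253W.C.Jb

/-!
# P253W, block D: PIN0
-/

open scoped Topology Real
open Set Metric Filter MeasureTheory
open Vale.Agent.P272.K (Cm)
open Vale.Agent.P272.GJ (ddb)

noncomputable section

namespace Vale.Agent.P253W.D

namespace Pin0

/-- the estimate of Cauchy on concentric discs -/
theorem cau {m : ℕ} {V : ℂ → Cm m} {S r A : ℝ} (hV : DifferentiableOn ℂ V (ball 0 S))
    (hr : r + 1 / 2 < S) (h : ∀ τ ∈ closedBall (0 : ℂ) (r + 1 / 2), ‖V τ‖ ≤ A) (τ : ℂ)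
    (hτ : τ ∈ closedBall (0 : ℂ) r) : ‖deriv V τ‖ ≤ 2 * A := by
  have hs : closedBall τ (1 / 2) ⊆ closedBall (0 : ℂ) (r + 1 / 2) :=
    closedBall_subset_closedBall' (by have := mem_closedBall.1 hτ; linarith)
  have hd : DiffContOnCl ℂ V (ball τ (1 / 2)) :=
    DifferentiableOn.diffContOnCl (hV.mono (closure_ball_subset_closedBall.trans
      (hs.trans (closedBall_subset_ball hr))))
  have := Complex.norm_deriv_le_of_forall_mem_sphere_norm_le (by norm_num : (0 : ℝ) < 1 / 2) hd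
    fun z hz => h z (hs (sphere_subset_closedBall hz))
  linarith

/-- the bound on the disc of radius two -/
theorem two {m N : ℕ} {V : ℂ → Cm m} {S δ : ℝ} (hS : 4 ≤ S) (hδ : 0 < δ)
    (hV : DifferentiableOn ℂ V (ball 0 S)) (h1 : ∀ τ ∈ closedBall (0 : ℂ) 1, ‖V τ‖ ≤ δ)
    (h2 : ∀ τ ∈ ball (0 : ℂ) S, ‖V τ‖ ≤ δ * S ^ N) (τ : ℂ) (hτ : τ ∈ closedBall (0 : ℂ) 2) :
    ‖V τ‖ ≤ δ * 3 ^ (2 * N) := by
  refine (pi_norm_le_iff_of_nonneg (by positivity)).2 fun i => ?_
  have hb : closedBall (0 : ℂ) (S / 2) ⊆ ball 0 S := closedBall_subset_ball (by linarith)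
  have hn : ∀ z, ‖(δ : ℂ)⁻¹ * V z i‖ = δ⁻¹ * ‖V z i‖ := fun z => by
    rw [norm_mul, norm_inv, Complex.norm_real, Real.norm_of_nonneg hδ.le]
  have hd : DiffContOnCl ℂ (fun z => (δ : ℂ)⁻¹ * V z i) (ball 0 (S / 2)) :=
    DifferentiableOn.diffContOnCl (((differentiableOn_pi.1 hV i).const_mul _).mono
      (closure_ball_subset_closedBall.trans hb))
  have := C.Jb.three _ (S / 2) 1 (2 * N) le_rfl hd (fun z hz => by
    rw [hn, inv_mul_le_iff₀ hδ, mul_one]
    exact (norm_le_pi_norm _ i).trans (h1 z hz)) (fun z hz => by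
    rw [hn, inv_mul_le_iff₀ hδ, one_mul]
    refine ((norm_le_pi_norm _ i).trans (h2 z (hb (sphere_subset_closedBall hz)))).trans ?_
    rw [pow_mul]
    gcongr
    nlinarith) τ (closedBall_subset_closedBall (by linarith) hτ)
  rw [hn, inv_mul_le_iff₀ hδ, one_mul] at this
  refine this.trans ?_
  have := mem_closedBall_zero_iff.1 hτ
  gcongr
  linarith

/-- a disc on which the derivative is large -/
theorem disc {m : ℕ} {V : ℂ → Cm m} {S δ M : ℝ} (hS : 4 ≤ S) (hδ : 0 < δ) (hM : 1 ≤ M)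
    (hV : DifferentiableOn ℂ V (ball 0 S)) (h0 : V 0 = 0) (h1 : ‖V 1‖ = δ)
    (h2 : ∀ τ ∈ closedBall (0 : ℂ) 2, ‖V τ‖ ≤ δ * M) :
    ∃ t : ℂ, ball t (1 / (32 * M)) ⊆ ball 0 1 ∧
      ∀ z ∈ ball t (1 / (32 * M)), δ / 4 ≤ ‖deriv V z‖ := by
  have hV' : DifferentiableOn ℂ (deriv V) (ball 0 S) := hV.deriv isOpen_ball
  have hb : closedBall (0 : ℂ) 1 ⊆ ball 0 S := closedBall_subset_ball (by linarith)
  have hn : ∀ z ∈ closedBall (0 : ℂ) 1, ball (0 : ℂ) S ∈ 𝓝 z := fun z hz =>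
    isOpen_ball.mem_nhds (hb hz)
  have a1 : ∀ τ ∈ closedBall (0 : ℂ) (1 + 1 / 2), ‖deriv V τ‖ ≤ 2 * (δ * M) :=
    cau hV (by linarith) (by norm_num at h2 ⊢; exact h2)
  have a2 := cau hV' (r := 1) (by linarith) a1
  obtain ⟨t, ht, hl⟩ : ∃ t ∈ closedBall (0 : ℂ) 1, δ / 2 < ‖deriv V t‖ := by
    by_contra hc
    push Not at hc
    have := (convex_closedBall (0 : ℂ) 1).norm_image_sub_le_of_norm_deriv_le
      (fun z hz => hV.differentiableAt (hn z hz)) hc (mem_closedBall_self zero_le_one)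
      (y := 1) (by simp)
    rw [h0, sub_zero, h1, sub_zero, norm_one] at this
    linarith
  set ρ : ℝ := 1 / (32 * M) with hρ
  have hρ0 : 0 < ρ := by positivity
  have hρM : ρ * M = 1 / 32 := by rw [hρ]; field_simp
  have hρ1 : ρ ≤ 1 := by nlinarith
  have ht1 := mem_closedBall_zero_iff.1 ht
  have hsub : ball (((1 - ρ : ℝ) : ℂ) * t) ρ ⊆ ball 0 1 := by
    refine ball_subset_ball' ?_
    rw [dist_zero_right, norm_mul, Complex.norm_real, Real.norm_of_nonneg (by linarith)]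
    nlinarith
  refine ⟨((1 - ρ : ℝ) : ℂ) * t, hsub, fun z hz => ?_⟩
  have a3 := (convex_closedBall (0 : ℂ) 1).norm_image_sub_le_of_norm_deriv_le
    (fun z hz => hV'.differentiableAt (hn z hz)) a2 (ball_subset_closedBall (hsub hz)) ht
  have a4 : ‖t - z‖ ≤ 2 * ρ := by
    have e : t - z = (ρ : ℂ) * t - (z - ((1 - ρ : ℝ) : ℂ) * t) := by push_cast; ring
    have b := mem_ball_iff_norm.1 hz
    rw [e]
    refine (norm_sub_le _ _).trans ?_
    rw [norm_mul, Complex.norm_real, Real.norm_of_nonneg hρ0.le]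
    nlinarith
  have a5 := norm_sub_norm_le (deriv V t) (deriv V z)
  have a6 : 2 * (2 * (δ * M)) * ‖t - z‖ ≤ 2 * (2 * (δ * M)) * (2 * ρ) := by gcongr
  nlinarith

end Pin0

open Pin0 in
/-- **PIN0** -/
theorem pin0 : PIN0 := by
  intro κ δ N hκ hδ
  set M : ℝ := 3 ^ (2 * N)
  have hM : 1 ≤ M := one_le_pow₀ (by norm_num)
  set ρ : ℝ := 1 / (32 * M)
  have hρ : 0 < ρ := by positivity
  refine ⟨ρ ^ 2 * (κ * (δ / 4) ^ 2), by positivity, fun m w V S B hS hw hV h0 h1 h2 h3 => ?_⟩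
  obtain ⟨t, ht, hl⟩ := disc hS hδ hM hV h0 h1 (two hS hδ hV (fun τ h => (h2 τ h).1) h3)
  have hb : closedBall (0 : ℂ) (S / 2) ⊆ ball 0 S := closedBall_subset_ball (by linarith)
  have hb1 : closedBall (0 : ℂ) 1 ⊆ ball 0 S := closedBall_subset_ball (by linarith)
  have a1 := (C.two_radii (c := 0) (φ := w) one_pos (show (1 : ℝ) ≤ S / 2 by linarith)
    (fun z hz => (hw z (hb hz)).1) fun z hz => (hw z (hb (ball_subset_closedBall hz))).2.1).1
  have a2 := C.submean (c := 0) (φ := w) one_pos (fun z hz => (hw z (hb1 hz)).1)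
    fun z hz => (hw z (hb1 (ball_subset_closedBall hz))).2.1
  have a3 := C.avg_le (w := w) (c := 0) (B := B) (show 0 < S / 2 by linarith)
    (fun z hz => (hw z (hb (sphere_subset_closedBall hz))).1.continuousAt.continuousWithinAt)
    fun z hz => (hw z (hb (sphere_subset_closedBall hz))).2.2
  have hi : IntegrableOn (ddb w) (ball (0 : ℂ) 1) :=
    ((C.contOn_ddb' fun z hz => (hw z (hb1 hz)).1).integrableOn_compact
      (isCompact_closedBall 0 1)).mono_set ball_subset_closedBall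
  have a4 : ∫ z in ball t ρ, ddb w z ≤ ∫ z in ball (0 : ℂ) 1, ddb w z :=
    setIntegral_mono_set hi ((ae_restrict_mem measurableSet_ball).mono fun z hz =>
      (hw z (hb1 (ball_subset_closedBall hz))).2.1) ht.eventuallyLE
  have a5 : κ * (δ / 4) ^ 2 * volume.real (ball t ρ) ≤ ∫ z in ball t ρ, ddb w z :=
    setIntegral_ge_of_const_le_real measurableSet_ball measure_ball_lt_top.ne (fun z hz => by
      refine le_trans ?_ (h2 z (ball_subset_closedBall (ht hz))).2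
      have := hl z hz
      gcongr) (hi.mono_set ht)
  have a6 : volume.real (ball t ρ) = π * ρ ^ 2 := by
    rw [Measure.real, Complex.volume_ball]
    simp [hρ.le, mul_comm]
  have a7 : Real.log S ≤ 2 * Real.log (S / 2 / 1) := by
    rw [div_one, show (2 : ℝ) * Real.log (S / 2) = Real.log ((S / 2) ^ 2) by simp]
    exact Real.log_le_log (by linarith) (by nlinarith)
  have a8 : 0 ≤ Real.log (S / 2 / 1) := Real.log_nonneg (by linarith)
  rw [a6] at a5
  have a9 : 2 / π * Real.log (S / 2 / 1) * (κ * (δ / 4) ^ 2 * (π * ρ ^ 2)) ≤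
      2 / π * Real.log (S / 2 / 1) * ∫ z in ball (0 : ℂ) 1, ddb w z := by
    have := Real.pi_pos
    gcongr
    exact a5.trans a4
  have a10 : 2 / π * Real.log (S / 2 / 1) * (κ * (δ / 4) ^ 2 * (π * ρ ^ 2)) =
      ρ ^ 2 * (κ * (δ / 4) ^ 2) * (2 * Real.log (S / 2 / 1)) := by
    have := Real.pi_pos
    field_simp
  have a11 : ρ ^ 2 * (κ * (δ / 4) ^ 2) * Real.log S ≤
      ρ ^ 2 * (κ * (δ / 4) ^ 2) * (2 * Real.log (S / 2 / 1)) := by gcongr
  linarith

end Vale.Agent.P253W.D
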