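import Vale.Agent.P253W.D.Spec

/-!
# P253W, block D: the row PINL
-/

open scoped Manifold ContDiff Bundle ENNReal Topology Matrix ComplexOrder
open Bundle IsManifold MeasureTheory Set Metric Filter Vale.Agent.P253.Mfd Vale.Agent.P253Z
open Vale.Agent.P272.K (Cm jacM Chart)
open Vale.Agent.P272.GJ (ddb)

noncomputable section

namespace Vale.Agent.P253W.D

namespace Pinl

variable {n : ℕ}

theorem dot_le (α v : Cm n) : ‖α ⬝ᵥ v‖ ≤ n * (‖α‖ * ‖v‖) := by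
  unfold dotProduct
  calc ‖∑ i, α i * v i‖ ≤ ∑ i, ‖α i * v i‖ := norm_sum_le _ _
    _ ≤ ∑ _i : Fin n, ‖α‖ * ‖v‖ := Finset.sum_le_sum fun i _ => by
        rw [norm_mul]
        exact mul_le_mul (norm_le_pi_norm α i) (norm_le_pi_norm v i) (norm_nonneg _)
          (norm_nonneg _)
    _ = n * (‖α‖ * ‖v‖) := by simp

variable {M : Type} [MetricSpace M] [ChartedSpace (Cm n) M]

theorem onto {Ψ : Cm n → M} {y : Cm n} (h : (jm Ψ y).det ≠ 0) (v : Cm n) : ∃ w, dn Ψ y w = v :=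
  ⟨(jm Ψ y)⁻¹ *ᵥ v, by
    unfold dn
    rw [Matrix.mulVec_mulVec, Matrix.mul_nonsing_inv _ (isUnit_iff_ne_zero.2 h), Matrix.one_mulVec]⟩

theorem mda {Ψ : Cm n → M} {U : Set (Cm n)} (h : Hn Ψ U) (hU : IsOpen U) {y : Cm n} (hy : y ∈ U) :
    MDifferentiableAt 𝓘(ℂ, Cm n) 𝓘(ℂ, Cm n) Ψ y := h.mdifferentiableAt (hU.mem_nhds hy)

/-- translations -/
theorem shift (df : DF n M) {Ψ : Cm n → M} {y b : Cm n}
    (h : MDifferentiableAt 𝓘(ℂ, Cm n) 𝓘(ℂ, Cm n) Ψ (y + b)) :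
    jm (fun w => Ψ (w + b)) y = jm Ψ (y + b) := by
  have h1 : HasFDerivAt (fun w : Cm n => w + b) (ContinuousLinearMap.id ℂ (Cm n)) y :=
    (hasFDerivAt_id y).add_const b
  have h2 := (df.chain Ψ (fun w => w + b) y h h1.differentiableAt).1
  rw [h2, h1.fderiv]
  simp [mx]

theorem hp_shift {Ψ : Cm n → M} (h : Hn Ψ (ball 0 1)) (v : Cm n) :
    HP (fun ζ w => Ψ (w + ζ • v)) {q : ℂ × Cm n | q.2 + q.1 • v ∈ ball (0 : Cm n) 1} := by
  have h1 : Differentiable ℂ fun q : ℂ × Cm n => q.2 + q.1 • v := by fun_prop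
  exact h.comp h1.mdifferentiable.mdifferentiableOn fun q hq => hq

variable [RiemannianBundle fun x : M => TangentSpace 𝓘(ℝ, Cm n) x] {F : Flow n M}

theorem hq_up (mt : MT F) {P : Mx n} (hP : P.PosDef) {l : ℝ} (hl : 0 < l)
    (h : ∀ v, l * ‖v‖ ^ 2 ≤ qf P v) (α : Cm n) : hq P α ≤ n ^ 2 * ‖α‖ ^ 2 / l := by
  refine mt.dual P hP α _ (by positivity) fun v => ?_
  have h1 := dot_le α v
  have h2 : ‖α ⬝ᵥ v‖ ^ 2 ≤ (n * (‖α‖ * ‖v‖)) ^ 2 := pow_le_pow_left₀ (norm_nonneg _) h1 2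
  calc ‖α ⬝ᵥ v‖ ^ 2 ≤ (n * (‖α‖ * ‖v‖)) ^ 2 := h2
    _ = n ^ 2 * ‖α‖ ^ 2 / l * (l * ‖v‖ ^ 2) := by field_simp
    _ ≤ _ := mul_le_mul_of_nonneg_left (h v) (by positivity)

theorem hq_low (mt : MT F) {P : Mx n} (hP : P.PosDef) {L : ℝ}
    (h : ∀ v, qf P v ≤ L * ‖v‖ ^ 2) (hn : 1 ≤ n) (α : Cm n) : ‖α‖ ^ 2 ≤ L * hq P α := by
  have : Nonempty (Fin n) := ⟨⟨0, hn⟩⟩
  obtain ⟨i, hi⟩ := (IsGreatest.pi_norm α).1
  have h1 := mt.cs P hP α (Pi.single i 1)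
  have h2 := h (Pi.single i 1)
  have h3 : 0 ≤ hq P α := by
    simpa [hq] using (hP.inv.posSemidef.dotProduct_mulVec_nonneg α).1
  rw [Pi.norm_single, norm_one, one_pow, mul_one] at h2
  rw [dotProduct_single, mul_one] at h1
  simp only at hi
  rw [← hi]
  nlinarith [mul_le_mul_of_nonneg_left h2 h3]

variable [MeasurableSpace M] {μ : Measure M} {T : F.TA μ}

theorem hol_z (t : Tools T) {z : Fin n → M → ℂ} (hz : ∀ i, z i ∈ T.A) {Ψ : Cm n → M}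
    {U : Set (Cm n)} (h : Hn Ψ U) : DifferentiableOn ℂ (fun w => zv z (Ψ w)) U :=
  differentiableOn_pi.2 fun i => t.map.holn (z i) Ψ U (t.zc.sec _ (hz i)).1 h

/-- one chart -/
theorem core (t : Tools T) (hn : 1 ≤ n) {z : Fin n → M → ℂ} (hz : ∀ i, z i ∈ T.A) {e : Chart n M}
    (hez : ∀ y ∈ e.source, e y = zv z y) {c₀ : Cm n} {δ κ c : ℝ} {N : ℕ} (hδ : 0 < δ)
    (hK : closedBall c₀ (2 * δ) ⊆ e.target)
    (hκ : ∀ (E : ℂ → Cm n → M) (D : Set (ℂ × Cm n)) (σ : ℂ) (y α : Cm n), IsOpen D →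
      HP E D → (σ, y) ∈ D → (jm (E σ) y).det ≠ 0 → α ≠ 0 → E σ y ∈ e.source →
      e (E σ y) ∈ closedBall c₀ (2 * δ) →
      κ * ‖deriv (fun s => e (E s y)) σ‖ ^ 2 ≤ ddb (lw F E 0 y α) σ)
    (hc : ∀ (w : ℂ → ℝ) (V : ℂ → Cm n) (S B : ℝ), 4 ≤ S →
      (∀ τ ∈ ball (0 : ℂ) S, ContDiffAt ℝ 2 w τ ∧ 0 ≤ ddb w τ ∧ w τ ≤ B) →
      DifferentiableOn ℂ V (ball 0 S) → V 0 = 0 → ‖V 1‖ = δ →
      (∀ τ ∈ closedBall (0 : ℂ) 1, ‖V τ‖ ≤ δ ∧ κ * ‖deriv V τ‖ ^ 2 ≤ ddb w τ) →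
      (∀ τ ∈ ball (0 : ℂ) S, ‖V τ‖ ≤ δ * S ^ N) → w 0 ≤ B - c * Real.log S)
    {Ψ : Cm n → M} {s l L r E θ : ℝ} (hs : 0 ≤ s) (hl : 0 < l) (hr : 0 < r) (hr1 : 3 * r ≤ 1)
    (hΨ : Hn Ψ (ball 0 1))
    (hm : ∀ y ∈ ball (0 : Cm n) 1, ∀ v, l * ‖v‖ ^ 2 ≤ F.nv s (Ψ y) (dn Ψ y v) ∧
      F.nv s (Ψ y) (dn Ψ y v) ≤ L * ‖v‖ ^ 2)
    (hE : ∀ w ∈ ball (0 : Cm n) (3 * r), ‖zv z (Ψ w)‖ ≤ E) {y : Cm n} (hy : ‖y‖ ≤ r)
    (hy1 : Ψ y ∈ e.source) (hy2 : e (Ψ y) ∈ ball c₀ δ)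
    (hΛ : n.factorial * δ ^ n < ‖(mx (fderiv ℂ (fun w => zv z (Ψ w)) y)).det‖ * r ^ n)
    (hS : ∀ S : ℝ, 0 < S → ‖(mx (fderiv ℂ (fun w => zv z (Ψ w)) y)).det‖ * r ^ n ≤
      n.factorial * δ ^ n * S ^ n →
      4 ≤ S ∧ 2 * E ≤ δ * S ^ N ∧ n ^ 2 * L / l * Real.exp (-(c * Real.log S)) ≤ θ) (v : Cm n) :
    F.nv s (Ψ y) v ≤ θ * F.nv 0 (Ψ y) v := by
  set h : Cm n → Cm n := fun w => zv z (Ψ w) with hh
  have hb : ball (0 : Cm n) (3 * r) ⊆ ball 0 1 := ball_subset_ball hr1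
  have hd : DifferentiableOn ℂ h (ball 0 1) := hol_z t hz hΨ
  obtain ⟨y₀, hy₀, v₀, hv0, hv1, hv2, hv3, hv4⟩ := t.exit h {y} r δ y isCompact_singleton hr hδ
    (by simpa using hy) (hd.mono hb) rfl hΛ
  obtain rfl : y₀ = y := hy₀
  obtain ⟨hv5, -⟩ := hv4 y₀ rfl
  set S : ℝ := r / ‖v₀‖ with hSd
  have hS0 : 0 < S := div_pos hr hv0
  have hSv : S * ‖v₀‖ = r := div_mul_cancel₀ _ hv0.ne'
  obtain ⟨hS4, hSE, hSθ⟩ := hS S hS0 (by
    rw [← hSv, mul_pow, ← mul_assoc, mul_right_comm]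
    exact mul_le_mul_of_nonneg_right hv3 (by positivity))
  have hin : ∀ τ ∈ ball (0 : ℂ) S, y₀ + τ • v₀ ∈ ball (0 : Cm n) (3 * r) := fun τ hτ => by
    rw [mem_ball_zero_iff] at hτ ⊢
    have h1 : ‖τ • v₀‖ ≤ r := by
      rw [norm_smul, ← hSv]
      exact mul_le_mul_of_nonneg_right hτ.le hv0.le
    linarith [norm_add_le y₀ (τ • v₀)]
  have hy0 : y₀ ∈ ball (0 : Cm n) (3 * r) := by
    rw [mem_ball_zero_iff]; linarith
  have het : ∀ w ∈ ball (0 : Cm n) 1, (jm Ψ w).det ≠ 0 := fun w hw =>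
    t.mt.et s l Ψ w hl fun v => (hm w hw v).1
  set Ef : ℂ → Cm n → M := fun ζ w => Ψ (w + ζ • v₀) with hEf
  set D : Set (ℂ × Cm n) := {q | q.2 + q.1 • v₀ ∈ ball (0 : Cm n) 1} with hD
  have hDo : IsOpen D := isOpen_ball.preimage (by fun_prop)
  have hDh : HP Ef D := hp_shift hΨ v₀
  have hj : ∀ τ ∈ ball (0 : ℂ) S, jm (Ef τ) y₀ = jm Ψ (y₀ + τ • v₀) := fun τ hτ =>
    shift t.df (mda hΨ isOpen_ball (hb (hin τ hτ)))
  have hpu : ∀ τ ∈ ball (0 : ℂ) S, ∀ s', F.pull (Ef τ) s' y₀ = F.pull Ψ s' (y₀ + τ • v₀) :=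
    fun τ hτ s' => by
      unfold Flow.pull
      rw [hj τ hτ]
  have h1S : closedBall (0 : ℂ) 1 ⊆ ball 0 S := closedBall_subset_ball (by linarith)
  -- the unit disc stays in the chart
  have hz1 : ∀ τ ∈ closedBall (0 : ℂ) 1, ‖h (y₀ + τ • v₀) - h y₀‖ ≤ δ := fun τ hτ =>
    hv5 _ (by
      rw [norm_smul]
      exact mul_le_of_le_one_left hv0.le (mem_closedBall_zero_iff.1 hτ))
  have hz2 : ∀ τ ∈ closedBall (0 : ℂ) 1, h (y₀ + τ • v₀) ∈ closedBall c₀ (2 * δ) := fun τ hτ => by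
    have h1 : h y₀ = e (Ψ y₀) := (hez _ hy1).symm
    have h2 := hz1 τ hτ
    rw [h1, ← dist_eq_norm] at h2
    rw [mem_ball] at hy2
    rw [mem_closedBall]
    linarith [dist_triangle (h (y₀ + τ • v₀)) (e (Ψ y₀)) c₀]
  have hγ : ContinuousOn (fun τ : ℂ => Ψ (y₀ + τ • v₀)) (ball 0 S) :=
    hΨ.continuousOn.comp (by fun_prop) fun τ hτ => hb (hin τ hτ)
  have hsrc : ∀ τ ∈ closedBall (0 : ℂ) 1, Ψ (y₀ + τ • v₀) ∈ e.source := fun τ hτ => by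
    refine t.zc.cap z e hz hez ((fun τ : ℂ => Ψ (y₀ + τ • v₀)) '' closedBall 0 1)
      ((convex_closedBall _ _).isPreconnected.image _ (hγ.mono h1S)) ?_ ?_ ⟨τ, hτ, rfl⟩
    · rintro _ ⟨τ', hτ', rfl⟩
      exact hK (hz2 τ' hτ')
    · exact ⟨_, ⟨0, by simp, rfl⟩, by simpa using hy1⟩
  have hP0 := t.mt.pos 0 le_rfl Ψ y₀ (het _ (hb hy0))
  have hPs := t.mt.pos s hs Ψ y₀ (het _ (hb hy0))
  have key : ∀ α, hq (F.pull Ψ 0 y₀) α ≤ θ * hq (F.pull Ψ s y₀) α := fun α => by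
    by_cases hα : α = 0
    · simp [hq, hα]
    have hα' : 0 < ‖α‖ := norm_pos_iff.2 hα
    have hn' : (0 : ℝ) < n := by exact_mod_cast hn
    have hpos : ∀ {P : Mx n}, P.PosDef → 0 < hq P α := fun hP => by
      simpa [hq] using (hP.inv.dotProduct_mulVec_pos hα).1
    have hw := hc (lw F Ef 0 y₀ α) (fun τ => h (y₀ + τ • v₀) - h y₀) S
      (Real.log (n ^ 2 * ‖α‖ ^ 2 / l)) hS4 (fun τ hτ => ?_) ?_ (by simp) (by simpa using hv2)
      (fun τ hτ => ⟨hz1 τ hτ, ?_⟩) fun τ hτ => ?_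
    · have h1 : lw F Ef 0 y₀ α 0 = Real.log (hq (F.pull Ψ 0 y₀) α) := by
        unfold lw
        rw [hpu 0 (mem_ball_self hS0)]
        simp
      rw [h1] at hw
      have h2 : hq (F.pull Ψ 0 y₀) α ≤ n ^ 2 * ‖α‖ ^ 2 / l * Real.exp (-(c * Real.log S)) := by
        have h3 := Real.exp_le_exp.2 hw
        rwa [Real.exp_log (hpos hP0), sub_eq_add_neg, Real.exp_add,
          Real.exp_log (by positivity)] at h3
      have h4 := hq_low t.mt hPs (L := L) (fun v => by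
        rw [F.qf_pull]; exact (hm _ (hb hy0) v).2) hn α
      calc hq (F.pull Ψ 0 y₀) α ≤ n ^ 2 * ‖α‖ ^ 2 / l * Real.exp (-(c * Real.log S)) := h2
        _ ≤ n ^ 2 * (L * hq (F.pull Ψ s y₀) α) / l * Real.exp (-(c * Real.log S)) := by gcongr
        _ = n ^ 2 * L / l * Real.exp (-(c * Real.log S)) * hq (F.pull Ψ s y₀) α := by ring
        _ ≤ _ := mul_le_mul_of_nonneg_right hSθ (hpos hPs).le
    · have h0 : (jm (Ef τ) y₀).det ≠ 0 := by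
        rw [hj τ hτ]; exact het _ (hb (hin τ hτ))
      obtain ⟨h1, h2⟩ := t.sub.sub 0 le_rfl Ef D τ y₀ α hDo hDh (hb (hin τ hτ)) h0 hα
      refine ⟨h1, h2, ?_⟩
      unfold lw
      rw [hpu τ hτ]
      have h3 := t.mt.pos 0 le_rfl Ψ _ (het _ (hb (hin τ hτ)))
      refine Real.log_le_log (hpos h3) (hq_up t.mt h3 hl (fun v => ?_) α)
      rw [F.qf_pull]
      exact (hm _ (hb (hin τ hτ)) v).1.trans (t.mt.anti 0 s le_rfl hs _ _)
    · refine DifferentiableOn.sub_const ?_ _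
      exact hd.comp (by fun_prop) fun τ hτ => hb (hin τ hτ)
    · have hτ' := h1S hτ
      have h0 : (jm (Ef τ) y₀).det ≠ 0 := by
        rw [hj τ hτ']; exact het _ (hb (hin τ hτ'))
      have h1 := hκ Ef D τ y₀ α hDo hDh (hb (hin τ hτ')) h0 hα (hsrc τ hτ)
        (by rw [show Ef τ y₀ = Ψ (y₀ + τ • v₀) from rfl, hez _ (hsrc τ hτ)]; exact hz2 τ hτ)
      have h2 : (fun s => e (Ef s y₀)) =ᶠ[𝓝 τ] fun s => h (y₀ + s • v₀) := by
        have h3 := (hγ.continuousAt (isOpen_ball.mem_nhds hτ')).preimage_mem_nhds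
          (e.open_source.mem_nhds (hsrc τ hτ))
        filter_upwards [h3] with s hs'
        exact hez _ hs'
      rw [deriv_sub_const, ← h2.deriv_eq]
      exact h1
    · calc ‖h (y₀ + τ • v₀) - h y₀‖ ≤ ‖h (y₀ + τ • v₀)‖ + ‖h y₀‖ := norm_sub_le _ _
        _ ≤ 2 * E := by linarith [hE _ (hin τ hτ), hE _ hy0]
        _ ≤ _ := hSE
  obtain ⟨w, rfl⟩ := onto (het _ (hb hy0)) v
  have := t.mt.undual _ _ hP0 hPs θ key w
  rwa [F.qf_pull, F.qf_pull] at this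

/-- the arithmetic -/
theorem arith {n : ℕ} (hn : 1 ≤ n) {a c₁ δ r : ℝ} (ha : 0 < a) (hc : 0 < c₁) (hδ : 0 < δ)
    (hr : 0 < r) : ∀ᶠ U : ℝ in atTop, ∀ Λ : ℝ, c₁ * Real.exp ((a * U - 1) / 2) ≤ Λ →
      n.factorial * δ ^ n < Λ * r ^ n ∧ ∀ S : ℝ, 0 < S → Λ * r ^ n ≤ n.factorial * δ ^ n * S ^ n →
        a / (4 * n) * U ≤ Real.log S := by
  have hn' : (0 : ℝ) < n := by exact_mod_cast hn
  set b : ℝ := n.factorial * δ ^ n with hb
  have hb0 : 0 < b := by positivity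
  set q : ℝ := c₁ * r ^ n * Real.exp (-1 / 2) / b with hq
  have hq0 : 0 < q := by positivity
  have h1 : Tendsto (fun U : ℝ => q * Real.exp (a / 4 * U)) atTop atTop :=
    (Real.tendsto_exp_atTop.comp (tendsto_id.const_mul_atTop (by positivity))).const_mul_atTop hq0
  filter_upwards [h1.eventually_gt_atTop 1, eventually_ge_atTop 0] with U hU hU0 Λ hΛ
  have h2 : b * (q * Real.exp (a / 4 * U)) * Real.exp (a / 4 * U) ≤ Λ * r ^ n := by
    calc b * (q * Real.exp (a / 4 * U)) * Real.exp (a / 4 * U)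
        = c₁ * Real.exp ((a * U - 1) / 2) * r ^ n := by
          rw [show (a * U - 1) / 2 = -1 / 2 + a / 4 * U + a / 4 * U by ring, Real.exp_add,
            Real.exp_add, hq]
          field_simp
      _ ≤ Λ * r ^ n := by gcongr
  have h3 : 1 ≤ Real.exp (a / 4 * U) := Real.one_le_exp (by positivity)
  have h4 : b * Real.exp (a / 4 * U) < Λ * r ^ n := by
    refine lt_of_lt_of_le ?_ h2
    have : b < b * (q * Real.exp (a / 4 * U)) := lt_mul_of_one_lt_right hb0 hU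
    gcongr
  refine ⟨lt_of_le_of_lt (le_mul_of_one_le_right hb0.le h3) h4, fun S hS h5 => ?_⟩
  have h6 : Real.exp (a / 4 * U) ≤ S ^ n := le_of_mul_le_mul_left (h4.le.trans h5) hb0
  have h7 := Real.log_le_log (Real.exp_pos _) h6
  rw [Real.log_exp, Real.log_pow] at h7
  rw [show a / (4 * n) * U = a / 4 * U / n by field_simp, div_le_iff₀ hn']
  linarith

theorem ev_exp {A b : ℝ} (hb : 0 < b) : ∀ᶠ U : ℝ in atTop, A ≤ Real.exp (b * U) :=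
  (Real.tendsto_exp_atTop.comp (tendsto_id.const_mul_atTop hb)).eventually_ge_atTop A

end Pinl

open Pinl

variable {n : ℕ} {M : Type} [MetricSpace M] [ChartedSpace (Cm n) M]
  [RiemannianBundle fun x : M => TangentSpace 𝓘(ℝ, Cm n) x] [MeasurableSpace M]
  {μ : Measure M} {F : Flow n M} {T : F.TA μ}

theorem pinl (hn : 1 ≤ n) (t : Tools T) : PINL T := by
  intro p Ψ l L r s ch sec bnd x₀
  obtain ⟨z, e, hz, he, hx₀, hez⟩ := t.zc.ex x₀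
  obtain ⟨ε, hε, hεb⟩ := Metric.nhds_basis_closedBall.mem_iff.1
    (e.open_target.mem_nhds (e.map_source hx₀))
  set δ : ℝ := ε / 2 with hδd
  have hδ : 0 < δ := by positivity
  have hK : closedBall (e x₀) (2 * δ) ⊆ e.target := by
    rw [show 2 * δ = ε by rw [hδd]; ring]; exact hεb
  obtain ⟨κ, hκ, hκ'⟩ := t.sub.str e he _ (isCompact_closedBall _ _) hK
  obtain ⟨c₁, hc₁, hdet⟩ := t.mt.det e he _ (isCompact_closedBall _ _) hK l ch.l_pos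
  obtain ⟨-, hUt, hU⟩ := t.uh p
  obtain ⟨Cu, hCu, hU'⟩ := hU (dist x₀ p + 1)
  choose C hC using fun i => bnd (z i) (hz i)
  set C₀ : ℝ := ∑ i, |C i| with hC₀
  have hC₁ : ∀ i, C i ≤ C₀ := fun i => (le_abs_self _).trans
    (Finset.single_le_sum (f := fun i => |C i|) (fun j _ => abs_nonneg _) (Finset.mem_univ i))
  have hn' : (0 : ℝ) < n := by exact_mod_cast hn
  set a : ℝ := Cu⁻¹ / (4 * n) with ha
  have ha0 : 0 < a := by positivity
  obtain ⟨N, hN⟩ := exists_nat_ge ((C₀ + 1) / a)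
  obtain ⟨c, hc, hc'⟩ := t.pin0 κ δ N hκ hδ
  have hr := ch.r_pos
  refine ⟨e.source ∩ e ⁻¹' ball (e x₀) δ ∩ ball x₀ 1, inter_mem (inter_mem
    (e.open_source.mem_nhds hx₀) ((e.continuousAt hx₀).preimage_mem_nhds (ball_mem_nhds _ hδ)))
    (ball_mem_nhds _ one_pos), c * a / 2, by positivity, ?_⟩
  filter_upwards [sec (dist x₀ p + 1) (r / 48) (by positivity), eventually_all.2 hC,
    hUt.eventually (arith hn (a := Cu⁻¹) (by positivity) hc₁ hδ (r := r / 48) (by positivity)),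
    hUt.eventually (ev_exp (A := 4) ha0), hUt.eventually (ev_exp (A := 2 / δ) one_pos),
    hUt.eventually (ev_exp (A := n ^ 2 * L / l) (b := c * a / 2) (by positivity)),
    hUt.eventually_ge_atTop 0] with k h1 h2 h3 h4 h5 h6 h7 x hx v
  obtain ⟨⟨hx1, hx2⟩, hx3⟩ := hx
  have hxp : x ∈ ball p (dist x₀ p + 1) := by
    rw [mem_ball] at hx3 ⊢
    linarith [dist_triangle x x₀ p]
  obtain ⟨hs1, hs2⟩ := h1.2.2 x hxp
  have hk : 0 ≤ tk k := by unfold tk; positivity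
  have hy1 : s k x ∈ ball (0 : Cm n) 1 := by
    rw [mem_ball_zero_iff]; linarith [ch.r_le]
  have hma := mda (ch.hol k) isOpen_ball hy1
  have hev : (fun w => e (Ψ k w)) =ᶠ[𝓝 (s k x)] fun w => zv z (Ψ k w) := by
    filter_upwards [hma.continuousAt.preimage_mem_nhds
      (e.open_source.mem_nhds (hs1.symm ▸ hx1 : Ψ k (s k x) ∈ e.source))] with w hw
    exact hez _ hw
  have hΛ := hdet (tk k) hk (Ψ k) (s k x) hma (by rwa [hs1])
    (by rw [hs1]; exact closedBall_subset_closedBall (by linarith) (ball_subset_closedBall hx2))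
    fun v => (ch.met k _ hy1 v).1
  rw [hev.fderiv_eq, hs1] at hΛ
  have hΛ' : c₁ * Real.exp ((Cu⁻¹ * Uk F p k - 1) / 2) ≤
      ‖(mx (fderiv ℂ (fun w => zv z (Ψ k w)) (s k x))).det‖ := by
    refine le_trans ?_ hΛ
    have h8 : Cu⁻¹ * Uk F p k ≤ Uk F x k := by
      rw [inv_mul_le_iff₀ (by linarith)]; exact (hU' k x hxp).2
    have h9 : Uk F x k = 1 + (F.u (tk k) x - F.u 0 x) := rfl
    exact mul_le_mul_of_nonneg_left (Real.exp_le_exp.2 (by linarith)) hc₁.le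
  obtain ⟨h9, h10⟩ := h3 _ hΛ'
  have := core t hn hz hez hδ hK hκ' (hc' n) hk ch.l_pos (r := r / 48) (by positivity)
    (by linarith [ch.r_le]) (ch.hol k) (ch.met k) (E := Real.exp (C₀ * Uk F p k))
    (θ := Real.exp (-(c * a / 2 * Uk F p k))) (fun w hw => ?_) hs2 (by rwa [hs1]) (by rwa [hs1])
    h9 (fun S hS hS' => ?_) v
  · rwa [hs1] at this
  · refine (pi_norm_le_iff_of_nonneg (Real.exp_pos _).le).2 fun i => ?_
    refine (h2 i w (by rwa [show r / 16 = 3 * (r / 48) by ring])).trans ?_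
    gcongr
    exact hC₁ i
  · have h11 : a * Uk F p k ≤ Real.log S := h10 S hS hS'
    have h12 : Real.exp (a * Uk F p k) ≤ S := by
      rw [← Real.exp_log hS]; exact Real.exp_le_exp.2 h11
    refine ⟨h4.trans h12, ?_, ?_⟩
    · have h13 : Real.exp (a * Uk F p k) ^ N ≤ S ^ N := by gcongr
      have h14 : Real.exp ((C₀ + 1) * Uk F p k) ≤ Real.exp (a * Uk F p k) ^ N := by
        rw [← Real.exp_nat_mul, ← mul_assoc]
        rw [div_le_iff₀ ha0] at hN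
        gcongr
      rw [div_le_iff₀ hδ, one_mul] at h5
      rw [add_mul, one_mul, Real.exp_add] at h14
      calc 2 * Real.exp (C₀ * Uk F p k) ≤ Real.exp (Uk F p k) * δ * Real.exp (C₀ * Uk F p k) := by
            gcongr
        _ = δ * (Real.exp (C₀ * Uk F p k) * Real.exp (Uk F p k)) := by ring
        _ ≤ δ * S ^ N := by gcongr; exact h14.trans h13
    · calc n ^ 2 * L / l * Real.exp (-(c * Real.log S))
          ≤ Real.exp (c * a / 2 * Uk F p k) * Real.exp (-(c * (a * Uk F p k))) := by gcongr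
        _ = _ := by rw [← Real.exp_add]; congr 1; ring

end Vale.Agent.P253W.D
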