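import Vale.Agent.P253W.D.Spec

/-!
# P253W, row D.PROP: propagation across a hypersurface (helper1)
-/

open scoped Manifold ContDiff Topology
open IsManifold Set Metric Filter Vale.Agent.P253.Mfd Vale.Agent.P253Z
open Vale.Agent.P272.K (Cm Chart)

noncomputable section

namespace Vale.Agent.P253W.D

variable {n : ℕ}

theorem PropA.tube {S : Set (Cm n)} (hS : IsOpen S) {K : Set ℂ} (hK : IsCompact K) {w v : Cm n}
    (h : ∀ τ ∈ K, w + τ • v ∈ S) : ∀ᶠ y in 𝓝 w, ∀ τ ∈ K, y + τ • v ∈ S :=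
  hK.eventually_forall_of_forall_eventually fun τ hτ =>
    (show ContinuousAt (fun q : Cm n × ℂ => q.1 + q.2 • v) (w, τ) by fun_prop).eventually
      (hS.mem_nhds (h τ hτ))

variable {M : Type} [MetricSpace M] [ChartedSpace (Cm n) M] [ConnectedSpace M]

/-- **Row PROP.** -/
theorem prop (a : B1a n M) (o : OPN n) : PROP n M := by
  intro G hG hne h1 h2
  refine IsClopen.eq_univ ⟨isClosed_of_closure_subset fun x₀ hx₀ => ?_, hG⟩ hne
  obtain ⟨ψ, hψ, h0, V, hV, h1⟩ := h1 x₀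
  have he := a.chart x₀
  have hx := mem_chart_source (Cm n) x₀
  generalize chartAt (Cm n) x₀ = e at he hx
  have an : ∀ w ∈ e.target, AnalyticAt ℂ (fun y => ψ (e.symm y)) w := fun w hw => by
    have := hψ e he w hw
    refine this.congr (Eventually.of_forall fun y => ?_)
    simp only [co, zpow_zero, one_mul]
  have hV' : e.symm ⁻¹' V ∈ 𝓝 (e x₀) :=
    (e.symm.continuousAt (e.map_source hx)).preimage_mem_nhds (by rwa [e.left_inv hx])
  obtain ⟨r, hr, hb⟩ := Metric.mem_nhds_iff.1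
    (inter_mem (e.open_target.mem_nhds (e.map_source hx)) hV')
  have dψ : DifferentiableOn ℂ (fun y => ψ (e.symm y)) (ball (e x₀) r) := fun w hw =>
    (an w (hb hw).1).differentiableAt.differentiableWithinAt
  have oS : IsOpen (ball (e x₀) r ∩ {y | ψ (e.symm y) ≠ 0}) :=
    dψ.continuousOn.isOpen_inter_preimage isOpen_ball isOpen_ne
  obtain ⟨x₁, g₁, s₁, b₁, n₁⟩ : ∃ x ∈ G, x ∈ e.source ∧ e x ∈ ball (e x₀) r ∧ ψ x ≠ 0 := by
    by_contra hc
    push Not at hc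
    have oN := e.isOpen_inter_preimage (isOpen_ball (x := e x₀) (ε := r))
    obtain ⟨x, x1, x2⟩ := _root_.mem_closure_iff.1 hx₀ _ oN ⟨hx, mem_ball_self hr⟩
    exact h0 (a.ident 0 ψ hψ x (mem_of_superset ((oN.inter hG).mem_nhds ⟨x1, x2⟩)
      fun y hy => hc y hy.2 hy.1.1 hy.1.2))
  have n₂ : ψ (e.symm (e x₁)) ≠ 0 := by rwa [e.left_inv s₁]
  have sub : e.symm '' (ball (e x₀) r ∩ {y | ψ (e.symm y) ≠ 0}) ⊆ G :=
    ((o.conn _ _ r dψ).image _ (e.continuousOn_symm.mono fun w hw =>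
      (hb hw.1).1)).subset_of_closure_inter_subset hG
      ⟨x₁, ⟨e x₁, ⟨b₁, n₂⟩, e.left_inv s₁⟩, g₁⟩ (by
        rintro _ ⟨k, w, hw, rfl⟩
        exact h1 _ (hb hw.1).2 hw.2 k)
  set u := e x₁ - e x₀
  have cl : ContinuousAt (fun τ : ℂ => e x₀ + τ • u) 0 := by fun_prop
  have al : ∀ τ : ℂ, e x₀ + τ • u ∈ ball (e x₀) r →
      AnalyticAt ℂ (fun τ : ℂ => ψ (e.symm (e x₀ + τ • u))) τ := fun τ hτ =>
    (an _ (hb hτ).1).comp (f := fun τ : ℂ => e x₀ + τ • u) (by fun_prop)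
  have m0 : e x₀ + (0 : ℂ) • u ∈ ball (e x₀) r := by simpa using hr
  have ne : ∀ᶠ τ : ℂ in 𝓝[≠] 0, ψ (e.symm (e x₀ + τ • u)) ≠ 0 := by
    refine (al 0 m0).eventually_eq_zero_or_eventually_ne_zero.resolve_left fun h => n₂ ?_
    have cv : Convex ℝ {τ : ℂ | e x₀ + τ • u ∈ ball (e x₀) r} := by
      rw [show {τ : ℂ | e x₀ + τ • u ∈ ball (e x₀) r} =
        ((LinearMap.toSpanSingleton ℂ (Cm n) u).restrictScalars ℝ) ⁻¹' ball 0 r from by
          ext τ
          simp]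
      exact (convex_ball (0 : Cm n) r).linear_preimage _
    have := AnalyticOnNhd.eqOn_zero_of_preconnected_of_eventuallyEq_zero
      (U := {τ : ℂ | e x₀ + τ • u ∈ ball (e x₀) r}) al cv.isPreconnected m0 h
      (show (1 : ℂ) ∈ _ by simpa [u, dist_eq_norm] using b₁)
    simpa [u] using this
  obtain ⟨ε, hε, hd⟩ := nhds_basis_closedBall.mem_iff.1
    ((eventually_nhdsWithin_iff.1 ne).and (cl.eventually (isOpen_ball.mem_nhds m0)))
  have sc : ∀ τ : ℂ, τ • ((ε / 4 : ℝ) : ℂ) • u = (τ * (ε / 4 : ℝ)) • u := fun τ => smul_smul _ _ _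
  have sm : ∀ τ : ℂ, ‖τ‖ ≤ 4 → τ * (ε / 4 : ℝ) ∈ closedBall (0 : ℂ) ε := fun τ hτ => by
    rw [mem_closedBall_zero_iff, norm_mul, Complex.norm_of_nonneg (by positivity)]
    nlinarith
  have k1 := PropA.tube isOpen_ball (isCompact_closedBall (0 : ℂ) 4)
    (w := e x₀) (v := ((ε / 4 : ℝ) : ℂ) • u) fun τ hτ =>
      sc τ ▸ (hd (sm τ (mem_closedBall_zero_iff.1 hτ))).2
  have k2 := PropA.tube oS ((isCompact_closedBall (0 : ℂ) 4).of_isClosed_subset
    (t := ann (1 / 4) 4) ((isClosed_le continuous_const continuous_norm).inter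
      (isClosed_le continuous_norm continuous_const)) fun τ hτ => mem_closedBall_zero_iff.2 hτ.2)
    (w := e x₀) (v := ((ε / 4 : ℝ) : ℂ) • u) fun τ hτ =>
      sc τ ▸ ⟨(hd (sm τ hτ.2)).2, (hd (sm τ hτ.2)).1 (mul_ne_zero
        (norm_pos_iff.1 (by linarith [hτ.1])) (Complex.ofReal_ne_zero.2 (by positivity)))⟩
  obtain ⟨δ, hδ, k⟩ := nhds_basis_closedBall.mem_iff.1 (k1.and k2)
  exact h2 x₀ e _ δ ⟨he, hx, hδ, fun w hw τ hτ => (hb ((k hw).1 τ hτ)).1⟩
    fun w hw τ hτ => sub (mem_image_of_mem _ ((k hw).2 τ hτ))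

end Vale.Agent.P253W.D
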