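import Vale.Agent.P253W.D.Spec

/-!
# P253W, block D: approximate relations and the propagation of bounds
-/

open scoped Manifold ContDiff Bundle Topology
open Bundle IsManifold MeasureTheory Set Metric Filter Vale.Agent.P253.Mfd Vale.Agent.P253Z
open Vale.Agent.P272.K (Cm Chart)

noncomputable section

namespace Vale.Agent.P253W.D

namespace Rl

theorem uf_le : uf ≤ atTop := Nat.hyperfilter_le_atTop

/-- from neighbourhoods to compact sets -/
theorem cpt {X ι : Type*} [TopologicalSpace X] [Nonempty ι] {l : Filter ℕ}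
    {P : ι → ℕ → X → Prop} (hP : ∀ i j, ∃ m, ∀ k x, P i k x ∨ P j k x → P m k x) {K : Set X}
    (hK : IsCompact K) (h : ∀ x ∈ K, ∃ V ∈ 𝓝 x, ∃ i, ∀ᶠ k in l, ∀ y ∈ V, P i k y) :
    ∃ i, ∀ᶠ k in l, ∀ y ∈ K, P i k y := by
  refine hK.induction_on (p := fun K => ∃ i, ∀ᶠ k in l, ∀ y ∈ K, P i k y)
    ⟨Classical.arbitrary ι, by simp⟩ (fun _ _ hs ⟨i, hi⟩ => ⟨i, hi.mono fun k a y b => a y (hs b)⟩)
    (fun _ _ ⟨i, hi⟩ ⟨j, hj⟩ => ?_) fun x hx => ?_
  · obtain ⟨m, hm⟩ := hP i j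
    exact ⟨m, (hi.and hj).mono fun k a y b => hm k y (b.imp (a.1 y) (a.2 y))⟩
  · obtain ⟨V, h1, h2⟩ := h x hx
    exact ⟨V, mem_nhdsWithin_of_mem_nhds h1, h2⟩

variable {n : ℕ} {M : Type} [MetricSpace M] [ChartedSpace (Cm n) M]

theorem disc_hol (df : DF n M) {e : Chart n M} {x₀ : M} {v : Cm n} {δ : ℝ} (h : Discs e x₀ v δ)
    {w : Cm n} (hw : w ∈ closedBall (e x₀) δ) :
    H1 n (fun τ => e.symm (w + τ • v)) (closedBall 0 4) :=
  (df.symm e h.1).1.comp (Differentiable.mdifferentiable (by fun_prop)).mdifferentiableOn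
    (h.2.2.2 w hw)

theorem disc_cpt {e : Chart n M} {x₀ : M} {v : Cm n} {δ : ℝ} (h : Discs e x₀ v δ) {S : Set ℂ}
    (hS : IsCompact S) (h4 : S ⊆ closedBall 0 4) :
    IsCompact ((fun q : Cm n × ℂ => e.symm (q.1 + q.2 • v)) '' closedBall (e x₀) δ ×ˢ S) :=
  ((isCompact_closedBall _ _).prod hS).image_of_continuousOn
    (e.continuousOn_symm.comp (by fun_prop) fun q hq => h.2.2.2 _ hq.1 _ (h4 hq.2))

theorem disc_nhds {e : Chart n M} {x₀ : M} {v : Cm n} {δ : ℝ} (h : Discs e x₀ v δ) :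
    e.source ∩ e ⁻¹' ball (e x₀) δ ∈ 𝓝 x₀ :=
  (e.isOpen_inter_preimage isOpen_ball).mem_nhds ⟨h.2.1, mem_ball_self h.2.2.1⟩

theorem sph : sphere (0 : ℂ) 1 ⊆ ann (1 / 4) 4 := fun τ h => by
  have := mem_sphere_zero_iff_norm.1 h
  constructor <;> linarith

variable [RiemannianBundle fun x : M => TangentSpace 𝓘(ℝ, Cm n) x] [MeasurableSpace M]
  {μ : Measure M} {F : Flow n M} {T : F.TA μ}

theorem zv_cont (t : Tools T) : Continuous (zv T.z) :=
  continuous_pi fun i => (t.zc.sec _ (T.z_mem i)).2.continuous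

theorem zv_hol (t : Tools T) {Ψ : Cm n → M} {U : Set (Cm n)} (h : Hn Ψ U) :
    DifferentiableOn ℂ (fun y => zv T.z (Ψ y)) U :=
  differentiableOn_pi.2 fun i => t.map.holn _ _ _ (t.zc.sec _ (T.z_mem i)).1 h

/-- the coordinates in the charts -/
theorem zv_bnd (t : Tools T) (X : Ex T) : ∃ C : ℝ, 0 ≤ C ∧ ∀ᶠ k in atTop,
    ∀ y ∈ ball (0 : Cm n) (X.r / 16), ‖zv T.z (X.Ψ k y)‖ ≤ Real.exp (C * Uk F X.p k) := by
  choose C hC using fun i => X.bnd _ (T.z_mem i)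
  refine ⟨‖C‖, norm_nonneg _, (eventually_all.2 hC).mono fun k a y hy =>
    (pi_norm_le_iff_of_nonneg (Real.exp_pos _).le).2 fun i => (a i y hy).trans ?_⟩
  have := ((t.uh X.p).1 k).trans' zero_le_one
  gcongr
  exact (le_abs_self _).trans (norm_le_pi_norm C i)

end Rl

open Rl

variable {n : ℕ} {M : Type} [MetricSpace M] [ChartedSpace (Cm n) M]
  [RiemannianBundle fun x : M => TangentSpace 𝓘(ℝ, Cm n) x] [MeasurableSpace M]
  {μ : Measure M} {F : Flow n M} {T : F.TA μ} [ProperSpace M]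

/-- **REL** -/
theorem rel (t : Tools T) : REL T := by
  rintro X φ ⟨ρ, C, hρ, hφ⟩ R₀
  obtain ⟨C', -, hz⟩ := zv_bnd t X
  obtain ⟨c, hc, hp⟩ := X.pin R₀
  have hr := X.ch.r_pos
  obtain ⟨D, U₀, H⟩ := t.dim (max C C') c (min ρ (X.r / 16)) hc (by positivity)
  have hU := (t.uh X.p).2.1
  have h1 : ∀ᶠ k in uf, ∃ a : Cf n D, ‖a‖ = 1 ∧ ∀ x ∈ ball X.p R₀,
      ‖pl a (zv T.z x) (φ k (X.s k x))‖ ≤ Real.exp (-Uk F X.p k) := by
    filter_upwards [hφ, uf_le hz, uf_le hp, uf_le (hU.eventually_ge_atTop U₀),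
      uf_le (X.sec R₀ 1 one_pos)] with k a1 a2 a3 a4 a5
    have h0 := ((t.uh X.p).1 k).trans' zero_le_one
    obtain ⟨a, b1, b2⟩ := H _ a4 (fun y => zv T.z (X.Ψ k y)) (φ k)
      (zv_hol t ((X.ch.hol k).mono (ball_subset_ball
        ((min_le_right _ _).trans (by linarith [X.ch.r_le])))))
      (a1.1.mono (ball_subset_ball (min_le_left _ _))) fun y hy =>
      ⟨(a2 y (ball_subset_ball (min_le_right _ _) hy)).trans (by gcongr; exact le_max_right _ _),
        (a1.2 y (ball_subset_ball (min_le_left _ _) hy)).trans (by gcongr; exact le_max_left _ _)⟩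
    exact ⟨a, b1, fun x hx => by simpa only [(a5.2.2 x hx).1] using b2 _ (a3 x hx)⟩
  obtain ⟨a, ha⟩ := h1.choice
  obtain ⟨a₀, h2, h3⟩ := (isCompact_sphere (0 : Cf n D) 1).ultrafilter_le_nhds'
    ((hyperfilter ℕ).map a) (ha.mono fun k h => mem_sphere_zero_iff_norm.2 h.1)
  obtain ⟨R, h4, h5⟩ := t.dep.plr D a₀ (ne_zero_of_mem_unit_sphere ⟨a₀, h2⟩)
  obtain ⟨B₀, h6⟩ := (isCompact_closedBall X.p R₀).exists_bound_of_continuousOn
    (zv_cont t).continuousOn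
  refine ⟨R, h4, fun B ε hε => ?_⟩
  obtain ⟨C₁, h7⟩ := t.dep.plb D (max B B₀)
  have h8 : Tendsto (fun k => Real.exp (-Uk F X.p k) + C₁ * ‖a₀ - a k‖) uf (𝓝 (0 + C₁ * ‖a₀ - a₀‖)) :=
    ((Real.tendsto_exp_neg_atTop_nhds_zero.comp hU).mono_left uf_le).add
      ((tendsto_const_nhds.sub h3).norm.const_mul C₁)
  filter_upwards [ha, h8.eventually_le_const (by simpa using hε)] with k b1 b2 x hx hB
  rw [← h5]
  linarith [norm_le_norm_sub_add (pl a₀ (zv T.z x) (φ k (X.s k x)))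
    (pl (a k) (zv T.z x) (φ k (X.s k x))), b1.2 x hx, h7 a₀ (a k) _ _
    ((h6 x (ball_subset_closedBall hx)).trans (le_max_right _ _)) (hB.trans (le_max_left _ _))]

/-- **DBL** -/
theorem dbl (t : Tools T) : DBL T := by
  rintro X hR φ hφ O B hO ⟨o, ho⟩ hB R
  have hR := hR φ hφ
  obtain ⟨ρ, C, hρ, hφ⟩ := hφ
  have hh : ∀ R, ∀ᶠ k in uf, MDifferentiableOn 𝓘(ℂ, Cm n) 𝓘(ℂ, ℂ) (fun x => φ k (X.s k x))
      (ball X.p R) := fun R => by
    filter_upwards [hφ, uf_le (X.sec R _ (half_pos hρ))] with k a b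
    exact (mdifferentiableOn_iff_differentiableOn.2 a.1).comp b.2.1 fun x hx =>
      mem_ball_zero_iff.2 ((b.2.2 x hx).2.trans_lt (half_lt_self hρ))
  set G := {x | ∃ V ∈ 𝓝 x, ∃ B : ℝ, ∀ᶠ k in uf, ∀ y ∈ V, ‖φ k (X.s k y)‖ ≤ B} with hG
  have hK : ∀ K, IsCompact K → K ⊆ G → ∃ B : ℝ, ∀ᶠ k in uf, ∀ y ∈ K, ‖φ k (X.s k y)‖ ≤ B :=
    fun K h1 h2 => cpt (fun i j => ⟨max i j, fun _ _ => le_max_iff.2⟩) h1 h2
  have hGo : IsOpen G := isOpen_iff_mem_nhds.2 fun x ⟨V, h1, h2⟩ =>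
    (eventually_mem_nhds_iff.2 h1).mono fun y hy => ⟨V, hy, h2⟩
  have hu : G = univ := by
    refine t.prop G hGo ⟨o, O, hO.mem_nhds ho, B, hB⟩ (fun x₀ => ?_) fun x₀ e v δ hd h => ?_
    · obtain ⟨P, p1, p2⟩ := hR (dist x₀ X.p + 1)
      have p3 := t.zc.sec _ (t.zc.mem P.leadingCoeff)
      refine ⟨_, p3.1, Function.ne_iff.2 (t.zc.ind _ (Polynomial.leadingCoeff_ne_zero.2 p1)), _,
        isOpen_ball.mem_nhds (mem_ball.2 (lt_add_one (dist x₀ X.p))), fun x hx h0 hc => ?_⟩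
      have := ChartedSpace.locallyConnectedSpace (Cm n) M
      obtain ⟨K, k1, k2, k3⟩ := local_compact_nhds (inter_mem (isOpen_ball.mem_nhds hx)
        (p3.2.continuous.continuousAt.eventually_ne h0))
      obtain ⟨N, ⟨n1, n2⟩, n3⟩ := (LocallyConnectedSpace.open_connected_basis x).mem_iff.1 k1
      obtain ⟨x₁, h1, V, h2, B₁, h3⟩ := mem_closure_iff.1 hc N n1 n2.1
      obtain ⟨B₂, c, hc, h4⟩ := t.dep.far P _ (k3.image (zv_cont t))
        (forall_mem_image.2 fun y hy => (k2 hy).2)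
      refine ⟨N, n1.mem_nhds n2.1, max B₁ B₂, ?_⟩
      filter_upwards [h3, p2 (max B₁ B₂ + 1) _ (half_pos hc), hh (dist x₀ X.p + 1)]
        with k a1 a2 a3 y hy
      have h5 : ∀ y ∈ N, ‖φ k (X.s k y)‖ ≤ max B₁ B₂ + 1 → ‖φ k (X.s k y)‖ ≤ max B₁ B₂ :=
        fun y hy a => le_max_of_le_right (le_of_not_ge fun b => by
          linarith [h4 _ (mem_image_of_mem _ (n3 hy)) _ b, a2 y (k2 (n3 hy)).1 a])
      refine h5 y hy (le_of_not_ge fun b => ?_)
      obtain ⟨w, hw, e⟩ := n2.2.isPreconnected.intermediate_value h1 hy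
        (a3.continuousOn.mono fun _ h => (k2 (n3 h)).1).norm
        ⟨(a1 x₁ (mem_of_mem_nhds h2)).trans ((le_max_left _ _).trans (le_add_of_nonneg_right
          zero_le_one)), b⟩
      linarith [h5 w hw e.le, show ‖φ k (X.s k w)‖ = _ from e]
    · obtain ⟨B, h1⟩ := hK _ (disc_cpt hd (isCompact_sphere 0 1) (sphere_subset_closedBall.trans
        (closedBall_subset_closedBall (by norm_num))))
        (forall_mem_image.2 fun q hq => h _ hq.1 _ (sph hq.2))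
      obtain ⟨R, h2⟩ := (disc_cpt hd (isCompact_closedBall 0 4) subset_rfl).isBounded.subset_ball X.p
      refine ⟨_, disc_nhds hd, B, ?_⟩
      filter_upwards [h1, hh R] with k a1 a2 y hy
      have hw := ball_subset_closedBall hy.2
      have h3 := mdifferentiableOn_iff_differentiableOn.1 (a2.comp (disc_hol t.df hd hw)
        fun τ hτ => h2 ⟨(e y, τ), ⟨hw, hτ⟩, rfl⟩)
      simpa [e.left_inv hy.1] using Complex.norm_le_of_forall_mem_frontier_norm_le isBounded_ball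
        (h3.mono (closure_ball_subset_closedBall.trans
          (closedBall_subset_closedBall (by norm_num)))).diffContOnCl
        (fun τ hτ => a1 _ ⟨(e y, τ), ⟨hw, frontier_ball_subset_sphere hτ⟩, rfl⟩)
        (subset_closure (mem_ball_self one_pos))
  exact (hK _ (isCompact_closedBall X.p R) (hu ▸ subset_univ _)).imp fun B h =>
    h.mono fun k a x hx => a x (ball_subset_closedBall hx)

end Vale.Agent.P253W.D
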