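import Vale.Agent.P253W.D.Spec
import Vale.Agent.P253W.D.Mono

/-!
# P253W, block D: the sections of the charts
-/

open scoped Manifold ContDiff Bundle Topology
open Bundle IsManifold MeasureTheory Set Metric Filter Vale.Agent.P253.Mfd Vale.Agent.P253Z
open Vale.Agent.P272.K (Cm Chart)

noncomputable section

namespace Vale.Agent.P253W.D

variable {n : ℕ} {M : Type} [MetricSpace M] [ChartedSpace (Cm n) M]
  [RiemannianBundle fun x : M => TangentSpace 𝓘(ℝ, Cm n) x] [MeasurableSpace M] {μ : Measure M}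
  {F : Flow n M} {T : F.TA μ}

theorem Sc.tk_top : Tendsto tk atTop atTop :=
  tendsto_atTop_add_const_right _ _ tendsto_natCast_atTop_atTop

theorem Sc.tk_nn (k : ℕ) : 0 ≤ tk k := by unfold tk; positivity

theorem Sc.det (t : Tools T) {p : M} {Ψ : ℕ → Cm n → M} {l L r : ℝ} (h : Ch F μ p Ψ l L r) (k : ℕ)
    {y : Cm n} (hy : y ∈ ball (0 : Cm n) 1) : (jm (Ψ k) y).det ≠ 0 :=
  t.mt.et _ l _ _ h.l_pos fun v => (h.met k y hy v).1

/-- local sections -/
theorem Sc.loc (t : Tools T) {p : M} {Ψ : ℕ → Cm n → M} {l L r : ℝ} (h : Ch F μ p Ψ l L r) (x : M) :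
    ∃ V ∈ 𝓝 x, Mono.Loc atTop Ψ V := by
  set e := pc n x
  have he : Hc e := t.all.a.chart x
  obtain ⟨δ, hδ, hs⟩ := nhds_basis_closedBall.mem_iff.1
    (e.open_target.mem_nhds (mem_chart_target (Cm n) x))
  obtain ⟨c, hc, hK⟩ := t.mt.cmp 0 le_rfl e he _ (isCompact_closedBall _ _) hs
  have hl := Real.sqrt_pos.2 h.l_pos
  refine ⟨e.source ∩ e ⁻¹' ball (e x) (δ / 3), (e.isOpen_inter_preimage isOpen_ball).mem_nhds
    ⟨mem_chart_source _ x, mem_ball_self (by linarith)⟩, fun ε hε => ?_⟩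
  set a := min ε (1 / 2) * √l / (2 * δ) with ha
  have ha0 : 0 < a := by positivity
  have h1 : a * (2 * δ / 3) / √l < min ε (1 / 2) := by
    have : a * (2 * δ / 3) / √l = min ε (1 / 2) / 3 := by rw [ha]; field_simp
    have : 0 < min ε (1 / 2) := by positivity
    linarith
  filter_upwards [tk_top.eventually (t.mt.decay _ ((isCompact_closedBall (e x) δ).image_of_continuousOn
    (e.continuousOn_symm.mono hs)) (a ^ 2 * c) (by positivity))] with k hk x₁ hx₁ y hy hy'
  have h2 : ball (e x₁) (2 * δ / 3) ⊆ closedBall (e x) δ := fun w hw => by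
    have := dist_triangle w (e x₁) (e x)
    rw [mem_closedBall]
    linarith [mem_ball.1 hw, mem_ball.1 hx₁.2]
  have h3 : MapsTo e (e.source ∩ e ⁻¹' ball (e x) (δ / 3)) (ball (e x₁) (2 * δ / 3)) :=
    fun w hw => by
      have := dist_triangle_right (e w) (e x₁) (e x)
      rw [mem_ball]
      linarith [mem_ball.1 hw.2, mem_ball.1 hx₁.2]
  obtain ⟨s, s1, s2, s3⟩ := t.lift (tk k) √l a (2 * δ / 3) (Ψ k) e.symm (e x₁) y (tk_nn k) hl ha0.le
    (by linarith) (h.hol k) (fun y hy v => by rw [Real.sq_sqrt h.l_pos.le]; exact (h.met k y hy v).1)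
    ((t.df.symm e he).1.mono (h2.trans hs)) (fun w hw v => by
      refine (hk _ (mem_image_of_mem _ (h2 hw)) _).trans ?_
      rw [t.mt.symm 0 le_rfl e he w (hs (h2 hw)), mul_assoc]
      exact mul_le_mul_of_nonneg_left (hK w (h2 hw) v).2 (sq_nonneg a))
    (by rw [hy', e.left_inv hx₁.1]) (by linarith [min_le_right ε (1 / 2)])
  exact ⟨fun w => s (e w), s1.continuousOn.comp (e.continuousOn.mono inter_subset_left) h3, s2,
    fun w hw => ⟨(s3 _ (h3 hw)).1.trans (e.left_inv hw.1),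
      (s3 _ (h3 hw)).2.trans_lt (h1.trans_le (min_le_left _ _))⟩⟩

/-- continuous sections of etale maps are holomorphic -/
theorem Sc.hol (t : Tools T) {Ψ : Cm n → M} {U : Set (Cm n)} (hU : IsOpen U) (h : Hn Ψ U)
    (hd : ∀ y ∈ U, (jm Ψ y).det ≠ 0) {O : Set M} (hO : IsOpen O) {s : M → Cm n}
    (hs : ContinuousOn s O) (h1 : ∀ x ∈ O, s x ∈ U ∧ Ψ (s x) = x) :
    MDifferentiableOn 𝓘(ℂ, Cm n) 𝓘(ℂ, Cm n) s O := by
  intro x hx
  set e := pc n x
  have he : Hc e := t.all.a.chart x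
  have hS := e.symm.isOpen_inter_preimage hO
  have h2 := t.inv (Cm n) (fun _ => Ψ) (univ ×ˢ U) e.symm _ (fun w => s (e.symm w))
    (isOpen_univ.prod hU) (h.comp (differentiable_snd (𝕜 := ℂ)).mdifferentiable.mdifferentiableOn
      fun q hq => hq.2) (fun q hq => hd _ hq.2) hS ((t.df.symm e he).1.mono inter_subset_left)
    (fun w hw => ⟨⟨trivial, (h1 _ hw.2).1⟩, (h1 _ hw.2).2⟩)
    (.inl (hs.comp (e.symm.continuousOn.mono inter_subset_left) fun _ hw => hw.2))
  have h3 := mem_chart_source (Cm n) x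
  have h4 := ((h2.differentiableAt (hS.mem_nhds ⟨e.map_source h3, by
    rwa [mem_preimage, e.left_inv h3]⟩)).mdifferentiableAt.comp x
    ((t.df.symm e he).2.1.mdifferentiableAt (e.open_source.mem_nhds h3)))
  refine (h4.congr_of_eventuallyEq ?_).mdifferentiableWithinAt
  filter_upwards [e.open_source.mem_nhds h3] with w hw
  simp [e.left_inv hw]

/-- **SEC** -/
theorem sec [ProperSpace M] [SimplyConnectedSpace M] (t : Tools T) : SEC F μ := by
  intro p Ψ l L r h
  have := ChartedSpace.locallyPathConnectedSpace (Cm n) M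
  obtain ⟨s, hs⟩ := Mono.sec le_rfl (Eventually.of_forall fun k y hy =>
    (t.df.loc _ _ isOpen_ball (h.hol k) y hy (Sc.det t h k hy)).1) (Eventually.of_forall h.zero)
    (Sc.loc t h)
  refine ⟨s, fun R δ hδ => ?_⟩
  filter_upwards [hs R _ (lt_min hδ one_pos)] with k ⟨a, b, c⟩
  exact ⟨b, Sc.hol t isOpen_ball (h.hol k) (fun _ => Sc.det t h k) isOpen_ball a fun x hx =>
    ⟨mem_ball_zero_iff.2 ((c x hx).2.trans_le (min_le_right _ _)), (c x hx).1⟩,
    fun x hx => ⟨(c x hx).1, (c x hx).2.le.trans (min_le_left _ _)⟩⟩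

end Vale.Agent.P253W.D
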