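import Vale.Agent.P253W.D.Spec
import Vale.Agent.P253W.V.G0
import Vale.Agent.P253W.V.Hq

/-!
# P253W, block D, row SUB: the norm of a covector along a holomorphic family
-/

open scoped Manifold ContDiff Bundle Topology Matrix ComplexOrder ComplexConjugate
open Bundle IsManifold MeasureTheory Set Metric Filter Vale.Agent.P253.Mfd Vale.Agent.P253Z
open Vale.Agent.P272.K (Cm Chart)
open Vale.Agent.P272.K.C2 (RM MC)
open Vale.Agent.P272.GJ (ddb)
open Vale.Agent.P253.R2.H451 (levi2)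
open Complex (I)

noncomputable section

namespace Vale.Agent.P253W.D

namespace Sb

open V V.G0a

variable {n : ℕ}

theorem ddb_eq {u : ℂ → ℝ} {σ : ℂ} (h : ContDiffAt ℝ 2 u σ) : ddb u σ = levi2 u σ 1 / 4 := by
  have d := (h.fderiv_right (m := 1) le_rfl).differentiableAt one_ne_zero
  have e (v : ℂ) : fderiv ℝ (fun w => fderiv ℝ u w v) σ v = fderiv ℝ (fderiv ℝ u) σ v v := by
    rw [fderiv_clm_apply d (differentiableAt_const v)]; simp
  rw [ddb, levi2, e, e, smul_eq_mul, mul_one]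

/-- the Levi form of `log |ξ|²_W` dominates the curvature -/
theorem core {W : Cm n → Mx n} {z : Cm n} (hW : MC 2 W z) (hp : ∀ᶠ y in 𝓝 z, (W y).PosDef)
    {ξ : Cm n} (hξ : ξ ≠ 0) (V : Cm n × Cm n) :
    ContDiffAt ℝ 2 (fun q : Cm n × Cm n => Real.log (hq (W q.1) q.2)) (z, ξ) ∧
      4 * (bk W z V.1 (star ((W z)⁻¹ *ᵥ ξ)) / hq (W z) ξ) ≤
        levi2 (fun q : Cm n × Cm n => Real.log (hq (W q.1) q.2)) (z, ξ) V := by
  obtain ⟨X, β⟩ := V
  obtain ⟨h1, h2, h3⟩ := hq_row n n W z X ξ β hW hp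
  have h4 := (hq_row n n W z (I • X) ξ (I • β) hW hp).2.1
  have hs : 0 < hq (W z) ξ := Alg.hq_pos hp.self_of_nhds hξ
  refine ⟨h1.log hs.ne', ?_⟩
  set β' := β - (∑ k, X k • P272.K.C2.DM k W z) *ᵥ ((W z)⁻¹ *ᵥ ξ) with hβ'
  have e3 : I • β - (∑ k, (I • X) k • P272.K.C2.DM k W z) *ᵥ ((W z)⁻¹ *ᵥ ξ) = I • β' := by
    rw [hβ', smul_sub, ← Matrix.smul_mulVec, Finset.smul_sum]
    simp only [Pi.smul_apply, smul_eq_mul, smul_smul]
  rw [e3, Matrix.mulVec_smul, dotProduct_smul, smul_eq_mul, Complex.mul_re, Complex.I_re,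
    Complex.I_im] at h4
  have h7 := cs hp.self_of_nhds.inv.posSemidef ξ β' hs le_rfl
  rw [levi_log h1 hs, h3, h2, Prod.smul_mk, h4, bk, qf, star_star, Kxx, mul_add, add_div,
    mul_div_assoc, add_sub_assoc, le_add_iff_nonneg_right, sub_nonneg,
    div_le_div_iff₀ (by positivity) hs]
  change _ * hq (W z) ξ ≤ 4 * (star β' ⬝ᵥ ((W z)⁻¹ *ᵥ β')).re * hq (W z) ξ ^ 2
  have h9 := mul_le_mul_of_nonneg_right h7 hs.le
  nlinarith

theorem qf_inv {A : Mx n} (h : A.PosDef) (ξ : Cm n) : qf A (star (A⁻¹ *ᵥ ξ)) = hq A ξ := by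
  rw [qf, hq, star_star, Matrix.mulVec_mulVec,
    Matrix.mul_nonsing_inv _ ((Matrix.isUnit_iff_isUnit_det _).1 h.isUnit), Matrix.one_mulVec,
    Matrix.star_dotProduct, Complex.star_def, Complex.conj_re]

theorem qf_smul (A : Mx n) (c : ℝ) (a : Cm n) : qf A (c • a) = c ^ 2 * qf A a := by
  simp only [qf, star_smul, star_trivial, Matrix.mulVec_smul, smul_dotProduct, dotProduct_smul,
    Complex.smul_re, smul_eq_mul]
  ring

theorem bk_smul (W : Cm n → Mx n) (z X a : Cm n) (c : ℝ) :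
    bk W z (c • X) a = c ^ 2 * bk W z X a := by
  have : Kxx W z (c • X) = (c ^ 2 : ℝ) • Kxx W z X := by
    simp only [Kxx, Finset.smul_sum, Pi.smul_apply, ← smul_assoc, Complex.real_smul, map_mul,
      Complex.conj_ofReal]
    refine Finset.sum_congr rfl fun l _ => Finset.sum_congr rfl fun k _ => ?_
    congr 1
    push_cast
    ring
  simp only [bk, qf, this, Matrix.smul_mulVec, dotProduct_smul, Complex.smul_re, smul_eq_mul]

/-- a uniform lower bound for a positive curvature -/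
theorem low {W : Cm n → Mx n} {K : Set (Cm n)} (hK : IsCompact K) (hW : ∀ z ∈ K, MC ∞ W z)
    (hp : ∀ z ∈ K, (W z).PosDef) (hb : ∀ z ∈ K, ∀ X a, X ≠ 0 → a ≠ 0 → 0 < bk W z X a) :
    ∃ κ : ℝ, 0 < κ ∧ ∀ z ∈ K, ∀ X a, κ * ‖X‖ ^ 2 * qf (W z) a ≤ bk W z X a := by
  have c1 (j k) : ContinuousOn (fun z => W z j k) K := fun z hz =>
    (hW z hz j k).continuousAt.continuousWithinAt
  have c2 (k l i j) : ContinuousOn (fun z => RM k l W z i j) K := fun z hz => by
    have h2 : MC 2 W z := (hW z hz).mono (by norm_cast)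
    have h1 : MC 1 W z := h2.mono (by norm_cast)
    exact ((((h2.DMb (k := l) (m' := 1) le_rfl).DM (k := k) (m' := 0) le_rfl).neg.add
      (((h1.DM (k := k) (m' := 0) le_rfl).mul ((h1.mono zero_le_one).inv (hp z hz).det_pos.ne')).mul
        (h1.DMb (k := l) (m' := 0) le_rfl))) i j).continuousAt.continuousWithinAt
  set S := K ×ˢ sphere (0 : Cm n) 1 ×ˢ sphere (0 : Cm n) 1
  have hS : IsCompact S := hK.prod ((isCompact_sphere _ _).prod (isCompact_sphere _ _))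
  have ne {a : Cm n} (h : a ∈ sphere (0 : Cm n) 1) : a ≠ 0 := ne_zero_of_mem_unit_sphere ⟨a, h⟩
  have q0 (z) (hz : z ∈ K) (a : Cm n) (ha : a ≠ 0) : 0 < qf (W z) a := by
    simpa [qf] using (hp z hz).re_dotProduct_pos (x := star a) (by simpa using ha)
  have c0 {A : Cm n × Cm n × Cm n → Mx n} (h : ∀ j k, ContinuousOn (fun q => A q j k) S) :
      ContinuousOn (fun q => qf (A q) q.2.2) S := by
    simp only [qf, dotProduct, Matrix.mulVec]
    exact Complex.continuous_re.comp_continuousOn (continuousOn_finsetSum _ fun j _ =>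
      ContinuousOn.mul (by fun_prop) (continuousOn_finsetSum _ fun k _ =>
        (h j k).mul (by fun_prop)))
  have c3 := c0 (A := fun q => W q.1) fun j k => (c1 j k).comp continuousOn_fst fun q hq => hq.1
  have c4 : ContinuousOn (fun q : Cm n × Cm n × Cm n => bk W q.1 q.2.1 q.2.2) S := c0 fun i j => by
    simp only [Kxx, Matrix.sum_apply, Matrix.smul_apply, smul_eq_mul]
    exact continuousOn_finsetSum _ fun l _ => continuousOn_finsetSum _ fun k _ =>
      ContinuousOn.mul (by fun_prop) ((c2 k l i j).comp continuousOn_fst fun q hq => hq.1)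
  obtain ⟨κ, κ0, hκ⟩ := hS.exists_forall_le' (c4.div c3 fun q hq => (q0 _ hq.1 _ (ne hq.2.2)).ne')
    (a := 0) fun q hq => div_pos (hb _ hq.1 _ _ (ne hq.2.1) (ne hq.2.2)) (q0 _ hq.1 _ (ne hq.2.2))
  refine ⟨κ, κ0, fun z hz X a => ?_⟩
  by_cases hX : X = 0
  · simp [bk, qf, Kxx, hX]
  by_cases ha : a = 0
  · simp [bk, qf, ha]
  have u {a : Cm n} (h : a ≠ 0) : ‖a‖⁻¹ • a ∈ sphere (0 : Cm n) 1 := by
    simp [norm_smul, h]
  have h1 := hκ (z, ‖X‖⁻¹ • X, ‖a‖⁻¹ • a) ⟨hz, u hX, u ha⟩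
  have x0 := norm_pos_iff.2 hX
  have a0 := norm_pos_iff.2 ha
  have h2 := q0 z hz a ha
  simp only [Pi.div_apply] at h1
  rw [bk_smul, bk, qf_smul, qf_smul, ← bk] at h1
  refine (mul_le_mul_of_nonneg_right (mul_le_mul_of_nonneg_right h1 (sq_nonneg _)) h2.le).trans_eq ?_
  field_simp

theorem c_det {A : ℂ → Mx n} {s : Set ℂ} (h : ∀ i j, ContDiffOn ℂ ∞ (fun q => A q i j) s) :
    ContDiffOn ℂ ∞ (fun q => (A q).det) s := by
  simp only [Matrix.det_apply']
  exact ContDiffOn.sum fun σ _ => contDiffOn_const.mul (contDiffOn_prod fun i _ => h _ _)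

theorem c_inv {A : ℂ → Mx n} {s : Set ℂ} (h : ∀ i j, ContDiffOn ℂ ∞ (fun q => A q i j) s)
    (h0 : ∀ q ∈ s, (A q).det ≠ 0) (i j : Fin n) : ContDiffOn ℂ ∞ (fun q => (A q)⁻¹ i j) s := by
  simp only [Matrix.inv_def, Ring.inverse_eq_inv', Matrix.smul_apply, smul_eq_mul,
    Matrix.adjugate_apply]
  refine ((c_det h).inv h0).mul (c_det fun k l => ?_)
  simp only [Matrix.updateRow_apply]
  split_ifs
  · exact contDiffOn_const
  · exact h k l

variable {M : Type} [MetricSpace M] [ChartedSpace (Cm n) M]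
  [RiemannianBundle fun x : M => TangentSpace 𝓘(ℝ, Cm n) x] {F : Flow n M}

theorem curve (hI : F.Is) (b : F.Bas1) (df : DF n M) (mt : MT F) {t : ℝ} (ht : 0 ≤ t)
    {E : ℂ → Cm n → M} {D : Set (ℂ × Cm n)} {σ : ℂ} {y α : Cm n} (hD : IsOpen D) (hE : HP E D)
    (hσ : (σ, y) ∈ D) (hJ : (jm (E σ) y).det ≠ 0) (hα : α ≠ 0) {e : Chart n M} (he : Hc e)
    (hs : E σ y ∈ e.source) : ContDiffAt ℝ 2 (lw F E t y α) σ ∧ ∃ a, a ≠ 0 ∧
      bk (F.g t e) (e (E σ y)) (deriv (fun s => e (E s y)) σ) a / qf (F.g t e (e (E σ y))) a ≤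
        ddb (lw F E t y α) σ := by
  have hU : IsOpen (D ∩ (fun q : ℂ × Cm n => E q.1 q.2) ⁻¹' e.source) :=
    hE.continuousOn.isOpen_inter_preimage hD e.open_source
  set U := D ∩ (fun q : ℂ × Cm n => E q.1 q.2) ⁻¹' e.source
  have hG : ContDiffOn ℂ ∞ (fun q : ℂ × Cm n => e (E q.1 q.2)) U :=
    contDiffOn_of_differentiableOn_complex hU (((df.symm e he).2.1.comp (hE.mono inter_subset_left)
      fun q hq => hq.2).differentiableOn)
  have l (s : ℂ) : HasFDerivAt (fun w : Cm n => (s, w)) (ContinuousLinearMap.inr ℂ ℂ (Cm n)) y :=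
    hasFDerivAt_prodMk_right s y
  have c0 : ContDiff ℂ ∞ fun s : ℂ => (s, y) := by fun_prop
  have md (s : ℂ) (h : (s, y) ∈ U) : MDifferentiableAt 𝓘(ℂ, Cm n) 𝓘(ℂ, Cm n) (E s) y :=
    (hE.mdifferentiableAt (hD.mem_nhds h.1)).comp y (l s).differentiableAt.mdifferentiableAt
  set J : ℂ → Mx n := fun s => mx (fderiv ℂ (fun w => e (E s w)) y) with hJ'
  have hV := hU.preimage c0.continuous
  have dJ (i j) : ContDiffOn ℂ ∞ (fun s => J s i j) ((fun s => (s, y)) ⁻¹' U) := by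
    have h1 := (hG.fderiv_of_isOpen (m := ∞) hU (by norm_cast)).comp c0.contDiffOn
      (mapsTo_preimage _ U)
    refine (contDiffOn_pi.1 (h1.clm_apply
      (contDiffOn_const (c := ((0 : ℂ), (Pi.single j 1 : Cm n))))) i).congr fun s hs => ?_
    have h2 := ((hG.contDiffAt (hU.mem_nhds hs)).differentiableAt (by simp)).hasFDerivAt.comp y (l s)
    rw [hJ']
    simp only [mx, LinearMap.toMatrix'_apply]
    rw [show fderiv ℂ (fun w => e (E s w)) y = _ from h2.fderiv]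
    simp
  have hV' := (c_det dJ).continuousOn.isOpen_inter_preimage hV (isOpen_compl_singleton (x := 0))
  set V := (fun s => (s, y)) ⁻¹' U ∩ (fun s => (J s).det) ⁻¹' {0}ᶜ
  have σU : (σ, y) ∈ U := ⟨hσ, hs⟩
  have σV : σ ∈ V := ⟨σU, fun h => hJ (by
    rw [(df.ch _ _ e (md σ σU) he hs).2.1, Matrix.det_mul]
    exact mul_eq_zero_of_right _ h)⟩
  have c1 : ContDiffOn ℂ ∞ (fun s => e (E s y)) V := hG.comp c0.contDiffOn fun s hs => hs.1
  have hT : ContDiffOn ℂ ∞ (fun s => (e (E s y), α ᵥ* (J s)⁻¹)) V :=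
    c1.prodMk (contDiffOn_pi.2 fun i => by
      simp only [Matrix.vecMul, dotProduct]
      exact ContDiffOn.sum fun k _ => contDiffOn_const.mul
        (c_inv (fun i j => (dJ i j).mono inter_subset_left) (fun s hs => hs.2) k i))
  have inv (s : ℂ) (h : s ∈ V) : (α ᵥ* (J s)⁻¹) ᵥ* J s = α := by
    rw [Matrix.vecMul_vecMul, Matrix.nonsing_inv_mul _ (Ne.isUnit h.2), Matrix.vecMul_one]
  have hξ : α ᵥ* (J σ)⁻¹ ≠ 0 := fun h => hα (by rw [← inv σ σV, h, Matrix.zero_vecMul])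
  have hz := e.map_source hs
  have hp := hI.pos t ht e he _ hz
  have hN := core (W := F.g t e) (fun j k => (b.g_at t ht e he _ hz j k).of_le B2A.two_le)
    (mem_of_superset (e.open_target.mem_nhds hz) fun y hy => hI.pos t ht e he y hy) hξ
  have hq' : lw F E t y α =ᶠ[𝓝 σ] (fun q : Cm n × Cm n => Real.log (hq (F.g t e q.1) q.2)) ∘
      fun s => (e (E s y), α ᵥ* (J s)⁻¹) := by
    filter_upwards [hV'.mem_nhds σV] with s h
    have := Alg.hq_pb h.2 (F.g t e (e (E s y))) (α ᵥ* (J s)⁻¹)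
    rw [inv s h] at this
    rw [lw, (mt.ch t ht _ _ e (md s h.1) he h.1.2).1]
    exact congrArg Real.log this
  have hT' := (hT.restrict_scalars ℝ).contDiffAt (hV'.mem_nhds σV)
  have sm := ContDiffAt.congr_of_eventuallyEq (ContDiffAt.comp σ (hN 0).1
    (hT'.of_le B2A.two_le)) hq'
  refine ⟨sm, star ((F.g t e (e (E σ y)))⁻¹ *ᵥ (α ᵥ* (J σ)⁻¹)), fun h => ?_, ?_⟩
  · have := Alg.hq_pos hp hξ
    rw [← qf_inv hp, h] at this
    simp [qf] at this
  have h2 := Bu.levi2_comp hV' hT σV (hN 0).1 1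
  have h3 := (hq'.fderiv (𝕜 := ℝ)).fderiv_eq (𝕜 := ℝ)
  have h4 := ((c1.contDiffAt (hV'.mem_nhds σV)).differentiableAt
    (by simp)).hasDerivAt.hasFDerivAt.restrictScalars ℝ |>.unique
      (hT'.differentiableAt (by simp)).hasFDerivAt.fst
  have h5 : deriv (fun s => e (E s y)) σ =
      (fderiv ℝ (fun s => (e (E s y), α ᵥ* (J s)⁻¹)) σ 1).1 := by
    simpa using congrArg (· 1) h4
  rw [ddb_eq sm, levi2, h3, le_div_iff₀' four_pos, qf_inv hp, h5]
  exact (hN _).2.trans_eq h2.symm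

end Sb

variable {n : ℕ} {M : Type} [MetricSpace M] [ChartedSpace (Cm n) M] [IsManifold 𝓘(ℂ, Cm n) 1 M]
  [IsManifold 𝓘(ℝ, Cm n) ∞ M] [RiemannianBundle fun x : M => TangentSpace 𝓘(ℝ, Cm n) x]
  [IsContMDiffRiemannianBundle 𝓘(ℝ, Cm n) ∞ (Cm n) fun x : M => TangentSpace 𝓘(ℝ, Cm n) x]
  [IsRiemannianManifold 𝓘(ℝ, Cm n) M] [CompleteSpace M] [ConnectedSpace M] [NoncompactSpace M]
  [MeasurableSpace M] [BorelSpace M]
  {μ : Measure M} {F : Flow n M} {A : Fam F} {T : F.TA μ}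

open Sb in
theorem sub (p : P3 A T) (df : DF n M) (mt : MT F) : SUB F where
  sub t ht E D σ y α hD hE hσ hJ hα := by
    have he : Hc (pc n (E σ y)) := chart_mem_maximalAtlas _
    have hs : E σ y ∈ (pc n (E σ y)).source := mem_chart_source _ _
    obtain ⟨h1, a, -, h2⟩ := curve p.is p.b1 df mt ht hD hE hσ hJ hα he hs
    have hz := (pc n (E σ y)).map_source hs
    refine ⟨h1, (div_nonneg (p.s3a.bk t ht _ he _ hz _ _).1 ?_).trans h2⟩
    simpa [qf] using (p.is.pos t ht _ he _ hz).posSemidef.re_dotProduct_nonneg (star a)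
  str e he K hK hKe := by
    have b : B1b n M := b1b p.c.kahler b1a
    have g0 : F.g 0 e = hm e := funext (p.b1.g_zero e)
    obtain ⟨κ, κ0, hκ⟩ := low (W := hm e) hK (fun z hz => b.wsm e he z (hKe hz))
      (fun z hz => b.wpos e he z (hKe hz)) fun z hz X a hX ha => by
        have hU : ∀ᶠ y in 𝓝 z, y ∈ e.target := e.open_target.mem_nhds (hKe hz)
        exact (Rc_pos_chartG p.c.kahler he (hKe hz) (p.c.pos _) X a hX ha).trans_eq
          (B2A.rm_eq (localKahler_chartG p.c.kahler he) (hKe hz)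
            (fun j k => (b.wsm e he z (hKe hz) j k).of_le B2A.two_le)
            (hU.mono fun y hy => b.wpos e he y hy) (hU.mono fun y hy => b.quad e he y hy)
            b.levi X a).symm
    refine ⟨κ, κ0, fun E D σ y α hD hE hσ hJ hα hs hm => ?_⟩
    obtain ⟨-, a, ha, h2⟩ := curve p.is p.b1 df mt le_rfl hD hE hσ hJ hα he hs
    rw [g0] at h2
    refine le_trans ((le_div_iff₀ ?_).2 (hκ _ hm _ a)) h2
    simpa [qf] using (b.wpos e he _ (hKe hm)).re_dotProduct_pos (x := star a) (by simpa using ha)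

end Vale.Agent.P253W.D
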