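import Vale.Agent.P253W.D.Pure
import Vale.Agent.P253W.C.Sh0

/-!
# P253W, block D: row TH2 (three circles for subharmonic functions, the theorem of Liouville)
-/

open scoped Topology
open Set Metric Filter MeasureTheory
open Vale.Agent.P272.GJ (ddb ddb_eq ddb_norm_sq)
open Vale.Agent.P253W.C

noncomputable section

namespace Vale.Agent.P253W.D

/-- the maximum principle -/
theorem max_pr {u : ℂ → ℝ} {K U : Set ℂ} {M : ℝ} (hK : IsCompact K) (hU : IsOpen U) (hs : U ⊆ K)
    (hc : ContinuousOn u K) (h : ∀ τ ∈ U, ContDiffAt ℝ 2 u τ ∧ 0 ≤ ddb u τ)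
    (hM : ∀ τ ∈ K, τ ∉ U → u τ ≤ M) : ∀ τ ∈ K, u τ ≤ M := by
  intro τ hτ
  obtain ⟨R, hR⟩ := hK.exists_bound_of_continuousOn (f := fun z : ℂ => ‖z‖ ^ 2) (by fun_prop)
  have hR0 : 0 ≤ R := (norm_nonneg _).trans (hR τ hτ)
  refine le_of_forall_pos_le_add fun η hη => ?_
  have hε : 0 < η / (R + 1) := by positivity
  obtain ⟨z, hz, hm⟩ := hK.exists_isMaxOn ⟨τ, hτ⟩ (f := fun z => u z + η / (R + 1) * ‖z‖ ^ 2)
    (hc.add (by fun_prop))
  have hzU : z ∉ U := fun hzU => by
    have c1 : ContDiffAt ℝ 2 (fun w : ℂ => ‖w‖ ^ 2) z := (contDiff_norm_sq ℝ).contDiffAt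
    have c2 := (h z hzU).1.add (contDiffAt_const (c := η / (R + 1)).mul c1)
    have a := ddb_nonneg_of_isLocalMin c2.neg
      (hm.isLocalMax (mem_of_superset (hU.mem_nhds hzU) hs)).neg
    rw [ddb_neg c2, ddb_add (h z hzU).1 (contDiffAt_const.mul c1), ddb_mul _ c1, ddb_norm_sq] at a
    linarith [(h z hzU).2]
  have a1 : u τ + η / (R + 1) * ‖τ‖ ^ 2 ≤ u z + η / (R + 1) * ‖z‖ ^ 2 := hm hτ
  have a2 := hM z hz hzU
  have a3 : η / (R + 1) * ‖z‖ ^ 2 ≤ η := by
    rw [div_mul_eq_mul_div, div_le_iff₀ (by positivity)]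
    have := (le_abs_self _).trans (hR z hz)
    nlinarith
  have a4 : 0 ≤ η / (R + 1) * ‖τ‖ ^ 2 := by positivity
  linarith

theorem ddb_log {τ : ℂ} (h : τ ≠ 0) : ContDiffAt ℝ 2 (fun z : ℂ => Real.log ‖z‖) τ ∧
    ddb (fun z : ℂ => Real.log ‖z‖) τ = 0 := by
  have a : InnerProductSpace.HarmonicAt (fun z : ℂ => Real.log ‖z‖) τ :=
    (analyticAt_id (𝕜 := ℂ) (z := τ)).harmonicAt_log_norm h
  refine ⟨a.1, ?_⟩
  have b := a.2.self_of_nhds
  rw [InnerProductSpace.laplacian_eq_iteratedFDeriv_complexPlane] at b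
  simp only [iteratedFDeriv_two_apply, Matrix.cons_val_zero, Matrix.cons_val_one,
    Pi.zero_apply] at b
  rw [ddb_eq a.1, b, zero_div]

theorem th2 : TH2 where
  three := fun w S A B hS _ hw h1 h2 τ hτ => by
    have hc : ContinuousOn w (closedBall 0 S) := fun z hz =>
      (hw z hz).1.continuousAt.continuousWithinAt
    have hL : 0 < Real.log S := Real.log_pos hS
    rcases le_total ‖τ‖ 1 with h | h
    · have hs : closedBall (0 : ℂ) 1 ⊆ closedBall 0 S := closedBall_subset_closedBall hS.le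
      rw [max_eq_right h, Real.log_one, mul_zero, zero_div, add_zero]
      exact max_pr (isCompact_closedBall 0 1) isOpen_ball ball_subset_closedBall (hc.mono hs)
        (fun z hz => hw z (hs (ball_subset_closedBall hz)))
        (fun z hz hz' => h1 z (by rw [← closedBall_sdiff_ball]; exact ⟨hz, hz'⟩)) τ
        (mem_closedBall_zero_iff.2 h)
    · have hne : ∀ z ∈ closedBall (0 : ℂ) S \ ball 0 1, z ≠ 0 := fun z hz e =>
        hz.2 (e ▸ mem_ball_self one_pos)
      have hsub : ball (0 : ℂ) S \ closedBall 0 1 ⊆ closedBall 0 S \ ball 0 1 :=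
        sdiff_subset_sdiff ball_subset_closedBall ball_subset_closedBall
      have a := max_pr (u := fun z => w z - B / Real.log S * Real.log ‖z‖) (M := A)
        ((isCompact_closedBall 0 S).diff isOpen_ball) (isOpen_ball.sdiff isClosed_closedBall) hsub
        ((hc.mono sdiff_subset).sub (continuousOn_const.mul fun z hz =>
          (ddb_log (hne z hz)).1.continuousAt.continuousWithinAt)) (fun z hz => ?_)
        (fun z hz hz' => ?_) τ ⟨hτ, fun h' => (mem_ball_zero_iff.1 h').not_ge h⟩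
      · rw [max_eq_left h, ← div_mul_eq_mul_div]
        linarith
      · obtain ⟨b1, b2⟩ := ddb_log (hne z (hsub hz))
        obtain ⟨b3, b4⟩ := hw z (hsub hz).1
        refine ⟨b3.sub (contDiffAt_const.mul b1), ?_⟩
        rwa [ddb_sub b3 (contDiffAt_const.mul b1), ddb_mul _ b1, b2, mul_zero, sub_zero]
      · have b1 := mem_closedBall_zero_iff.1 hz.1
        have b2 : 1 ≤ ‖z‖ := not_lt.1 fun h' => hz.2 (mem_ball_zero_iff.2 h')
        rcases b2.eq_or_lt with e | e
        · have := h1 z (mem_sphere_zero_iff_norm.2 e.symm)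
          rw [← e, Real.log_one]
          linarith
        · have e' : ‖z‖ = S := le_antisymm b1 (not_lt.1 fun h' =>
            hz' ⟨mem_ball_zero_iff.2 h', fun h'' => (mem_closedBall_zero_iff.1 h'').not_gt e⟩)
          have := h2 z (mem_sphere_zero_iff_norm.2 e')
          rw [e', div_mul_cancel₀ _ hL.ne']
          linarith
  lio := fun w hw h0 h τ => by
    obtain ⟨hi, -, hl, -⟩ := sh0 w 0 hw h0 h
    have a : slp w ≤ 0 := hl.le_up h (ρ := 0) hw.continuous.continuousOn
    have b : ∫ z, ddb w z = 0 := le_antisymm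
      (by rwa [slp, div_le_iff₀ Real.pi_pos, zero_mul] at a) (integral_nonneg h0)
    exact congrFun (((continuous_ddb hw).ae_eq_iff_eq volume continuous_zero).1
      ((integral_eq_zero_iff_of_nonneg h0 hi).1 b)) τ

end Vale.Agent.P253W.D
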