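import Vale.Agent.P253W.D.Spec

/-!
# P253W, block D: the rows UH and CH
-/

open scoped Manifold ContDiff Bundle ENNReal Topology Matrix ComplexOrder
open Bundle IsManifold MeasureTheory Set Metric Filter Vale.Agent.P253.Mfd Vale.Agent.P253Z
open Vale.Agent.P272.K (Cm jacM Chart)

set_option linter.unusedSectionVars false

noncomputable section

namespace Vale.Agent.P253W.D

variable {n : ℕ} {M : Type} [MetricSpace M] [ChartedSpace (Cm n) M] [IsManifold 𝓘(ℂ, Cm n) 1 M]
  [IsManifold 𝓘(ℝ, Cm n) ∞ M] [RiemannianBundle fun x : M => TangentSpace 𝓘(ℝ, Cm n) x]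
  [ConnectedSpace M] [NoncompactSpace M] [MeasurableSpace M] [BorelSpace M] {μ : Measure M}
  {F : Flow n M} {A : Fam F} {T : F.TA μ}

namespace Uh

theorem tk_one (k : ℕ) : 1 ≤ tk k := le_add_of_nonneg_left k.cast_nonneg

variable (p : P3 A T)
include p

theorem d_le {s : ℝ} (hs : 0 ≤ s) (x y : M) : A.d s x y ≤ dist x y :=
  (p.s3b.d_anti 0 s le_rfl hs x y).trans_eq (p.s3b.d_zero x y)

/-- the Harnack inequality with a unit step in time -/
theorem step {s D : ℝ} (hs : 1 ≤ s) {x y : M} (h : A.d s x y ≤ D) :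
    F.R s x ≤ 2 * Real.exp (2 * D ^ 2) * F.R (s + 1) y := by
  have s0 : 0 < s := by linarith
  have h1 := p.s3b.har s (s + 1) s0 (by linarith) x y
  have h2 : 1 / 2 ≤ s * Real.log ((s + 1) / s) := by
    have := Real.one_sub_inv_le_log_of_pos (x := (s + 1) / s) (by positivity)
    rw [inv_div] at this
    refine le_trans ?_ (mul_le_mul_of_nonneg_left this s0.le)
    rw [show s * (1 - s / (s + 1)) = s / (s + 1) by field_simp; ring,
      div_le_div_iff₀ (by norm_num) (by linarith)]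
    linarith
  have h3 : A.d s x y ^ 2 / (s * Real.log ((s + 1) / s)) ≤ 2 * D ^ 2 := by
    rw [div_le_iff₀ (by linarith)]
    nlinarith [pow_le_pow_left₀ (show 0 ≤ A.d s x y from dist_nonneg) h 2, sq_nonneg D]
  have h4 := p.b2.R_nonneg (s + 1) (by linarith) y
  refine le_of_mul_le_mul_left (h1.trans ?_) s0
  calc _ ≤ 2 * s * F.R (s + 1) y * Real.exp (2 * D ^ 2) := by gcongr; linarith
    _ = _ := by ring

theorem U_nonneg {t : ℝ} (ht : 0 ≤ t) (x : M) : 0 ≤ F.u t x - F.u 0 x :=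
  sub_nonneg.2 (p.is.mono x self_mem_Ici ht ht)

/-- integration of the Harnack inequality -/
theorem cmp {t E B : ℝ} (ht : 1 ≤ t) (hE : 0 ≤ E) {x y : M}
    (h : ∀ s, 1 ≤ s → F.R s x ≤ E * F.R (s + 1) y) (hB : ∀ s, 1 ≤ s → F.R s y ≤ B) :
    F.u t x - F.u 1 x ≤ E * (F.u t y - F.u 0 y + B) := by
  have d : ∀ s ∈ Ici (1 : ℝ), HasDerivAt (fun s => E * F.u (s + 1) y - F.u s x)
      (E * F.R (s + 1) y - F.R s x) s := fun s hs =>
    ((HasDerivAt.comp_add_const (f := fun s => F.u s y) s 1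
      (p.b2.u_t _ (by linarith [mem_Ici.1 hs]) y)).const_mul E).fun_sub
      (p.b2.u_t _ (by linarith [mem_Ici.1 hs]) x)
  have h1 := monotoneOn_of_hasDerivWithinAt_nonneg (convex_Ici 1)
    (fun s hs => (d s hs).continuousAt.continuousWithinAt)
    (fun s hs => (d s (interior_subset hs)).hasDerivWithinAt)
    (fun s hs => sub_nonneg.2 (h s (interior_subset hs))) self_mem_Ici ht ht
  have d' : ∀ s ∈ Ici (1 : ℝ), HasDerivAt (fun s => B * s - F.u s y) (B * 1 - F.R s y) s :=
    fun s hs => ((hasDerivAt_id' s).const_mul B).fun_sub (p.b2.u_t _ (by linarith [mem_Ici.1 hs]) y)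
  have h2 := monotoneOn_of_hasDerivWithinAt_nonneg (convex_Ici 1)
    (fun s hs => (d' s hs).continuousAt.continuousWithinAt)
    (fun s hs => (d' s (interior_subset hs)).hasDerivWithinAt)
    (fun s hs => by linarith [hB s (interior_subset hs)]) ht
    (show 1 ≤ t + 1 by linarith) (by linarith)
  have h3 := U_nonneg p (t := 1 + 1) (by norm_num) y
  have h4 : F.u (t + 1) y - F.u (1 + 1) y ≤ F.u t y - F.u 0 y + B := by linarith
  linarith [mul_le_mul_of_nonneg_left h4 hE]

theorem top (x : M) : Tendsto (Uk F x) atTop atTop := by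
  obtain ⟨c, c0, hc⟩ := p.s3a.decay {x} isCompact_singleton
  have h0 := p.b2.H_pos 0 le_rfl x (fun _ => 1) fun h => by
    simpa using congrFun h ⟨0, p.c.npos⟩
  refine tendsto_atTop_mono (f := fun k => c * Real.log (tk k)) (fun k => ?_)
    ((Real.tendsto_log_atTop.comp (tendsto_atTop_add_const_right _ _
      tendsto_natCast_atTop_atTop)).const_mul_atTop c0)
  have k1 := tk_one k
  have h1 := le_of_mul_le_mul_right ((hc _ k1 x rfl _).trans (p.b2.H_le _ (by linarith) x _)) h0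
  rw [Real.rpow_def_of_pos (by linarith), Real.exp_le_exp] at h1
  rw [Uk]
  linarith

end Uh

open Uh

theorem uh [ProperSpace M] (p : P3 A T) : UH F := by
  intro q
  have one : ∀ x k, 1 ≤ Uk F x k := fun x k =>
    le_add_of_nonneg_right (U_nonneg p (zero_le_one.trans (tk_one k)) x)
  refine ⟨one q, top p q, fun R => ?_⟩
  obtain ⟨C, hC⟩ := p.s3a.u_lin q
  have cu : ∀ t, 0 ≤ t → Continuous (F.u t) := fun t ht =>
    (p.b1.sm_cont _ p.b1.u_sm).comp_continuous (f := fun x => (t, x)) (by fun_prop)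
      fun x => ⟨ht, trivial⟩
  obtain ⟨B, hB⟩ := (isCompact_closedBall q |R|).exists_bound_of_continuousOn
    ((cu 1 zero_le_one).sub (cu 0 le_rfl)).continuousOn
  have B0 := (norm_nonneg _).trans (hB q (mem_closedBall_self (abs_nonneg R)))
  have C0 := (p.b2.R_nonneg 0 le_rfl q).trans (hC 0 le_rfl).2
  set E := 2 * Real.exp (2 * |R| ^ 2)
  have E0 : 0 ≤ E := by positivity
  have st : ∀ x y, dist x y ≤ |R| → ∀ s, 1 ≤ s → F.R s x ≤ E * F.R (s + 1) y := fun x y h s hs =>
    step p hs ((d_le p (by linarith) x y).trans h)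
  have k : ∀ x y, dist x y ≤ |R| → dist x q ≤ |R| → dist y q ≤ |R| → ∀ k,
      Uk F x k ≤ (1 + B + E + E * (E * C)) * Uk F y k := fun x y h1 h2 h3 k => by
    have a1 := cmp p (tk_one k) E0 (st x y h1) fun s hs => (st y q h3 s hs).trans
      (mul_le_mul_of_nonneg_left (hC _ (by linarith)).2 E0)
    have a2 : F.u 1 x - F.u 0 x ≤ B := (le_abs_self _).trans (hB x h2)
    have a3 := U_nonneg p (zero_le_one.trans (tk_one k)) y
    have a4 : 0 ≤ (1 + B + E * (E * C)) * (F.u (tk k) y - F.u 0 y) := by positivity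
    simp only [Uk]
    nlinarith
  refine ⟨1 + B + E + E * (E * C), le_add_of_le_of_nonneg (by linarith) (by positivity),
    fun j x hx => ?_⟩
  have h : dist x q ≤ |R| := (mem_ball.1 hx).le.trans (le_abs_self R)
  exact ⟨k x q h h (by simp) j, k q x (dist_comm x q ▸ h) (by simp) h j⟩

theorem ch (p : P3 A T) (u : UH F) (eig : C.EIG n) : CH F μ := by
  intro q
  obtain ⟨c, c', C, c0, c1, c2, C1, hG⟩ := p.g1
  obtain ⟨B, hB⟩ := p.s3a.u_lin q
  have B0 := (p.b2.R_nonneg 0 le_rfl q).trans (hB 0 le_rfl).2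
  obtain ⟨s, s0, s1, s2⟩ : ∃ s : ℝ, 0 < s ∧ s ≤ 1 ∧ s * (2 * Real.exp (2 * 1 ^ 2) * B) ≤ 1 :=
    ⟨(1 + 2 * Real.exp (2 * 1 ^ 2) * B)⁻¹, by positivity,
      inv_le_one_of_one_le₀ (le_add_of_nonneg_right (by positivity)), by
        rw [inv_mul_le_iff₀ (by positivity)]
        linarith⟩
  have t0 : ∀ k, 0 < tk k := fun k => zero_lt_one.trans_le (tk_one k)
  choose L hL using fun k => eig.onb (F.gx (tk k) q)
    (p.is.pos _ (t0 k).le _ (chart_mem_maximalAtlas q) _ (mem_chart_target _ q))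
  choose Ψ h1 h2 _ h4 h5 using fun k => hG (tk k) s q (L k) (t0 k) s0 (fun x hx => by
    have a1 := (step p (tk_one k) (hx.trans s1)).trans
      (mul_le_mul_of_nonneg_left (hB _ (by linarith [t0 k])).2 (by positivity))
    have a2 := mul_le_mul_of_nonneg_left a1 s0.le
    nlinarith) (hL k).1
  have C0 : 0 < C := by linarith
  refine ⟨Ψ, s ^ 2 / C, C * s ^ 2, c', by positivity, ?_, c1, c2, h1, h2, fun k y hy v => ⟨?_, ?_⟩,
    ?_⟩
  · rw [div_le_iff₀ C0]
    nlinarith [mul_nonneg (sq_nonneg s) (show 0 ≤ C * C - 1 by nlinarith)]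
  · rw [div_mul_eq_mul_div, div_le_iff₀' C0]
    exact ((h4 k y hy).2 v).1
  · rw [mul_assoc]
    exact ((h4 k y hy).2 v).2
  obtain ⟨D, D1, hD⟩ := (u q).2.2 (c' * s)
  have m0 : 0 < μ (ball q (c' * s)) := by
    have : 0 < F.vol μ 0 (ball q (c' * s)) := (p.s3b.all 0 le_rfl).v.pos _ (isOpen_ball (α := M))
      ⟨q, mem_ball_self (α := M) (mul_pos c1 s0)⟩
    simpa [Flow.vol] using this
  obtain ⟨m, -, m1, m2⟩ := ENNReal.lt_iff_exists_real_btwn.1 m0
  rw [ENNReal.ofReal_pos] at m1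
  refine ⟨D + C / m, fun k G hG => ?_⟩
  have U1 := (u q).1 k
  have a1 : ENNReal.ofReal (Real.exp (-(D * Uk F q k)) * m) ≤
      F.vol μ (tk k) {x | A.d (tk k) x q < c' * s} := by
    refine le_trans ?_ (measure_mono (s := ball q (c' * s)) fun x hx =>
      (d_le p (t0 k).le x q).trans_lt hx)
    rw [Flow.vol, withDensity_apply _ measurableSet_ball,
      ENNReal.ofReal_mul (Real.exp_pos _).le]
    refine (mul_le_mul_right m2.le _).trans ((setLIntegral_const _ _).symm.trans_le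
      (setLIntegral_mono' measurableSet_ball fun x hx => ENNReal.ofReal_le_ofReal ?_))
    have := (hD k x hx).1
    rw [Real.exp_le_exp]
    rw [Uk] at this
    linarith
  have a0 : 0 < Real.exp (-(D * Uk F q k)) * m := by positivity
  have a2 := (mul_le_mul_right a1 _).trans (h5 k G hG)
  refine (ENNReal.mul_le_mul_iff_left (ENNReal.ofReal_pos.2 a0).ne' ENNReal.ofReal_ne_top).1
    (a2.trans ?_)
  rw [mul_right_comm, ← ENNReal.ofReal_mul (Real.exp_pos _).le, ← mul_assoc, ← Real.exp_add]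
  gcongr
  rw [← div_le_iff₀ m1]
  have a3 : 0 ≤ C / m := by positivity
  exact le_trans (by nlinarith) (Real.add_one_le_exp _)

end Vale.Agent.P253W.D
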