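import Vale.Agent.P253W.D.Spec
import Vale.Agent.P253W.V.Uli
import Vale.Agent.P253Z.B1a

/-!
# P253W, block D: the row ZC
-/

open scoped Manifold ContDiff Bundle Topology
open Bundle IsManifold MeasureTheory Set Metric Filter Vale.Agent.P253.Mfd Vale.Agent.P253Z
open Vale.Agent.P272.K (Cm Chart)

noncomputable section

namespace Vale.Agent.P253W.D

variable {n : ℕ} {M : Type} [MetricSpace M] [ChartedSpace (Cm n) M] [IsManifold 𝓘(ℂ, Cm n) 1 M]
  [RiemannianBundle fun x : M => TangentSpace 𝓘(ℝ, Cm n) x] [MeasurableSpace M] {μ : Measure M}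
  {F : Flow n M} {T : F.TA μ}

theorem Zc.chart {z : Fin n → M → ℂ} (hz : ∀ i, z i ∈ T.A) {x : M} (hx : F.jc z x ≠ 0) :
    ∃ e : Chart n M, Hc e ∧ x ∈ e.source ∧ ∀ y ∈ e.source, e y = zv z y :=
  V.UliA.chart_of (fun i => ((T.mem _).1 (hz i)).1) (div_ne_zero_iff.1 hx).1

theorem zc_of (a : B1a n M) : ZC T where
  ex x := by
    obtain ⟨z, hz, hx⟩ := T.eta x
    obtain ⟨e, h⟩ := Zc.chart hz hx
    exact ⟨z, e, hz, h⟩
  cap z e hz he S hS h1 h2 := by
    have hc : Continuous (zv z) := continuous_pi fun i =>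
      ((a.sec_zero _).1 ((T.mem _).1 (hz i)).1).continuous
    refine hS.subset_of_closure_inter_subset e.open_source h2 fun y hy => ?_
    have h3 : e.symm (zv z y) = y := tendsto_nhds_unique_of_frequently_eq
      ((e.continuousAt_symm (h1 y hy.2)).tendsto.comp (hc.tendsto y)) tendsto_id
      ((mem_closure_iff_frequently.1 hy.1).mono fun x hx =>
        (congrArg e.symm (he x hx).symm).trans (e.left_inv hx))
    exact h3 ▸ e.map_target (h1 y hy.2)
  sec f hf := ⟨((T.mem f).1 hf).1, (a.sec_zero f).1 ((T.mem f).1 hf).1⟩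
  mem P := by
    induction P using MvPolynomial.induction_on with
    | C c =>
      simp only [MvPolynomial.eval_C]
      exact T.A.algebraMap_mem c
    | add P Q hP hQ =>
      simp only [map_add]
      exact T.A.add_mem hP hQ
    | mul_X P i hP =>
      simp only [map_mul, MvPolynomial.eval_X]
      exact T.A.mul_mem hP (T.z_mem i)
  ind P hP := by
    by_contra! h
    obtain ⟨x, hx⟩ := T.Q_ne
    obtain ⟨e, -, h1, h2⟩ := Zc.chart T.z_mem (T.z_et x hx)
    have h3 := (AnalyticOnNhd.eval_mvPolynomial P).eq_of_eventuallyEq analyticOnNhd_const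
      (mem_of_superset (e.open_target.mem_nhds (e.map_source h1)) fun w hw =>
        show MvPolynomial.eval w P = 0 by
          rw [← e.right_inv hw, h2 _ (e.map_target hw)]
          exact h _)
    exact hP (MvPolynomial.funext fun w => (congrFun h3 w).trans (map_zero _).symm)
  dense ψ hψ h0 := ⟨isOpen_ne_fun ((a.sec_zero ψ).1 hψ).continuous continuous_const, fun x =>
    mem_closure_iff_frequently.2 fun h => h0 (a.ident 0 ψ hψ x (h.mono fun _ hy => not_not.1 hy))⟩

variable [IsManifold 𝓘(ℝ, Cm n) ∞ M]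
  [IsContMDiffRiemannianBundle 𝓘(ℝ, Cm n) ∞ (Cm n) fun x : M => TangentSpace 𝓘(ℝ, Cm n) x]
  [IsRiemannianManifold 𝓘(ℝ, Cm n) M] [CompleteSpace M] [ConnectedSpace M] [NoncompactSpace M]
  [BorelSpace M] {A : Fam F}

/-- **ZC** -/
theorem zc (_p : P3 A T) (_l : C.L2H T) : ZC T := zc_of b1a

end Vale.Agent.P253W.D
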