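import Vale.Agent.P253W.D.Act
import Vale.Agent.P253W.D.Bai2
import Vale.Agent.P253W.D.Bdd
import Vale.Agent.P253W.D.Bnd
import Vale.Agent.P253W.D.Conv
import Vale.Agent.P253W.D.Cpt
import Vale.Agent.P253W.D.Dep
import Vale.Agent.P253W.D.Df
import Vale.Agent.P253W.D.Dim
import Vale.Agent.P253W.D.Dir
import Vale.Agent.P253W.D.Dm
import Vale.Agent.P253W.D.Dsc
import Vale.Agent.P253W.D.Ee
import Vale.Agent.P253W.D.Ent
import Vale.Agent.P253W.D.Exit
import Vale.Agent.P253W.D.Fin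
import Vale.Agent.P253W.D.Gen
import Vale.Agent.P253W.D.Gro
import Vale.Agent.P253W.D.Hur
import Vale.Agent.P253W.D.Inv
import Vale.Agent.P253W.D.Lift
import Vale.Agent.P253W.D.Lmt
import Vale.Agent.P253W.D.Mono2
import Vale.Agent.P253W.D.Mt
import Vale.Agent.P253W.D.Nf
import Vale.Agent.P253W.D.Opn
import Vale.Agent.P253W.D.Pin
import Vale.Agent.P253W.D.Pin0
import Vale.Agent.P253W.D.Pinl
import Vale.Agent.P253W.D.Prop
import Vale.Agent.P253W.D.Rel
import Vale.Agent.P253W.D.Rgh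
import Vale.Agent.P253W.D.Sec
import Vale.Agent.P253W.D.Sub
import Vale.Agent.P253W.D.Th2
import Vale.Agent.P253W.D.Uh
import Vale.Agent.P253W.D.Zc
import Vale.Agent.P253W.C.Jb
import Vale.Agent.P253W.C.Eig
import Vale.Agent.P253W.C.Mer
import Vale.Agent.P253W.C.Map
import Vale.Agent.P253W.C.L2h
import Vale.Agent.P253W.C.Pcf
import Vale.Agent.P253W.V.Lib

/-!
# P253W, block D: assembly
-/

open scoped Manifold ContDiff Bundle
open Bundle MeasureTheory Vale.Agent.P253.Mfd Vale.Agent.P253Z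
open Vale.Agent.P272.K (Cm)

namespace Vale.Agent.P253W.D

variable {n : ℕ} {M : Type} [MetricSpace M] [ChartedSpace (Cm n) M]
  [IsManifold 𝓘(ℂ, Cm n) 1 M] [IsManifold 𝓘(ℝ, Cm n) ∞ M]
  [RiemannianBundle (fun x : M => TangentSpace 𝓘(ℝ, Cm n) x)]
  [IsContMDiffRiemannianBundle 𝓘(ℝ, Cm n) ∞ (Cm n) (fun x : M => TangentSpace 𝓘(ℝ, Cm n) x)]
  [IsRiemannianManifold 𝓘(ℝ, Cm n) M] [CompleteSpace M] [ConnectedSpace M] [NoncompactSpace M]
  [MeasurableSpace M] [BorelSpace M] {μ : Measure M} {F : Flow n M} {A : Fam F} {T : F.TA μ}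

theorem tools (p : P3 A T) : Tools T :=
  have : ProperSpace M := properSpace_riemannian (Cm n) M
  have a := V.all0 p.c
  have d := df a.a
  have i := inv a.a d
  have g := C.map a.a
  have m := mt p d (C.eig n)
  have z := zc p (C.l2h T)
  have f := nf z d
  ⟨pin0, th2, bdd, opn n, dim n, dep n, exit n, mono, C.jb, C.eig n, C.mer, g, C.pul p,
    C.pcf p g (C.eig n), C.l2h T, a, prop a.a (opn n), d, i, f, cpe f p.kpe, hur d (opn n) a.a,
    bih a.a d, m, conv p d m, sub p d m, lift d i m, uh p, z, cpt p z C.jb g⟩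

/-- block D -/
theorem blD [SimplyConnectedSpace M] : Of3 n μ fun _ _ T => T.TB → T.END := fun _ _ T p =>
  have : ProperSpace M := properSpace_riemannian (Cm n) M
  have t := tools p
  end_of T (ch p t.uh t.eig) (sec t) (bnd p t) (pinl p.c.npos t) (pin t) (rel t) (dbl t) (dir p t)
    (gro t) (cpa t) (lim t) (act t) (ee t) (bai2 t (gen t) (thb t) (dm p.c.npos t)) (ent t)
    (rgh t) (lmt t) (dsc p t) (fin t)

end Vale.Agent.P253W.D
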