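import Vale.Agent.P253W.Defs
import Vale.Agent.P253W.C.Basic2

/-!
# P253W, block D: statements without manifolds
-/

open scoped Topology Matrix
open Set Metric Filter
open Vale.Agent.P272.K (Cm)
open Vale.Agent.P272.GJ (ddb)
open Vale.Agent.P253W.C (ex Up)

noncomputable section

namespace Vale.Agent.P253W.D

/-- polynomials in `n` variables -/
abbrev Pz (n : ℕ) : Type := MvPolynomial (Fin n) ℂ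

/-- the value `R(ζ)(a)` -/
def ev {n : ℕ} (R : Polynomial (Pz n)) (ζ : Cm n) (a : ℂ) : ℂ :=
  (R.map (MvPolynomial.eval ζ)).eval a

/-- the matrix of a linear map -/
def mx {n : ℕ} (L : Cm n →L[ℂ] Cm n) : Mx n := LinearMap.toMatrix' (L : Cm n →ₗ[ℂ] Cm n)

/-- families of coefficients -/
abbrev Cf (n D : ℕ) : Type := (Fin n → Fin (D + 1)) × Fin (D + 1) → ℂ

/-- the polynomial with the coefficients `a` -/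
def pl {n D : ℕ} (a : Cf n D) (ζ : Cm n) (t : ℂ) : ℂ :=
  ∑ β, a β * (∏ i, ζ i ^ (β.1 i : ℕ)) * t ^ (β.2 : ℕ)

/-- **PIN0**: a subharmonic function with mass near the origin -/
def PIN0 : Prop := ∀ (κ δ : ℝ) (N : ℕ), 0 < κ → 0 < δ → ∃ c : ℝ, 0 < c ∧
  ∀ (m : ℕ) (w : ℂ → ℝ) (V : ℂ → Cm m) (S B : ℝ), 4 ≤ S →
    (∀ τ ∈ ball (0 : ℂ) S, ContDiffAt ℝ 2 w τ ∧ 0 ≤ ddb w τ ∧ w τ ≤ B) →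
    DifferentiableOn ℂ V (ball 0 S) → V 0 = 0 → ‖V 1‖ = δ →
    (∀ τ ∈ closedBall (0 : ℂ) 1, ‖V τ‖ ≤ δ ∧ κ * ‖deriv V τ‖ ^ 2 ≤ ddb w τ) →
    (∀ τ ∈ ball (0 : ℂ) S, ‖V τ‖ ≤ δ * S ^ N) → w 0 ≤ B - c * Real.log S

/-- **TH2**: three circles for subharmonic functions, and the theorem of Liouville -/
structure TH2 : Prop where
  three : ∀ (w : ℂ → ℝ) (S A B : ℝ), 1 < S → 0 ≤ B →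
    (∀ τ ∈ closedBall (0 : ℂ) S, ContDiffAt ℝ 2 w τ ∧ 0 ≤ ddb w τ) →
    (∀ τ ∈ sphere (0 : ℂ) 1, w τ ≤ A) → (∀ τ ∈ sphere (0 : ℂ) S, w τ ≤ A + B) →
    ∀ τ ∈ closedBall (0 : ℂ) S, w τ ≤ A + B * Real.log (max ‖τ‖ 1) / Real.log S
  lio : ∀ w : ℂ → ℝ, ContDiff ℝ 2 w → (∀ τ, 0 ≤ ddb w τ) → Up w 0 → ∀ τ, ddb w τ = 0

/-- **BDD**: functions of growth less than one are holomorphic at infinity -/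
structure BDD : Prop where
  one : ∀ (h : ℂ → ℂ) (ρ C a : ℝ), 0 < ρ → a < 1 → DifferentiableOn ℂ h (ex ρ) →
    (∀ τ ∈ ex ρ, ‖h τ‖ ≤ C * ‖τ‖ ^ a) → ∃ l : ℂ, ∀ τ ∈ ex (2 * ρ),
      ‖h τ‖ ≤ C * (2 * ρ) ^ a ∧ ‖h τ - l‖ * ‖τ‖ ≤ 4 * ρ * (C * (2 * ρ) ^ a)
  mat : ∀ (n : ℕ) (D : ℂ → Mx n) (ρ C a : ℝ), 0 < ρ → a < 1 →
    (∀ i j, DifferentiableOn ℂ (fun τ => D τ i j) (ex ρ) ∧ ∀ τ ∈ ex ρ, ‖D τ i j‖ ≤ C * ‖τ‖ ^ a) →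
    (∀ α : Cm n, α ≠ 0 → ¬∃ C' ρ' : ℝ, ∀ τ ∈ ex ρ', ‖α ᵥ* D τ‖ * ‖τ‖ ≤ C') →
    ∃ c ρ' : ℝ, 0 < c ∧ ∀ τ ∈ ex ρ', ∀ v, c * ‖v‖ ≤ ‖D τ *ᵥ v‖ ∧ c * ‖D τ *ᵥ v‖ ≤ ‖v‖
  /-- interpolation -/
  lag : ∀ N : ℕ, ∃ C : ℝ, 0 ≤ C ∧ ∀ h : ℂ → ℂ, Differentiable ℂ h →
    (∃ C' : ℝ, ∀ τ, ‖h τ‖ ≤ C' * (1 + ‖τ‖) ^ N) →
    ∀ τ, ‖h τ‖ ≤ C * (1 + ‖τ‖) ^ N * ∑ l ∈ Finset.range (N + 1), ‖h l‖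

/-- **OPN**: holomorphic maps and functions on balls -/
structure OPN (n : ℕ) : Prop where
  /-- the image contains a ball of uniform size -/
  img : ∀ r B δ : ℝ, 0 < r → 0 < δ → ∃ ρ : ℝ, 0 < ρ ∧ ∀ (g : Cm n → Cm n) (c : Cm n),
    DifferentiableOn ℂ g (ball c r) → (∀ y ∈ ball c r, ‖g y - g c‖ ≤ B) →
    (∀ v, ‖v‖ ≤ B * ‖fderiv ℂ g c v‖) → ball (g c) ρ ⊆ g '' (ball c δ ∩ ball c r)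
  conn : ∀ (ψ : Cm n → ℂ) (c : Cm n) (r : ℝ), DifferentiableOn ℂ ψ (ball c r) →
    IsPreconnected (ball c r ∩ {y | ψ y ≠ 0})
  hur : ∀ (l : Filter ℕ) (j : ℕ → Cm n → ℂ) (j₀ : Cm n → ℂ) (c : Cm n) (r : ℝ), l.NeBot →
    (∀ᶠ k in l, DifferentiableOn ℂ (j k) (ball c r) ∧ ∀ y ∈ ball c r, j k y ≠ 0) →
    TendstoLocallyUniformlyOn j j₀ l (ball c r) → (∃ y ∈ ball c r, j₀ y ≠ 0) →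
    ∀ y ∈ ball c r, j₀ y ≠ 0

/-- **DIM**: approximate relations by counting dimensions -/
def DIM (n : ℕ) : Prop := ∀ C c r : ℝ, 0 < c → 0 < r → ∃ (D : ℕ) (U₀ : ℝ), ∀ U, U₀ ≤ U →
  ∀ (f : Cm n → Cm n) (φ : Cm n → ℂ), DifferentiableOn ℂ f (ball 0 r) →
    DifferentiableOn ℂ φ (ball 0 r) →
    (∀ y ∈ ball (0 : Cm n) r, ‖f y‖ ≤ Real.exp (C * U) ∧ ‖φ y‖ ≤ Real.exp (C * U)) →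
    ∃ a : Cf n D, ‖a‖ = 1 ∧ ∀ y : Cm n, ‖y‖ ≤ Real.exp (-(c * U)) →
      ‖pl a (f y) (φ y)‖ ≤ Real.exp (-U)

/-- **DEP**: algebraic dependence -/
structure DEP (n : ℕ) : Prop where
  dep : ∀ (q : Cm n → Cm n) (C : ℝ) (N : ℕ), Differentiable ℂ q →
    (∀ y, ‖q y‖ ≤ C * (1 + ‖y‖) ^ N) →
    ∀ j, ∃ R : Polynomial (Pz n), R ≠ 0 ∧ ∀ y, ev R (q y) (y j) = 0
  plr : ∀ (D : ℕ) (a : Cf n D), a ≠ 0 → ∃ R : Polynomial (Pz n), R ≠ 0 ∧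
    ∀ ζ t, pl a ζ t = ev R ζ t
  plb : ∀ (D : ℕ) (B : ℝ), ∃ C : ℝ, ∀ (a a' : Cf n D) (ζ : Cm n) (t : ℂ), ‖ζ‖ ≤ B → ‖t‖ ≤ B →
    ‖pl a ζ t - pl a' ζ t‖ ≤ C * ‖a - a'‖
  /-- no roots far away -/
  far : ∀ (R : Polynomial (Pz n)) (K : Set (Cm n)), IsCompact K →
    (∀ ζ ∈ K, MvPolynomial.eval ζ R.leadingCoeff ≠ 0) → ∃ B c : ℝ, 0 < c ∧
    ∀ ζ ∈ K, ∀ t : ℂ, B ≤ ‖t‖ → c ≤ ‖ev R ζ t‖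
  /-- the bound for the roots -/
  root : ∀ R : Polynomial (Pz n), ∃ (C : ℝ) (N : ℕ), 1 ≤ C ∧ ∀ (ζ : Cm n) (t : ℂ),
    ‖MvPolynomial.eval ζ R.leadingCoeff‖ ≤ C * (1 + ‖ζ‖) ^ N ∧
    (ev R ζ t = 0 → ‖t‖ * ‖MvPolynomial.eval ζ R.leadingCoeff‖ ≤ C * (1 + ‖ζ‖) ^ N)

/-- **EXIT**: the first exit -/
def EXIT (n : ℕ) : Prop := ∀ (h : Cm n → Cm n) (K : Set (Cm n)) (r δ : ℝ) (y₁ : Cm n),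
  IsCompact K → 0 < r → 0 < δ → K ⊆ closedBall 0 r → DifferentiableOn ℂ h (ball 0 (3 * r)) →
  y₁ ∈ K → n.factorial * δ ^ n < ‖(mx (fderiv ℂ h y₁)).det‖ * r ^ n →
  ∃ y₀ ∈ K, ∃ v₀ : Cm n, 0 < ‖v₀‖ ∧ ‖v₀‖ < r ∧ ‖h (y₀ + v₀) - h y₀‖ = δ ∧
    ‖(mx (fderiv ℂ h y₁)).det‖ * ‖v₀‖ ^ n ≤ n.factorial * δ ^ n ∧
    ∀ y ∈ K, (∀ v, ‖v‖ ≤ ‖v₀‖ → ‖h (y + v) - h y‖ ≤ δ) ∧
      ∀ v, ‖v₀‖ * ‖fderiv ℂ h y v‖ ≤ δ * ‖v‖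

/-- **MONO**: the monodromy theorem. `Co V σ` says that `σ` is a section over `V`. -/
def MONO : Prop := ∀ (X G : Type) [TopologicalSpace X] [SimplyConnectedSpace X]
  [LocallyPathConnectedSpace X] (Co : Set X → (X → G) → Prop) (Ad : X → G → Prop),
  (∀ V σ, Co V σ → IsOpen V ∧ ∀ x ∈ V, Ad x (σ x)) →
  (∀ V V' σ σ', Co V σ → Co V' σ' → ∀ x ∈ V ∩ V', σ x = σ' x → σ =ᶠ[𝓝 x] σ') →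
  (∀ x, ∃ V, x ∈ V ∧ IsOpen V ∧ (∀ y ∈ V, ∀ g, Ad y g → ∃ σ, Co V σ ∧ σ y = g) ∧
    ∀ σ σ', Co V σ → Co V σ' → ∀ y ∈ V, σ y = σ' y → EqOn σ σ' V) →
  ∀ x₀ g₀, Ad x₀ g₀ → ∃ τ : X → G, τ x₀ = g₀ ∧ ∀ x, ∃ V σ, Co V σ ∧ x ∈ V ∧ τ =ᶠ[𝓝 x] σ

end Vale.Agent.P253W.D
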