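import Vale.Agent.P253W.D.Spec

/-!
# P253W, row D.RGH: a rough bound on the slices
-/

open scoped Manifold ContDiff Bundle Topology
open Bundle IsManifold MeasureTheory Set Metric Filter Bornology Vale.Agent.P253.Mfd
  Vale.Agent.P253Z
open Vale.Agent.P272.K (Cm)
open Vale.Agent.P253W.C (ex ev_iff ex_mem pb_of_exp lg_eq)

noncomputable section

namespace Vale.Agent.P253W.D

namespace Rgh

theorem pw (C : ℝ) (N : ℕ) {A L t : ℝ} (hL : 1 ≤ L) (hA : 0 ≤ A) (h0 : 0 ≤ t)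
    (h : t ≤ Real.exp (A * L)) : C * (1 + t) ^ N ≤ Real.exp ((|C| + N * (A + 1)) * L) := by
  have h1 : C ≤ Real.exp (|C| * L) := by
    linarith [Real.add_one_le_exp (|C| * L), le_abs_self C, le_mul_of_one_le_right (abs_nonneg C) hL]
  have h2 : 1 + t ≤ Real.exp ((A + 1) * L) := by
    have := Real.one_le_exp (mul_nonneg hA (zero_le_one.trans hL))
    rw [add_mul, Real.exp_add, one_mul]
    nlinarith [Real.add_one_le_exp L]
  rw [add_mul, Real.exp_add, mul_assoc, Real.exp_nat_mul]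
  exact mul_le_mul h1 (pow_le_pow_left₀ (by positivity) h2 _) (by positivity) (Real.exp_pos _).le

theorem tl : Tendsto (fun σ : ℂ => Real.log ‖σ‖) (cobounded ℂ) atTop :=
  Real.tendsto_log_atTop.comp tendsto_norm_cobounded_atTop

theorem le_sum {ι : Type} [Fintype ι] (K : ι → ℝ) (i : ι) {L : ℝ} (hL : 0 ≤ L) :
    Real.exp (K i * L) ≤ Real.exp ((∑ j, |K j|) * L) :=
  Real.exp_le_exp.2 (mul_le_mul_of_nonneg_right ((le_abs_self _).trans (Finset.single_le_sum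
    (f := fun j => |K j|) (fun _ _ => abs_nonneg _) (Finset.mem_univ i))) hL)

variable {n : ℕ} {M : Type} [MetricSpace M] [ChartedSpace (Cm n) M]
  [RiemannianBundle fun x : M => TangentSpace 𝓘(ℝ, Cm n) x] [MeasurableSpace M] {μ : Measure M}
  {F : Flow n M} {T : F.TA μ}

/-- the coordinates on the slices -/
theorem zb (t : Tools T) {f : ℂ → M} {ν : ℝ} (B : T.Tube f ν) : ∃ A : ℝ, 0 ≤ A ∧
    ∀ᶠ σ in cobounded ℂ, ∀ y ∈ Flow.sl B.k B.ε σ,
      ‖zv T.z (B.Ξ σ y)‖ ≤ Real.exp (A * Real.log ‖σ‖) := by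
  choose K hK using fun i => B.tm _ (t.pcf.tm _ (T.z_mem i))
  refine ⟨∑ i, |K i|, by positivity, ?_⟩
  filter_upwards [eventually_all.2 fun i => ev_iff.1 (hK i), tl.eventually_ge_atTop 0]
    with σ h1 h2 y hy
  exact (pi_norm_le_iff_of_nonneg (Real.exp_pos _).le).2 fun i => ((le_max_left _ 1).trans
    ((Real.log_le_iff_le_exp (by positivity)).1 (h1 i y hy))).trans (le_sum K i h2)

/-- algebraic functions on the slices -/
theorem alg (t : Tools T) (D : Dt T) {κ : ℝ} (hκ : 0 < κ) (hb : ∀ᶠ σ in cobounded ℂ,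
      ball 0 (‖σ‖ ^ κ) ⊆ Flow.sl D.B.k D.B.ε σ) {g : M → ℂ} (hg : IsSec n 0 g)
    {R : Polynomial (Pz n)} (hR : ∀ y, ev R (zv T.z y) (g y) = 0)
    (h0 : MvPolynomial.eval (zv T.z D.p) R.leadingCoeff ≠ 0) : ∃ K : ℝ, ∀ᶠ σ in cobounded ℂ,
      ∀ y ∈ ball (0 : Cm n) (‖σ‖ ^ (κ / 2)), ‖g (D.B.Ξ σ y)‖ ≤ Real.exp (K * Real.log ‖σ‖) := by
  obtain ⟨A, hA, h1⟩ := zb t D.B
  obtain ⟨C, N, hC, h2⟩ := t.dep.root R
  have s := (t.zc.sec _ (t.zc.mem R.leadingCoeff)).1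
  have ps := t.all.a.psh g hg 1 one_pos
  have h3 : ∀ᶠ σ in cobounded ℂ, ∀ y ∈ Flow.sl D.B.k D.B.ε σ,
      C * (1 + ‖zv T.z (D.B.Ξ σ y)‖) ^ N ≤ Real.exp ((|C| + N * (A + 1)) * Real.log ‖σ‖) := by
    filter_upwards [h1, tl.eventually_ge_atTop 1] with σ a b y hy
    exact pw C N b hA (norm_nonneg _) (a y hy)
  obtain ⟨m, c, c', ρ, hc, h4⟩ := t.mer.ent
    (fun σ => MvPolynomial.eval (zv T.z (D.Φ σ D.p)) R.leadingCoeff)
    (differentiableOn_univ.1 (t.map.hol _ _ _ s (D.act.hol.comp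
      (mdifferentiable_id.prodMk mdifferentiable_const)).mdifferentiableOn))
    (pb_of_exp (C := |C| + N * (A + 1)) (by
      filter_upwards [h3, ex_mem D.B.ρ] with σ a b
      rw [lg_eq, mul_left_comm, two_mul, Real.exp_add, ← sq, ← D.B.zero σ b]
      exact pow_le_pow_left₀ (norm_nonneg _) ((h2 _ 0).1.trans (a 0 (D.thb.sl σ b).2.1)) 2))
    ⟨0, by rwa [D.act.zero]⟩
  refine ⟨40 * (|C| + N * (A + 1)), ?_⟩
  filter_upwards [h3, hb, ex_mem D.B.ρ, ex_mem ρ, ex_mem 1, tl.eventually_ge_atTop (-Real.log c),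
    ((tendsto_rpow_atTop (half_pos hκ)).comp tendsto_norm_cobounded_atTop).eventually_ge_atTop 8]
    with σ a1 a2 a3 a4 a5 a6 a7 y hy
  have b1 : 1 ≤ ‖σ‖ := le_of_lt a5
  have b2 := Real.log_nonneg b1
  have b3 : ∀ τ ∈ ball (0 : ℂ) 8, τ • y ∈ Flow.sl D.B.k D.B.ε σ := fun τ hτ => a2 (by
    rw [mem_ball_zero_iff, norm_smul, ← add_halves κ, Real.rpow_add (by positivity)]
    exact mul_lt_mul'' ((mem_ball_zero_iff.1 hτ).trans_le a7) (mem_ball_zero_iff.1 hy)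
      (norm_nonneg _) (norm_nonneg _))
  have b4 : H1 n (fun τ : ℂ => D.B.Ξ σ (τ • y)) (ball 0 8) := (D.thb.sl σ a3).2.2.1.comp
    (mdifferentiableOn_iff_differentiableOn.2 (by fun_prop)) b3
  have b5 : 1 ≤ |C| + N * (A + 1) := (hC.trans (le_abs_self C)).trans
    (le_add_of_nonneg_right (by positivity))
  have b6 := t.jb.jen (fun τ => Real.log (max ‖g (D.B.Ξ σ (τ • y))‖ 1))
    (fun τ => MvPolynomial.eval (zv T.z (D.B.Ξ σ (τ • y))) R.leadingCoeff) 8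
    ((|C| + N * (A + 1)) * Real.log ‖σ‖) 1 (by norm_num) (by positivity) zero_le_one
    (ps.1.comp_continuousOn b4.continuousOn)
    (fun c r hr u => ps.2 _ c r hr (b4.continuousOn.mono u)
      (b4.mono (ball_subset_closedBall.trans u)))
    (t.map.hol _ _ _ s b4) (fun τ hτ => (h2 _ 0).1.trans (a1 _ (b3 τ hτ))) (by
      simp only [zero_smul, D.B.zero σ a3]
      refine le_trans ?_ ((le_mul_of_one_le_right hc.le (one_le_pow₀ b1)).trans (h4 σ a4).1)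
      rw [← Real.le_log_iff_exp_le hc]
      linarith [le_mul_of_one_le_left b2 b5])
    (fun τ hτ q => by
      have q' := norm_pos_iff.2 q
      rw [one_mul, le_sub_iff_add_le, ← Real.log_mul (by positivity) q'.ne',
        Real.log_le_iff_le_exp (by positivity), max_mul_of_nonneg _ _ q'.le, one_mul]
      exact (max_le ((h2 _ _).2 (hR _)) (h2 _ 0).1).trans (a1 _ (b3 τ hτ)))
    1 (by norm_num)
  rw [one_smul, Real.log_le_iff_le_exp (by positivity)] at b6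
  exact (le_max_left _ 1).trans (b6.trans_eq (by congr 1; ring))

end Rgh

variable {n : ℕ} {M : Type} [MetricSpace M] [ChartedSpace (Cm n) M]
  [RiemannianBundle fun x : M => TangentSpace 𝓘(ℝ, Cm n) x] [MeasurableSpace M] {μ : Measure M}
  {F : Flow n M} {T : F.TA μ}

open Rgh in
/-- **RGH** -/
theorem rgh (t : Tools T) : RGH T := by
  intro D
  obtain ⟨κ, ρ, hκ, -, hb⟩ := D.thb.big
  replace hb := ev_iff.1 ⟨ρ, hb⟩
  have hz := fun i => (t.zc.sec _ (T.z_mem i))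
  choose R h1 h2 using fun q : Fin n × Fin (D.N + 1) => D.good.top q.1 q.2 (Nat.le_of_lt_succ q.2.2)
  choose K hK using fun q : Fin n × Fin (D.N + 1) => alg t D hκ hb
    ((t.all.a.sec_zero _).2 ((hz q.1).2.comp (D.act.hol.comp
      (mdifferentiable_const.prodMk mdifferentiable_id)))) (h1 q) (h2 q)
  obtain ⟨C, hC, h3⟩ := t.bdd.lag D.N
  suffices ∀ᶠ σ in cobounded ℂ, ∀ y ∈ ball (0 : Cm n) (‖σ‖ ^ (κ / 2)),
      y ∈ Flow.sl D.B.k D.B.ε σ ∧ ‖zv T.z (Th D.Φ D.B σ y)‖ ≤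
        ‖σ‖ ^ ((|C * (D.N + 1 : ℕ)| + D.N * (1 + 1)) + ∑ q, |K q|) by
    obtain ⟨ρ', h⟩ := ev_iff.2 this
    exact ⟨κ / 2, _, ρ', half_pos hκ, h⟩
  filter_upwards [hb, eventually_all.2 hK, ex_mem 1, tl.eventually_ge_atTop 1]
    with σ a1 a2 a3 a4 y hy
  have b1 : 1 ≤ ‖σ‖ := le_of_lt a3
  refine ⟨a1 (ball_subset_ball (Real.rpow_le_rpow_of_exponent_le b1 (half_le_self hκ.le)) hy),
    (pi_norm_le_iff_of_nonneg (by positivity)).2 fun i => ?_⟩
  obtain ⟨C', h4⟩ := D.act.deg (D.B.Ξ σ y)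
  refine (h3 (fun τ => T.z i (D.Φ τ (D.B.Ξ σ y))) (differentiableOn_univ.1 (t.map.hol _ _ _ (hz i).1
    (D.act.hol.comp (mdifferentiable_id.prodMk mdifferentiable_const)).mdifferentiableOn))
    ⟨C', fun τ => (norm_le_pi_norm (zv T.z _) i).trans (h4 τ)⟩ (-σ)).trans ?_
  have b2 := pw (C * (D.N + 1 : ℕ)) D.N a4 zero_le_one (norm_nonneg σ)
    (by rw [one_mul, Real.exp_log (by positivity)])
  have b3 := Finset.sum_le_card_nsmul (Finset.range (D.N + 1))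
    (fun l => ‖T.z i (D.Φ l (D.B.Ξ σ y))‖) _ fun l hl =>
      (a2 (i, ⟨l, Finset.mem_range.1 hl⟩) y hy).trans (le_sum K _ (zero_le_one.trans a4))
  rw [Finset.card_range, nsmul_eq_mul] at b3
  rw [norm_neg, Real.rpow_def_of_pos (by positivity), mul_comm (Real.log _), add_mul, Real.exp_add]
  exact (mul_le_mul_of_nonneg_left b3 (by positivity)).trans ((by ring_nf; rfl : _ ≤ _).trans
    (mul_le_mul_of_nonneg_right b2 (Real.exp_pos _).le))

end Vale.Agent.P253W.D
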