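import Vale.Agent.P253W.C.Defs
import Vale.Agent.P253W.D.Pure

/-!
# P253W, block D: statements on the manifold (the action of `ℂ` and the end of the proof)
-/

open scoped Manifold ContDiff Bundle ENNReal Topology Matrix ComplexOrder
open Bundle IsManifold MeasureTheory Set Metric Filter Vale.Agent.P253.Mfd Vale.Agent.P253Z
open Vale.Agent.P272.K (Cm jacM Chart)
open Vale.Agent.P272.GJ (ddb)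
open Vale.Agent.P253W.C (ex)

noncomputable section

namespace Vale.Agent.P253W.D

/-- the ultrafilter -/
abbrev uf : Filter ℕ := hyperfilter ℕ

/-- the times -/
def tk (k : ℕ) : ℝ := k + 1

variable {n : ℕ} {M : Type} [MetricSpace M] [ChartedSpace (Cm n) M]

/-- holomorphic families of maps -/
abbrev HP (E : ℂ → Cm n → M) (D : Set (ℂ × Cm n)) : Prop :=
  MDifferentiableOn 𝓘(ℂ, ℂ × Cm n) 𝓘(ℂ, Cm n) (fun q : ℂ × Cm n => E q.1 q.2) D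

/-- the map with the components `z i` -/
def zv (z : Fin n → M → ℂ) (x : M) : Cm n := fun i => z i x

/-- a family of discs near `x₀` in the chart `e` -/
def Discs (e : Chart n M) (x₀ : M) (v : Cm n) (δ : ℝ) : Prop := Hc e ∧ x₀ ∈ e.source ∧ 0 < δ ∧
  ∀ w ∈ closedBall (e x₀) δ, ∀ τ ∈ closedBall (0 : ℂ) 4, w + τ • v ∈ e.target

variable (n M) in
/-- **PROP**: propagation across a hypersurface -/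
def PROP : Prop := ∀ G : Set M, IsOpen G → G.Nonempty →
  (∀ x₀, ∃ ψ : M → ℂ, IsSec n 0 ψ ∧ ψ ≠ 0 ∧
    ∃ V ∈ 𝓝 x₀, ∀ x ∈ V, ψ x ≠ 0 → x ∈ closure G → x ∈ G) →
  (∀ (x₀ : M) (e : Chart n M) (v : Cm n) (δ : ℝ), Discs e x₀ v δ →
    (∀ w ∈ closedBall (e x₀) δ, ∀ τ ∈ ann (1 / 4) 4, e.symm (w + τ • v) ∈ G) → x₀ ∈ G) →
  G = univ

variable (n M) in
/-- **DF**: differentials of holomorphic maps -/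
structure DF : Prop where
  congr : ∀ (Ψ Ψ' : Cm n → M) (y : Cm n), Ψ =ᶠ[𝓝 y] Ψ' → jm Ψ y = jm Ψ' y
  ch : ∀ (Ψ : Cm n → M) (y : Cm n) (e : Chart n M), MDifferentiableAt 𝓘(ℂ, Cm n) 𝓘(ℂ, Cm n) Ψ y →
    Hc e → Ψ y ∈ e.source → DifferentiableAt ℂ (fun w => e (Ψ w)) y ∧
      jm Ψ y = jacM e (pc n (Ψ y)) (Ψ y) * mx (fderiv ℂ (fun w => e (Ψ w)) y) ∧
      ((jm Ψ y).det ≠ 0 ↔ Function.Injective (fderiv ℂ (fun w => e (Ψ w)) y))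
  chain : ∀ (Ψ : Cm n → M) (g : Cm n → Cm n) (y : Cm n),
    MDifferentiableAt 𝓘(ℂ, Cm n) 𝓘(ℂ, Cm n) Ψ (g y) → DifferentiableAt ℂ g y →
    jm (fun w => Ψ (g w)) y = jm Ψ (g y) * mx (fderiv ℂ g y) ∧
      ∀ v, dn (fun w => Ψ (g w)) y v = dn Ψ (g y) (fderiv ℂ g y v)
  symm : ∀ e : Chart n M, Hc e → Hn e.symm e.target ∧
    MDifferentiableOn 𝓘(ℂ, Cm n) 𝓘(ℂ, Cm n) e e.source ∧ ∀ w ∈ e.target, (jm e.symm w).det ≠ 0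
  /-- composition with a biholomorphic map -/
  comp : ∀ (Ψ : Cm n → M) (y : Cm n) (φ φ' : M → M), MDifferentiableAt 𝓘(ℂ, Cm n) 𝓘(ℂ, Cm n) Ψ y →
    MDifferentiable 𝓘(ℂ, Cm n) 𝓘(ℂ, Cm n) φ → MDifferentiable 𝓘(ℂ, Cm n) 𝓘(ℂ, Cm n) φ' →
    (∀ x, φ' (φ x) = x) → (jm Ψ y).det ≠ 0 → (jm (fun w => φ (Ψ w)) y).det ≠ 0
  /-- etale maps are locally injective and open -/
  loc : ∀ (Ψ : Cm n → M) (U : Set (Cm n)), IsOpen U → Hn Ψ U → ∀ y ∈ U, (jm Ψ y).det ≠ 0 →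
    (∃ W ∈ 𝓝 y, InjOn Ψ W) ∧ 𝓝 (Ψ y) ≤ map Ψ (𝓝 y)
  /-- uniqueness of lifts -/
  unq : ∀ (Ψ : Cm n → M) (U : Set (Cm n)), IsOpen U → Hn Ψ U → (∀ y ∈ U, (jm Ψ y).det ≠ 0) →
    ∀ (V : Type) [TopologicalSpace V] (S : Set V) (k k' : V → Cm n), IsPreconnected S →
      ContinuousOn k S → ContinuousOn k' S → MapsTo k S U → MapsTo k' S U →
      (∀ v ∈ S, Ψ (k v) = Ψ (k' v)) → ∀ v₀ ∈ S, k v₀ = k' v₀ → EqOn k k' S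

variable (n M) in
/-- **INV**: solutions of `X τ y = g τ` are holomorphic -/
def INV : Prop := ∀ (V : Type) [NormedAddCommGroup V] [NormedSpace ℂ V] [FiniteDimensional ℂ V]
  (X : V → Cm n → M) (D : Set (V × Cm n)) (g : V → M) (S : Set V) (y : V → Cm n), IsOpen D →
  MDifferentiableOn 𝓘(ℂ, V × Cm n) 𝓘(ℂ, Cm n) (fun q : V × Cm n => X q.1 q.2) D →
  (∀ q ∈ D, (jm (X q.1) q.2).det ≠ 0) → IsOpen S → MDifferentiableOn 𝓘(ℂ, V) 𝓘(ℂ, Cm n) g S →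
  (∀ τ ∈ S, (τ, y τ) ∈ D ∧ X τ (y τ) = g τ) →
  (ContinuousOn y S ∨ ∀ τ ∈ S, InjOn (X τ) {w | (τ, w) ∈ D}) → DifferentiableOn ℂ y S

variable (n M) in
/-- **NF**: normal families -/
def NF : Prop := ∀ (V : Type) [NormedAddCommGroup V] [NormedSpace ℂ V] [FiniteDimensional ℂ V]
  (U : Ultrafilter ℕ) (g : ℕ → V → M) (D : Set V) (K : Set M), IsOpen D → IsCompact K →
  (∀ᶠ k in U, MDifferentiableOn 𝓘(ℂ, V) 𝓘(ℂ, Cm n) (g k) D ∧ MapsTo (g k) D K) →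
  ∃ g₀ : V → M, MDifferentiableOn 𝓘(ℂ, V) 𝓘(ℂ, Cm n) g₀ D ∧ TendstoLocallyUniformlyOn g g₀ U D

variable (n M) in
/-- **CPE**: a disc whose annulus lies in a compact set -/
def CPE : Prop := ∀ K : Set M, IsCompact K → ∃ K' : Set M, IsCompact K' ∧
  ∀ f : ℂ → M, H1 n f (ball 0 4) → (∀ τ ∈ ann 1 3, f τ ∈ K) → f 0 ∈ K'

variable (n M) in
/-- **HUR**: limits of injective maps -/
def HUR : Prop := ∀ (Θ : ℕ → Cm n → M) (Θ₀ : Cm n → M), Hn Θ₀ univ →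
  (∀ R : ℝ, ∀ᶠ k in uf, Hn (Θ k) (ball 0 R) ∧ InjOn (Θ k) (ball 0 R) ∧
    ∀ y ∈ ball (0 : Cm n) R, (jm (Θ k) y).det ≠ 0) →
  TendstoLocallyUniformly Θ Θ₀ uf → (jm Θ₀ 0).det ≠ 0 →
  (∀ y, (jm Θ₀ y).det ≠ 0) ∧ Function.Injective Θ₀ ∧
    ∀ K : Set M, IsCompact K → K ⊆ range Θ₀ → ∃ R : ℝ, ∀ᶠ k in uf, K ⊆ Θ k '' ball 0 R

variable (n M) in
/-- **BIH**: bijective etale maps -/
def BIH : Prop := ∀ Θ : Cm n → M, Hn Θ univ → (∀ y, (jm Θ y).det ≠ 0) → Function.Bijective Θ →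
  ∃ Φ : M ≃ₘ^1⟮𝓘(ℂ, Cm n), 𝓘(ℂ, Cm n)⟯ Cm n, ∀ y, Φ (Θ y) = y

variable [RiemannianBundle fun x : M => TangentSpace 𝓘(ℝ, Cm n) x] (F : Flow n M)

/-- **MT**: the metric along holomorphic maps -/
structure MT : Prop where
  ch : ∀ t, 0 ≤ t → ∀ (Ψ : Cm n → M) (y : Cm n) (e : Chart n M),
    MDifferentiableAt 𝓘(ℂ, Cm n) 𝓘(ℂ, Cm n) Ψ y → Hc e → Ψ y ∈ e.source →
    F.pull Ψ t y = pb (mx (fderiv ℂ (fun w => e (Ψ w)) y)) (F.g t e (e (Ψ y))) ∧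
      ∀ v, F.nv t (Ψ y) (dn Ψ y v) = qf (F.g t e (e (Ψ y))) (fderiv ℂ (fun w => e (Ψ w)) y v)
  symm : ∀ t, 0 ≤ t → ∀ e : Chart n M, Hc e → ∀ w ∈ e.target, ∀ v,
    F.nv t (e.symm w) (dn e.symm w v) = qf (F.g t e w) v
  pos : ∀ t, 0 ≤ t → ∀ (Ψ : Cm n → M) (y : Cm n), (jm Ψ y).det ≠ 0 → (F.pull Ψ t y).PosDef
  et : ∀ (t l : ℝ) (Ψ : Cm n → M) (y : Cm n), 0 < l →
    (∀ v, l * ‖v‖ ^ 2 ≤ F.nv t (Ψ y) (dn Ψ y v)) → (jm Ψ y).det ≠ 0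
  nonneg : ∀ t, 0 ≤ t → ∀ x v, 0 ≤ F.nv t x v
  anti : ∀ s t, 0 ≤ s → s ≤ t → ∀ x v, F.nv t x v ≤ F.nv s x v
  cs : ∀ P : Mx n, P.PosDef → ∀ ξ v : Cm n, ‖ξ ⬝ᵥ v‖ ^ 2 ≤ hq P ξ * qf P v
  dual : ∀ P : Mx n, P.PosDef → ∀ (ξ : Cm n) (B : ℝ), 0 ≤ B →
    (∀ v, ‖ξ ⬝ᵥ v‖ ^ 2 ≤ B * qf P v) → hq P ξ ≤ B
  /-- comparison of the metrics from comparison of the dual metrics -/
  undual : ∀ P P' : Mx n, P.PosDef → P'.PosDef → ∀ B : ℝ, (∀ ξ, hq P ξ ≤ B * hq P' ξ) →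
    ∀ v, qf P' v ≤ B * qf P v
  cmp : ∀ t, 0 ≤ t → ∀ e : Chart n M, Hc e → ∀ K, IsCompact K → K ⊆ e.target →
    ∃ c : ℝ, 0 < c ∧ ∀ w ∈ K, ∀ v, c * ‖v‖ ^ 2 ≤ qf (F.g t e w) v ∧ c * qf (F.g t e w) v ≤ ‖v‖ ^ 2
  decay : ∀ K, IsCompact K → ∀ δ : ℝ, 0 < δ → ∀ᶠ t in atTop, ∀ x ∈ K, ∀ v,
    F.nv t x v ≤ δ * F.nv 0 x v
  /-- the determinant of the differential in a chart -/
  det : ∀ e : Chart n M, Hc e → ∀ K, IsCompact K → K ⊆ e.target → ∀ l : ℝ, 0 < l →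
    ∃ c : ℝ, 0 < c ∧ ∀ t, 0 ≤ t → ∀ (Ψ : Cm n → M) (y : Cm n),
      MDifferentiableAt 𝓘(ℂ, Cm n) 𝓘(ℂ, Cm n) Ψ y → Ψ y ∈ e.source → e (Ψ y) ∈ K →
      (∀ v, l * ‖v‖ ^ 2 ≤ F.nv t (Ψ y) (dn Ψ y v)) →
      c * Real.exp ((F.u t (Ψ y) - F.u 0 (Ψ y)) / 2) ≤
        ‖(mx (fderiv ℂ (fun w => e (Ψ w)) y)).det‖

/-- **CONV**: the pull-back of the metric depends continuously on the map -/
def CONV : Prop := ∀ t, 0 ≤ t → ∀ (ι : Type) (l : Filter ι) (E : ι → ℂ → Cm n → M)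
  (E₀ : ℂ → Cm n → M) (D : Set (ℂ × Cm n)) (q : ι → ℂ × Cm n) (q₀ : ℂ × Cm n), IsOpen D →
  (∀ᶠ k in l, HP (E k) D) → HP E₀ D →
  TendstoLocallyUniformlyOn (fun k (q : ℂ × Cm n) => E k q.1 q.2) (fun q => E₀ q.1 q.2) l D →
  q₀ ∈ D → Tendsto q l (𝓝 q₀) →
  Tendsto (fun k => F.pull (E k (q k).1) t (q k).2) l (𝓝 (F.pull (E₀ q₀.1) t q₀.2))

/-- the logarithm of the norm of the covector with the components `α` -/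
def lw (E : ℂ → Cm n → M) (t : ℝ) (y α : Cm n) (σ : ℂ) : ℝ := Real.log (hq (F.pull (E σ) t y) α)

/-- **SUB**: `lw` is subharmonic -/
structure SUB : Prop where
  sub : ∀ t, 0 ≤ t → ∀ (E : ℂ → Cm n → M) (D : Set (ℂ × Cm n)) (σ : ℂ) (y α : Cm n), IsOpen D →
    HP E D → (σ, y) ∈ D → (jm (E σ) y).det ≠ 0 → α ≠ 0 →
    ContDiffAt ℝ 2 (lw F E t y α) σ ∧ 0 ≤ ddb (lw F E t y α) σ
  str : ∀ e : Chart n M, Hc e → ∀ K, IsCompact K → K ⊆ e.target → ∃ κ : ℝ, 0 < κ ∧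
    ∀ (E : ℂ → Cm n → M) (D : Set (ℂ × Cm n)) (σ : ℂ) (y α : Cm n), IsOpen D →
    HP E D → (σ, y) ∈ D → (jm (E σ) y).det ≠ 0 → α ≠ 0 → E σ y ∈ e.source → e (E σ y) ∈ K →
    κ * ‖deriv (fun s => e (E s y)) σ‖ ^ 2 ≤ ddb (lw F E 0 y α) σ

/-- **LIFT** -/
def LIFT : Prop := ∀ (t l a r : ℝ) (Ψ g : Cm n → M) (c y₀ : Cm n), 0 ≤ t → 0 < l → 0 ≤ a → 0 < r →
  Hn Ψ (ball 0 1) → (∀ y ∈ ball (0 : Cm n) 1, ∀ v, l ^ 2 * ‖v‖ ^ 2 ≤ F.nv t (Ψ y) (dn Ψ y v)) →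
  Hn g (ball c r) → (∀ w ∈ ball c r, ∀ v, F.nv t (g w) (dn g w v) ≤ a ^ 2 * ‖v‖ ^ 2) →
  Ψ y₀ = g c → ‖y₀‖ + a * r / l < 1 →
  ∃ s : Cm n → Cm n, DifferentiableOn ℂ s (ball c r) ∧ s c = y₀ ∧
    ∀ w ∈ ball c r, Ψ (s w) = g w ∧ ‖s w - y₀‖ ≤ a * r / l

/-- the growth of the volume form at `p` -/
def Uk (p : M) (k : ℕ) : ℝ := 1 + (F.u (tk k) p - F.u 0 p)

/-- **UH**: the growth is comparable at all points -/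
def UH : Prop := ∀ p : M, (∀ k, 1 ≤ Uk F p k) ∧ Tendsto (Uk F p) atTop atTop ∧
  ∀ R : ℝ, ∃ C : ℝ, 1 ≤ C ∧ ∀ k, ∀ x ∈ ball p R, Uk F x k ≤ C * Uk F p k ∧ Uk F p k ≤ C * Uk F x k

/-- sections of the charts -/
def Sec (p : M) (Ψ : ℕ → Cm n → M) (s : ℕ → M → Cm n) : Prop := ∀ R δ : ℝ, 0 < δ →
  ∀ᶠ k in atTop, s k p = 0 ∧ MDifferentiableOn 𝓘(ℂ, Cm n) 𝓘(ℂ, Cm n) (s k) (ball p R) ∧
    ∀ x ∈ ball p R, Ψ k (s k x) = x ∧ ‖s k x‖ ≤ δ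

/-- pinching of the metric -/
def Pinl (p : M) : Prop := ∀ x₀, ∃ V ∈ 𝓝 x₀, ∃ c : ℝ, 0 < c ∧ ∀ᶠ k in atTop, ∀ x ∈ V, ∀ v,
  F.nv (tk k) x v ≤ Real.exp (-(c * Uk F p k)) * F.nv 0 x v

/-- compact sets are exponentially small in the charts -/
def Pin (p : M) (s : ℕ → M → Cm n) : Prop := ∀ R : ℝ, ∃ c : ℝ, 0 < c ∧ ∀ᶠ k in atTop,
  ∀ x ∈ ball p R, ‖s k x‖ ≤ Real.exp (-(c * Uk F p k))

variable [MeasurableSpace M] (μ : Measure M)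

/-- the charts at `p` -/
structure Ch (p : M) (Ψ : ℕ → Cm n → M) (l L r : ℝ) : Prop where
  l_pos : 0 < l
  l_le : l ≤ L
  r_pos : 0 < r
  r_le : r ≤ 1
  hol : ∀ k, Hn (Ψ k) (ball 0 1)
  zero : ∀ k, Ψ k 0 = p
  met : ∀ k, ∀ y ∈ ball (0 : Cm n) 1, ∀ v, l * ‖v‖ ^ 2 ≤ F.nv (tk k) (Ψ k y) (dn (Ψ k) y v) ∧
    F.nv (tk k) (Ψ k y) (dn (Ψ k) y v) ≤ L * ‖v‖ ^ 2
  mul : ∃ C : ℝ, ∀ k, ∀ G : M → ℝ≥0∞, Measurable G → ∫⁻ y in ball (0 : Cm n) r, G (Ψ k y) ≤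
    ENNReal.ofReal (Real.exp (C * Uk F p k)) * ∫⁻ q, G q ∂(F.vol μ (tk k))

/-- **CH** -/
def CH : Prop := ∀ p, ∃ Ψ l L r, Ch F μ p Ψ l L r

/-- **SEC** -/
def SEC : Prop := ∀ p Ψ l L r, Ch F μ p Ψ l L r → ∃ s, Sec p Ψ s

/-- **PIN** -/
def PIN : Prop := ∀ p Ψ l L r s, Ch F μ p Ψ l L r → Sec p Ψ s → Pinl F p → Pin F p s

variable {F μ} (T : F.TA μ)

/-- **ZC**: charts given by tame functions -/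
structure ZC : Prop where
  ex : ∀ x, ∃ (z : Fin n → M → ℂ) (e : Chart n M), (∀ i, z i ∈ T.A) ∧ Hc e ∧ x ∈ e.source ∧
    ∀ y ∈ e.source, e y = zv z y
  cap : ∀ (z : Fin n → M → ℂ) (e : Chart n M), (∀ i, z i ∈ T.A) → (∀ y ∈ e.source, e y = zv z y) →
    ∀ S : Set M, IsPreconnected S → (∀ y ∈ S, zv z y ∈ e.target) → (∃ y ∈ S, y ∈ e.source) →
      S ⊆ e.source
  sec : ∀ a ∈ T.A, IsSec n 0 a ∧ MDifferentiable 𝓘(ℂ, Cm n) 𝓘(ℂ, ℂ) a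
  mem : ∀ P : Pz n, (fun x => MvPolynomial.eval (zv T.z x) P) ∈ T.A
  ind : ∀ P : Pz n, P ≠ 0 → ∃ x, MvPolynomial.eval (zv T.z x) P ≠ 0
  /-- the zeros of a holomorphic function are nowhere dense -/
  dense : ∀ ψ : M → ℂ, IsSec n 0 ψ → ψ ≠ 0 → IsOpen {x | ψ x ≠ 0} ∧ Dense {x | ψ x ≠ 0}

/-- the value of `Q(z)` -/
def Qz (x : M) : ℂ := MvPolynomial.eval (zv T.z x) T.Q

/-- **CPT**: discs on which `z` is bounded -/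
def CPT : Prop := ∀ K₁ : Set M, IsCompact K₁ → (∀ x ∈ K₁, Qz T x ≠ 0) → ∀ R C : ℝ, 0 < R →
  ∃ K : Set M, IsCompact K ∧ ∀ f : ℂ → M, H1 n f (ball 0 R) → f 0 ∈ K₁ →
    (∀ τ ∈ ball (0 : ℂ) R, ‖zv T.z (f τ)‖ ≤ C) → ∀ τ ∈ ball (0 : ℂ) (R / 8), f τ ∈ K

/-- the tools -/
structure Tools : Prop where
  pin0 : PIN0
  th2 : TH2
  bdd : BDD
  opn : OPN n
  dim : DIM n
  dep : DEP n
  exit : EXIT n
  mono : MONO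
  jb : C.JB
  eig : C.EIG n
  mer : C.MER
  map : C.MAP n M
  pul : C.PUL F
  pcf : C.PCF T
  l2h : C.L2H T
  all : All0 n μ
  prop : PROP n M
  df : DF n M
  inv : INV n M
  nf : NF n M
  cpe : CPE n M
  hur : HUR n M
  bih : BIH n M
  mt : MT F
  conv : CONV F
  sub : SUB F
  lift : LIFT F
  uh : UH F
  zc : ZC T
  cpt : CPT T

/-- tame functions in the charts -/
def Bnd (p : M) (Ψ : ℕ → Cm n → M) (r : ℝ) : Prop := ∀ a ∈ T.A, ∃ C : ℝ, ∀ᶠ k in atTop,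
  ∀ y ∈ ball (0 : Cm n) (r / 16), ‖a (Ψ k y)‖ ≤ Real.exp (C * Uk F p k)

/-- **BND** -/
def BND : Prop := ∀ p Ψ l L r s, Ch F μ p Ψ l L r → Sec p Ψ s → Bnd T p Ψ r

/-- **PINL** -/
def PINL : Prop := ∀ p Ψ l L r s, Ch F μ p Ψ l L r → Sec p Ψ s → Bnd T p Ψ r → Pinl F p

/-- exhausting charts -/
structure Ex where
  p : M
  Ψ : ℕ → Cm n → M
  s : ℕ → M → Cm n
  l : ℝ
  L : ℝ
  r : ℝ
  ch : Ch F μ p Ψ l L r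
  sec : Sec p Ψ s
  bnd : Bnd T p Ψ r
  pin : Pin F p s

/-- algebraic over `ℂ[z]` -/
def Alg (f : M → ℂ) : Prop := ∃ R : Polynomial (Pz n), R ≠ 0 ∧ ∀ x, ev R (zv T.z x) (f x) = 0

variable {T}

/-- holomorphic functions of exponential size in the charts -/
def Ex.Fn (X : Ex T) (φ : ℕ → Cm n → ℂ) : Prop := ∃ ρ C : ℝ, 0 < ρ ∧ ∀ᶠ k in uf,
  DifferentiableOn ℂ (φ k) (ball 0 ρ) ∧
    ∀ y ∈ ball (0 : Cm n) ρ, ‖φ k y‖ ≤ Real.exp (C * Uk F X.p k)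

/-- approximate relations -/
def Ex.Rel (X : Ex T) : Prop := ∀ φ, X.Fn φ → ∀ R₀ : ℝ, ∃ R : Polynomial (Pz n), R ≠ 0 ∧
  ∀ B ε : ℝ, 0 < ε → ∀ᶠ k in uf, ∀ x ∈ ball X.p R₀, ‖φ k (X.s k x)‖ ≤ B →
    ‖ev R (zv T.z x) (φ k (X.s k x))‖ ≤ ε

/-- bounds propagate -/
def Ex.Dbl (X : Ex T) : Prop := ∀ φ, X.Fn φ → ∀ (O : Set M) (B : ℝ), IsOpen O → O.Nonempty →
  (∀ᶠ k in uf, ∀ x ∈ O, ‖φ k (X.s k x)‖ ≤ B) →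
  ∀ R : ℝ, ∃ B' : ℝ, ∀ᶠ k in uf, ∀ x ∈ ball X.p R, ‖φ k (X.s k x)‖ ≤ B'

/-- the translations -/
def Ex.tr (X : Ex T) (v : ℕ → Cm n) (k : ℕ) (σ : ℂ) (x : M) : M := X.Ψ k (X.s k x + σ • v k)

/-- the fast directions -/
structure Ex.Dir (X : Ex T) (v : ℕ → Cm n) (W : Set M) : Prop where
  small : ∃ c : ℝ, 0 < c ∧ ∀ᶠ k in atTop, 0 < ‖v k‖ ∧ ‖v k‖ ≤ Real.exp (-(c * Uk F X.p k))
  op : IsOpen W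
  ne : W.Nonempty
  sub : W ⊆ ball X.p 1
  cap : ∃ K, IsCompact K ∧ ∀ᶠ k in atTop, ∀ x ∈ W, ∀ σ ∈ closedBall (0 : ℂ) 1, X.tr v k σ x ∈ K
  move : ∃ (K : Set M) (δ : ℝ), IsCompact K ∧ 0 < δ ∧ ∀ᶠ k in atTop, ∃ x ∈ K,
    δ ≤ dist (X.tr v k 1 x) x
  fast : ∃ C : ℝ, ∀ᶠ k in atTop, ∀ x ∈ W, ∀ w, ‖v k‖ ^ 2 * F.nv 0 x w ≤ C * F.nv (tk k) x w

/-- polynomial growth of the translations -/
def Ex.Gro (X : Ex T) (v : ℕ → Cm n) : Prop := ∃ N : ℕ, ∀ R : ℝ, ∃ B : ℝ, ∀ R' : ℝ, ∀ᶠ k in uf,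
  ∀ x ∈ ball X.p R, ∀ σ ∈ ball (0 : ℂ) R', ‖zv T.z (X.tr v k σ x)‖ ≤ B * (1 + ‖σ‖) ^ N

/-- compactness of the translations -/
def Ex.Cpt (X : Ex T) (v : ℕ → Cm n) : Prop := ∀ R : ℝ, ∃ K, IsCompact K ∧ ∀ᶠ k in uf,
  ∀ x ∈ ball X.p R, ∀ σ ∈ ball (0 : ℂ) R, X.tr v k σ x ∈ K

/-- the limit of the translations -/
structure Ex.Lim (X : Ex T) (v : ℕ → Cm n) (Φ : ℂ → M → M) : Prop where
  hol : MDifferentiable (𝓘(ℂ, ℂ).prod 𝓘(ℂ, Cm n)) 𝓘(ℂ, Cm n) fun q : ℂ × M => Φ q.1 q.2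
  lim : TendstoLocallyUniformly (fun k (q : ℂ × M) => X.tr v k q.1 q.2) (fun q => Φ q.1 q.2) uf

/-- the action in the chart `e` -/
def orb (Φ : ℂ → M → M) (e : Chart n M) (σ : ℂ) (w : Cm n) : M := Φ σ (e.symm w)

variable (F) in
/-- invariant vectors do not decay fast -/
def E1 (Φ : ℂ → M → M) (W : Set M) : Prop := ∀ e : Chart n M, Hc e → ∀ x ∈ W, x ∈ e.source →
  ∃ C : ℝ, ∀ (σ : ℂ) (v : Cm n),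
    ‖v‖ ^ 2 ≤ C * (1 + ‖σ‖) ^ 2 * F.nv 1 (Φ σ x) (dn (orb Φ e σ) (e x) v)

variable (T) in
/-- an action of `ℂ` -/
structure Act0 (Φ : ℂ → M → M) (N : ℕ) : Prop where
  hol : MDifferentiable (𝓘(ℂ, ℂ).prod 𝓘(ℂ, Cm n)) 𝓘(ℂ, Cm n) fun q : ℂ × M => Φ q.1 q.2
  zero : ∀ x, Φ 0 x = x
  add : ∀ σ σ' x, Φ (σ + σ') x = Φ σ (Φ σ' x)
  ne : ∃ σ x, Φ σ x ≠ x
  deg : ∀ x, ∃ C : ℝ, ∀ σ, ‖zv T.z (Φ σ x)‖ ≤ C * (1 + ‖σ‖) ^ N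
  alg : ∀ i σ, Alg T fun x => T.z i (Φ σ x)

variable (T)

/-- **REL** -/
def REL : Prop := ∀ X : Ex T, X.Rel
/-- **DBL** -/
def DBL : Prop := ∀ X : Ex T, X.Rel → X.Dbl
/-- **DIR** -/
def DIR : Prop := ∀ X : Ex T, ∃ v W, X.Dir v W
/-- **GRO** -/
def GRO : Prop := ∀ (X : Ex T) v W, X.Dbl → X.Dir v W → X.Gro v
/-- **CPA** -/
def CPA : Prop := ∀ (X : Ex T) v W, X.Dir v W → X.Gro v → X.Cpt v
/-- **LIM** -/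
def LIM : Prop := ∀ (X : Ex T) v W, X.Dir v W → X.Cpt v → ∃ Φ, X.Lim v Φ
/-- **ACT** -/
def ACT : Prop := ∀ (X : Ex T) v W Φ, X.Rel → X.Dir v W → X.Gro v → X.Cpt v → X.Lim v Φ →
  ∃ N, Act0 T Φ N
/-- **EE** -/
def EE : Prop := ∀ (X : Ex T) v W Φ N, X.Dir v W → X.Lim v Φ → Act0 T Φ N → E1 F Φ W

/-- generic points -/
structure Good (Φ : ℂ → M → M) (N : ℕ) (x : M) : Prop where
  Q : Qz T x ≠ 0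
  ne : ∃ σ, Φ σ x ≠ x
  top : ∀ i, ∀ l : ℕ, l ≤ N → ∃ R : Polynomial (Pz n),
    (∀ y, ev R (zv T.z y) (T.z i (Φ l y)) = 0) ∧
      MvPolynomial.eval (zv T.z x) R.leadingCoeff ≠ 0

/-- **GEN** -/
def GEN : Prop := ∀ Φ N, Act0 T Φ N → (∀ W : Set M, IsOpen W → W.Nonempty →
  ∃ O : Set M, IsOpen O ∧ O.Nonempty ∧ O ⊆ W ∧ ∀ x ∈ O, Good T Φ N x) ∧
  ∀ x, Good T Φ N x → T.PC fun σ => Φ σ x

variable {T}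

/-- the slice of the tube, moved back -/
def Th (Φ : ℂ → M → M) {f : ℂ → M} {ν : ℝ} (B : T.Tube f ν) (σ : ℂ) (y : Cm n) : M :=
  Φ (-σ) (B.Ξ σ y)

/-- the slice of the tube, scaled to the unit ball -/
def scl {f : ℂ → M} {ν : ℝ} (B : T.Tube f ν) (σ : ℂ) (w : Cm n) : M :=
  B.Ξ σ fun i => ((‖σ‖ ^ (B.k i - B.ε) : ℝ) : ℂ) * w i

/-- elementary properties of the slices -/
structure Thb (Φ : ℂ → M → M) {f : ℂ → M} {ν : ℝ} (B : T.Tube f ν) : Prop where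
  op : IsOpen {q : ℂ × Cm n | B.ρ < ‖q.1‖ ∧ q.2 ∈ Flow.sl B.k B.ε q.1}
  hol : HP (Th Φ B) {q : ℂ × Cm n | B.ρ < ‖q.1‖ ∧ q.2 ∈ Flow.sl B.k B.ε q.1}
  sl : ∀ σ ∈ ex B.ρ, IsOpen (Flow.sl B.k B.ε σ) ∧ 0 ∈ Flow.sl B.k B.ε σ ∧
    Hn (B.Ξ σ) (Flow.sl B.k B.ε σ) ∧ Hn (Th Φ B σ) (Flow.sl B.k B.ε σ) ∧
    InjOn (Th Φ B σ) (Flow.sl B.k B.ε σ)
  et : ∃ ρ : ℝ, ∀ σ ∈ ex ρ, ∀ y ∈ Flow.sl B.k B.ε σ,
    (jm (B.Ξ σ) y).det ≠ 0 ∧ (jm (Th Φ B σ) y).det ≠ 0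
  big : ∃ κ ρ : ℝ, 0 < κ ∧ (∀ i, κ ≤ B.k i - B.ε) ∧ ∀ σ ∈ ex ρ,
    ball 0 (‖σ‖ ^ κ) ⊆ Flow.sl B.k B.ε σ
  scl : ∀ η : ℝ, 0 < η → ∃ ρ : ℝ, ∀ σ ∈ ex ρ, Hn (scl B σ) (ball 0 1) ∧
    InjOn (scl B σ) (ball 0 1) ∧ ∀ w ∈ ball (0 : Cm n) 1,
      (fun i => ((‖σ‖ ^ (B.k i - B.ε) : ℝ) : ℂ) * w i) ∈ Flow.sl B.k B.ε σ ∧ ∀ v,
      ‖σ‖ ^ (-η - 2 * B.ε) * ‖v‖ ^ 2 ≤ F.nv 1 (scl B σ w) (dn (scl B σ) w v) ∧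
      F.nv 1 (scl B σ w) (dn (scl B σ) w v) ≤ ‖σ‖ ^ (η - 2 * B.ε) * ‖v‖ ^ 2

/-- the differential of `Th` at the origin is bounded above and below -/
def Dm (Φ : ℂ → M → M) {f : ℂ → M} {ν : ℝ} (B : T.Tube f ν) (e : Chart n M) : Prop :=
  ∃ c ρ : ℝ, 0 < c ∧ ∀ σ ∈ ex ρ, ∀ v,
    c * ‖v‖ ≤ ‖fderiv ℂ (fun y => e (Th Φ B σ y)) 0 v‖ ∧
    c * ‖fderiv ℂ (fun y => e (Th Φ B σ y)) 0 v‖ ≤ ‖v‖

variable (F) in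
/-- the decay of the differential of the action -/
def Dc (Φ : ℂ → M → M) (e : Chart n M) (w : Cm n) (κ m : ℝ) : Prop := ∀ σ ∈ ex m, ∀ v,
  F.nv 1 (orb Φ e σ w) (dn (orb Φ e σ) w v) ≤ m * ‖σ‖ ^ (-(2 * κ)) * ‖v‖ ^ 2

variable (T)

/-- **THB** -/
def THB : Prop := ∀ Φ N, Act0 T Φ N → ∀ f ν (B : T.Tube f ν), Thb Φ B

/-- **DM** -/
def DM : Prop := ∀ Φ N W, Act0 T Φ N → E1 F Φ W → ∀ x ∈ W, Good T Φ N x → ∀ e : Chart n M, Hc e →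
  x ∈ e.source → ∀ ν (B : T.Tube (fun σ => Φ σ x) ν), Thb Φ B →
    Dm Φ B e ∧ ∀ κ, (∀ i, κ < B.k i) → ∃ m : ℕ, Dc F Φ e (e x) κ m

/-- the data for the last step -/
structure Dt where
  Φ : ℂ → M → M
  N : ℕ
  p : M
  e : Chart n M
  r : ℝ
  ν : ℝ
  B : T.Tube (fun σ => Φ σ p) ν
  κ : ℝ
  m : ℝ
  act : Act0 T Φ N
  good : Good T Φ N p
  he : Hc e
  src : p ∈ e.source
  r_pos : 0 < r
  sub : closedBall (e p) r ⊆ e.target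
  lt : B.ε < κ
  dc : ∀ w ∈ ball (e p) r, Dc F Φ e w κ m
  dm : Dm Φ B e
  thb : Thb Φ B

/-- **BAI** -/
def BAI : Prop := ∀ Φ N W, Act0 T Φ N → E1 F Φ W → IsOpen W → W.Nonempty → T.TB → Nonempty (Dt T)

variable {T}

/-- the slices are bounded near the origin -/
def Dt.Ent (D : Dt T) : Prop := ∃ ρ r' : ℝ, 0 < r' ∧ ∀ σ ∈ ex ρ, ∀ y ∈ ball (0 : Cm n) r',
  Th D.Φ D.B σ y ∈ D.e.symm '' closedBall (D.e D.p) D.r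

/-- a rough bound on the slices -/
def Dt.Rgh (D : Dt T) : Prop := ∃ κ C ρ : ℝ, 0 < κ ∧ ∀ σ ∈ ex ρ,
  ∀ y ∈ ball (0 : Cm n) (‖σ‖ ^ κ), y ∈ Flow.sl D.B.k D.B.ε σ ∧ ‖zv T.z (Th D.Φ D.B σ y)‖ ≤ ‖σ‖ ^ C

/-- the limit of the slices -/
structure Dt.Lim (D : Dt T) (Θ : Cm n → M) : Prop where
  hol : Hn Θ univ
  lim : TendstoLocallyUniformly (fun k : ℕ => Th D.Φ D.B k) Θ uf
  et : (jm Θ 0).det ≠ 0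
  gro : ∃ (C : ℝ) (N : ℕ), ∀ y, ‖zv T.z (Θ y)‖ ≤ C * (1 + ‖y‖) ^ N

/-- discs whose annuli lie in the image -/
def Dt.Disc (D : Dt T) (Θ : Cm n → M) : Prop := ∀ (f : ℂ → M) (R : ℝ), H1 n f (ball 0 3) →
  (∀ᶠ k : ℕ in uf, ∀ τ : ℂ, 1 / 3 < ‖τ‖ → ‖τ‖ < 3 → f τ ∈ Th D.Φ D.B k '' ball 0 R) →
  f 0 ∈ range Θ

variable (T)

/-- **ENT** -/
def ENT : Prop := ∀ D : Dt T, D.Ent
/-- **RGH** -/
def RGH : Prop := ∀ D : Dt T, D.Rgh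
/-- **LMT** -/
def LMT : Prop := ∀ D : Dt T, D.Ent → D.Rgh → ∃ Θ, D.Lim Θ
/-- **DSC** -/
def DSC : Prop := ∀ (D : Dt T) Θ, D.Lim Θ → D.Disc Θ
/-- **FIN** -/
def FIN : Prop := ∀ (D : Dt T) Θ, D.Lim Θ → D.Disc Θ → T.END

/-- the assembly -/
theorem end_of [Nonempty M] (ch : CH F μ) (sec : SEC F μ) (bnd : BND T) (pinl : PINL T)
    (pin : PIN F μ) (rel : REL T) (dbl : DBL T) (dir : DIR T) (gro : GRO T) (cpa : CPA T)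
    (lim : LIM T) (act : ACT T) (ee : EE T) (bai : BAI T) (ent : ENT T) (rgh : RGH T)
    (lmt : LMT T) (dsc : DSC T) (fin : FIN T) (tb : T.TB) : T.END := by
  obtain ⟨Ψ, l, L, r, h1⟩ := ch F.o
  obtain ⟨s, h2⟩ := sec _ _ _ _ _ h1
  have h3 := bnd _ _ _ _ _ _ h1 h2
  let X : Ex T := ⟨F.o, Ψ, s, l, L, r, h1, h2, h3, pin _ _ _ _ _ _ h1 h2 (pinl _ _ _ _ _ _ h1 h2 h3)⟩
  obtain ⟨v, W, h4⟩ := dir X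
  have h5 := gro X v W (dbl X (rel X)) h4
  have h6 := cpa X v W h4 h5
  obtain ⟨Φ, h7⟩ := lim X v W h4 h6
  obtain ⟨N, h8⟩ := act X v W Φ (rel X) h4 h5 h6 h7
  obtain ⟨D⟩ := bai Φ N W h8 (ee X v W Φ N h4 h7 h8) h4.op h4.ne tb
  obtain ⟨Θ, h9⟩ := lmt D (ent D) (rgh D)
  exact fin D Θ h9 (dsc D Θ h9)

end Vale.Agent.P253W.D
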